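import Mathlib

/-!
# P123: the abstract part of the improvement of the Crouzeix–Palencia constant
-/

open Polynomial ComplexConjugate
open scoped InnerProductSpace

namespace Vale.Agent.P123

variable {H : Type*} [NormedAddCommGroup H] [InnerProductSpace ℂ H]

/-- `p` is bounded by `M` on `Om`. -/
def Bdd (Om : Set ℂ) (M : ℝ) (p : ℂ[X]) : Prop := ∀ z ∈ Om, ‖p.eval z‖ ≤ M

/-- The approximate double layer potential structure. -/
structure Sys (A : H →L[ℂ] H) (Om : Set ℂ) (ε : ℝ) (α : ℂ[X] → ℂ[X]) : Prop where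
  add : ∀ p q, α (p + q) = α p + α q
  smul : ∀ (c : ℂ) (p : ℂ[X]), α (C c * p) = C (conj c) * α p
  pos : ∀ (p : ℂ[X]) (M : ℝ), Bdd Om 1 p → (∀ z ∈ Om, (p.eval z).re ≤ M) →
    ∀ z ∈ Om, ((α p).eval z).re ≤ M + ε
  cp : ∀ h k F : ℂ[X], Bdd Om 1 h → Bdd Om 1 k → Bdd Om 1 F →
    (∀ z ∈ Om, ‖h.eval z + conj (k.eval z)‖ ≤ (F.eval z).re) →
    ∀ x y : H, ‖x‖ ≤ 1 → ‖y‖ ≤ 1 →
    2 * (⟪y, aeval A h x⟫_ℂ + ⟪x, aeval A (α h) y⟫_ℂ + ⟪x, aeval A k y⟫_ℂ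
        + ⟪y, aeval A (α k) x⟫_ℂ).re
      ≤ (⟪x, aeval A F x⟫_ℂ + ⟪x, aeval A (α F) x⟫_ℂ + ⟪y, aeval A F y⟫_ℂ
        + ⟪y, aeval A (α F) y⟫_ℂ).re + ε

namespace Sys

variable {A : H →L[ℂ] H} {Om : Set ℂ} {ε : ℝ} {α : ℂ[X] → ℂ[X]}

lemma Bdd.scale {B : ℝ} (hB : 0 < B) {p : ℂ[X]} (hp : Bdd Om B p) :
    Bdd Om 1 (C ((B⁻¹ : ℝ) : ℂ) * p) := by
  intro z hz
  rw [eval_mul, eval_C, norm_mul, Complex.norm_real, Real.norm_of_nonneg (by positivity)]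
  have := hp z hz
  rw [inv_mul_le_iff₀ hB]; linarith

lemma pos' (S : Sys A Om ε α) {B : ℝ} (hB : 0 < B) {p : ℂ[X]} (hp : Bdd Om B p) {M : ℝ}
    (hM : ∀ z ∈ Om, (p.eval z).re ≤ M) {z : ℂ} (hz : z ∈ Om) :
    ((α p).eval z).re ≤ M + B * ε := by
  have h := S.pos (C ((B⁻¹ : ℝ) : ℂ) * p) (B⁻¹ * M) (Bdd.scale hB hp) (by
    intro z hz
    rw [eval_mul, eval_C, Complex.re_ofReal_mul]
    exact mul_le_mul_of_nonneg_left (hM z hz) (by positivity)) z hz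
  rw [S.smul, eval_mul, eval_C, Complex.conj_ofReal, Complex.re_ofReal_mul] at h
  have h2 := mul_le_mul_of_nonneg_left h hB.le
  have h3 : B * (B⁻¹ * ((α p).eval z).re) = ((α p).eval z).re := by field_simp
  have h4 : B * (B⁻¹ * M + ε) = M + B * ε := by field_simp
  rw [h3, h4] at h2
  exact h2

lemma bound (S : Sys A Om ε α) {B : ℝ} (hB : 0 < B) {p : ℂ[X]} (hp : Bdd Om B p) :
    Bdd Om (B * (1 + ε)) (α p) := by
  intro z hz
  by_cases h0 : (α p).eval z = 0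
  · rw [h0, norm_zero]
    have h1 := S.pos' hB hp (M := B) (fun z hz => (Complex.re_le_norm _).trans (hp z hz)) hz
    rw [h0, Complex.zero_re] at h1
    linarith
  · -- rotate
    set v := (α p).eval z with hv
    have hvn : 0 < ‖v‖ := norm_pos_iff.mpr h0
    set c : ℂ := v / ‖v‖ with hc
    have hc1 : ‖c‖ = 1 := by
      rw [hc, norm_div, Complex.norm_real, norm_norm, div_self hvn.ne']
    have h1 := S.pos' hB (p := C c * p) (M := B) (by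
      intro z hz
      rw [eval_mul, eval_C, norm_mul, hc1, one_mul]; exact hp z hz) (by
      intro z hz
      refine (Complex.re_le_norm _).trans ?_
      rw [eval_mul, eval_C, norm_mul, hc1, one_mul]; exact hp z hz) hz
    rw [S.smul, eval_mul, eval_C, ← hv] at h1
    have h2 : (conj c * v) = (‖v‖ : ℂ) := by
      rw [hc, map_div₀, Complex.conj_ofReal, div_mul_eq_mul_div, ← Complex.normSq_eq_conj_mul_self,
        Complex.normSq_eq_norm_sq]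
      push_cast
      rw [sq, mul_div_assoc, div_self (by exact_mod_cast hvn.ne'), mul_one]
    rw [h2, Complex.ofReal_re] at h1
    linarith

lemma cp' (S : Sys A Om ε α) {B : ℝ} (hB : 0 < B) {h k F : ℂ[X]} (hh : Bdd Om B h)
    (hk : Bdd Om B k) (hF : Bdd Om B F)
    (hm : ∀ z ∈ Om, ‖h.eval z + conj (k.eval z)‖ ≤ (F.eval z).re)
    {x y : H} (hx : ‖x‖ ≤ 1) (hy : ‖y‖ ≤ 1) :
    2 * (⟪y, aeval A h x⟫_ℂ + ⟪x, aeval A (α h) y⟫_ℂ + ⟪x, aeval A k y⟫_ℂ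
        + ⟪y, aeval A (α k) x⟫_ℂ).re
      ≤ (⟪x, aeval A F x⟫_ℂ + ⟪x, aeval A (α F) x⟫_ℂ + ⟪y, aeval A F y⟫_ℂ
        + ⟪y, aeval A (α F) y⟫_ℂ).re + B * ε := by
  have key := S.cp (C ((B⁻¹ : ℝ) : ℂ) * h) (C ((B⁻¹ : ℝ) : ℂ) * k) (C ((B⁻¹ : ℝ) : ℂ) * F)
    (Bdd.scale hB hh) (Bdd.scale hB hk) (Bdd.scale hB hF) (by
      intro z hz
      simp only [eval_mul, eval_C, map_mul, Complex.conj_ofReal]
      rw [← mul_add, norm_mul, Complex.norm_real, Real.norm_of_nonneg (by positivity),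
        Complex.re_ofReal_mul]
      exact mul_le_mul_of_nonneg_left (hm z hz) (by positivity)) x y hx hy
  simp only [S.smul, map_mul, aeval_C, Complex.conj_ofReal, mul_apply_eq_comp,
    Algebra.algebraMap_eq_smul_one, smul_apply, one_apply_eq_self,
    inner_smul_right] at key
  rw [← mul_add, ← mul_add, ← mul_add, ← mul_add, ← mul_add, ← mul_add, Complex.re_ofReal_mul,
    Complex.re_ofReal_mul] at key
  have h2 := mul_le_mul_of_nonneg_left key hB.le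
  have h3 : ∀ r s : ℝ, B * (2 * (B⁻¹ * r)) ≤ B * (B⁻¹ * s + ε) → 2 * r ≤ s + B * ε := by
    intro r s h
    have e1 : B * (2 * (B⁻¹ * r)) = 2 * r := by field_simp
    have e2 : B * (B⁻¹ * s + ε) = s + B * ε := by field_simp
    rw [e1, e2] at h; exact h
  exact h3 _ _ h2

end Sys

/-- The three exchange relations at a near-extremal pair. -/
structure Near (A : H →L[ℂ] H) (Om : Set ℂ) (K δ η : ℝ) (f : ℂ[X]) (x y : H) : Prop where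
  bdd : Bdd Om 1 f
  x_le : ‖x‖ ≤ 1
  y_le : ‖y‖ ≤ 1
  large : K - δ ≤ (⟪y, aeval A f x⟫_ℂ).re
  e1 : ∀ (v : ℂ[X]) (B : ℝ), 0 ≤ B → Bdd Om B v →
    ‖⟪y, aeval A (f * v) x⟫_ℂ - K * ⟪x, aeval A v x⟫_ℂ‖ ≤ K * B * η
  e2 : ∀ (v : ℂ[X]) (B : ℝ), 0 ≤ B → Bdd Om B v →
    ‖⟪y, aeval A (f * v) x⟫_ℂ - K * ⟪y, aeval A v y⟫_ℂ‖ ≤ K * B * η
  e3 : ∀ (v : ℂ[X]) (B : ℝ), 0 ≤ B → Bdd Om B v →
    ‖⟪x, aeval A (f * v) x⟫_ℂ - K * ⟪x, aeval A v y⟫_ℂ‖ ≤ K * B * η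

/-- The best constant on `Om` is at most `K`. -/
def SpecBd (A : H →L[ℂ] H) (Om : Set ℂ) (K : ℝ) : Prop :=
  ∀ p : ℂ[X], Bdd Om 1 p → ‖aeval A p‖ ≤ K

lemma SpecBd.scaled {A : H →L[ℂ] H} {Om : Set ℂ} {K : ℝ} (hK : SpecBd A Om K) (hK0 : 0 ≤ K)
    {v : ℂ[X]} {B : ℝ} (hB : 0 ≤ B) (hv : Bdd Om B v) : ‖aeval A v‖ ≤ K * B := by
  have key : ∀ r : ℝ, 0 < r → ‖aeval A v‖ ≤ K * (B + r) := by
    intro r hr
    have hBr : 0 < B + r := by linarith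
    have h1 := hK _ (Sys.Bdd.scale hBr (p := v) (fun z hz => (hv z hz).trans (by linarith)))
    rw [map_mul, aeval_C, Algebra.algebraMap_eq_smul_one, smul_mul_assoc, one_mul, norm_smul,
      Complex.norm_real, Real.norm_of_nonneg (by positivity)] at h1
    rw [inv_mul_le_iff₀ hBr] at h1
    linarith
  refine le_of_forall_pos_le_add fun r hr => ?_
  have h2 := key (r / (K + 1)) (by positivity)
  have h3 : K * (r / (K + 1)) ≤ r := by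
    rw [← mul_div_assoc, div_le_iff₀ (by positivity)]
    nlinarith
  linarith

lemma near_exists [CompleteSpace H] {A : H →L[ℂ] H} {Om : Set ℂ} {K δ : ℝ} (hK0 : 0 < K)
    (hδ : 0 < δ) (hδK : δ < K)
    (hK : SpecBd A Om K) (hne : ∀ r > 0, ∃ p : ℂ[X], Bdd Om 1 p ∧ K - r ≤ ‖aeval A p‖) :
    ∃ (f : ℂ[X]) (x y : H), Near A Om K δ (√(2 * K * δ) + δ) f x y := by
  obtain ⟨f, hf, hfK⟩ := hne (δ / 2) (by positivity)
  obtain ⟨x, hx1, hx2⟩ := ContinuousLinearMap.exists_lt_apply_of_lt_opNorm (aeval A f)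
    (r := K - δ) (by linarith)
  set T : H →L[ℂ] H := aeval A f with hT
  have hTx0 : 0 < ‖T x‖ := by linarith
  have hTK : ‖T‖ ≤ K := hK f hf
  have hTxK : ‖T x‖ ≤ K := by
    calc ‖T x‖ ≤ ‖T‖ * ‖x‖ := T.le_opNorm x
      _ ≤ K * 1 := mul_le_mul hTK hx1.le (norm_nonneg _) hK0.le
      _ = K := mul_one K
  obtain ⟨κ, hκ⟩ : ∃ κ : ℝ, κ = ‖T x‖ := ⟨_, rfl⟩
  rw [← hκ] at hx2 hTx0 hTxK
  obtain ⟨y, hy⟩ : ∃ y : H, y = ((κ⁻¹ : ℝ) : ℂ) • T x := ⟨_, rfl⟩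
  have hy1 : ‖y‖ = 1 := by
    rw [hy, norm_smul, Complex.norm_real, Real.norm_of_nonneg (by positivity), ← hκ]
    field_simp
  have hTxy : T x = (κ : ℂ) • y := by
    rw [hy, smul_smul, ← Complex.ofReal_mul, mul_inv_cancel₀ hTx0.ne', Complex.ofReal_one, one_smul]
  have hinner : ⟪y, T x⟫_ℂ = κ := by
    rw [hTxy, inner_smul_right, inner_self_eq_norm_sq_to_K, hy1]; simp
  have hd1 : ‖T x - (K : ℂ) • y‖ ≤ δ := by
    rw [hTxy, ← sub_smul, norm_smul, hy1, mul_one, ← Complex.ofReal_sub, Complex.norm_real,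
      Real.norm_eq_abs, abs_le]
    constructor <;> linarith
  have hadj : ‖T.adjoint y - (K : ℂ) • x‖ ≤ √(2 * K * δ) := by
    apply Real.le_sqrt_of_sq_le
    have h1 : ‖T.adjoint y - (K : ℂ) • x‖ ^ 2 =
        ‖T.adjoint y‖ ^ 2 - 2 * (⟪T.adjoint y, (K : ℂ) • x⟫_ℂ).re + ‖(K : ℂ) • x‖ ^ 2 := by
      exact norm_sub_sq (𝕜 := ℂ) (T.adjoint y) ((K : ℂ) • x)
    have h2 : (⟪T.adjoint y, (K : ℂ) • x⟫_ℂ).re = K * κ := by
      rw [inner_smul_right, ContinuousLinearMap.adjoint_inner_left, hinner, ← Complex.ofReal_mul,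
        Complex.ofReal_re]
    have h3 : ‖T.adjoint y‖ ≤ K := by
      calc ‖T.adjoint y‖ ≤ ‖T.adjoint‖ * ‖y‖ := ContinuousLinearMap.le_opNorm _ _
        _ = ‖T‖ := by rw [hy1, mul_one, LinearIsometryEquiv.norm_map]
        _ ≤ K := hTK
    have h4 : ‖(K : ℂ) • x‖ ≤ K := by
      rw [norm_smul, Complex.norm_real, Real.norm_of_nonneg hK0.le]
      nlinarith [norm_nonneg x]
    have h5 : ‖T.adjoint y‖ ^ 2 ≤ K ^ 2 := pow_le_pow_left₀ (norm_nonneg _) h3 2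
    have h6 : ‖(K : ℂ) • x‖ ^ 2 ≤ K ^ 2 := pow_le_pow_left₀ (norm_nonneg _) h4 2
    rw [h1, h2]
    nlinarith
  have hsq : 0 ≤ √(2 * K * δ) := Real.sqrt_nonneg _
  refine ⟨f, x, y, hf, hx1.le, hy1.le, ?_, ?_, ?_, ?_⟩
  · rw [hinner, Complex.ofReal_re]; linarith
  · intro v B hB hv
    have h1 : ⟪y, aeval A (f * v) x⟫_ℂ - K * ⟪x, aeval A v x⟫_ℂ
        = ⟪T.adjoint y - (K : ℂ) • x, aeval A v x⟫_ℂ := by
      rw [inner_sub_left, ContinuousLinearMap.adjoint_inner_left, inner_smul_left,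
        Complex.conj_ofReal, map_mul]
      rfl
    have h2 := hK.scaled hK0.le hB hv
    have h3 : ‖aeval A v x‖ ≤ K * B := by
      calc ‖aeval A v x‖ ≤ ‖aeval A v‖ * ‖x‖ := ContinuousLinearMap.le_opNorm _ _
        _ ≤ (K * B) * 1 := mul_le_mul h2 hx1.le (norm_nonneg _) (by positivity)
        _ = K * B := mul_one _
    rw [h1]
    calc ‖⟪T.adjoint y - (K : ℂ) • x, aeval A v x⟫_ℂ‖
        ≤ ‖T.adjoint y - (K : ℂ) • x‖ * ‖aeval A v x‖ := norm_inner_le_norm _ _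
      _ ≤ √(2 * K * δ) * (K * B) := mul_le_mul hadj h3 (norm_nonneg _) hsq
      _ ≤ K * B * (√(2 * K * δ) + δ) := by nlinarith [mul_nonneg hK0.le hB]
  · intro v B hB hv
    have h1 : ⟪y, aeval A (f * v) x⟫_ℂ - K * ⟪y, aeval A v y⟫_ℂ
        = ⟪y, aeval A v (T x - (K : ℂ) • y)⟫_ℂ := by
      rw [ContinuousLinearMap.map_sub, ContinuousLinearMap.map_smul, inner_sub_right,
        inner_smul_right, mul_comm f v, map_mul]
      rfl
    have h2 := hK.scaled hK0.le hB hv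
    have h3 : ‖aeval A v (T x - (K : ℂ) • y)‖ ≤ K * B * δ := by
      calc ‖aeval A v (T x - (K : ℂ) • y)‖ ≤ ‖aeval A v‖ * ‖T x - (K : ℂ) • y‖ :=
            ContinuousLinearMap.le_opNorm _ _
        _ ≤ (K * B) * δ := mul_le_mul h2 hd1 (norm_nonneg _) (by positivity)
    rw [h1]
    calc ‖⟪y, aeval A v (T x - (K : ℂ) • y)⟫_ℂ‖
        ≤ ‖y‖ * ‖aeval A v (T x - (K : ℂ) • y)‖ := norm_inner_le_norm _ _
      _ ≤ 1 * (K * B * δ) := mul_le_mul hy1.le h3 (norm_nonneg _) (by norm_num)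
      _ ≤ K * B * (√(2 * K * δ) + δ) := by nlinarith [mul_nonneg hK0.le hB]
  · intro v B hB hv
    have h1 : ⟪x, aeval A (f * v) x⟫_ℂ - K * ⟪x, aeval A v y⟫_ℂ
        = ⟪x, aeval A v (T x - (K : ℂ) • y)⟫_ℂ := by
      rw [ContinuousLinearMap.map_sub, ContinuousLinearMap.map_smul, inner_sub_right,
        inner_smul_right, mul_comm f v, map_mul]
      rfl
    have h2 := hK.scaled hK0.le hB hv
    have h3 : ‖aeval A v (T x - (K : ℂ) • y)‖ ≤ K * B * δ := by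
      calc ‖aeval A v (T x - (K : ℂ) • y)‖ ≤ ‖aeval A v‖ * ‖T x - (K : ℂ) • y‖ :=
            ContinuousLinearMap.le_opNorm _ _
        _ ≤ (K * B) * δ := mul_le_mul h2 hd1 (norm_nonneg _) (by positivity)
    rw [h1]
    calc ‖⟪x, aeval A v (T x - (K : ℂ) • y)⟫_ℂ‖
        ≤ ‖x‖ * ‖aeval A v (T x - (K : ℂ) • y)‖ := norm_inner_le_norm _ _
      _ ≤ 1 * (K * B * δ) := mul_le_mul hx1.le h3 (norm_nonneg _) (by norm_num)
      _ ≤ K * B * (√(2 * K * δ) + δ) := by nlinarith [mul_nonneg hK0.le hB]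

/-- Consequence of complete positivity: a lower bound for the functional `⟪y, V(A) x⟫`. -/
lemma lower_bound {A : H →L[ℂ] H} {Om : Set ℂ} {K δ η ε B : ℝ} {α : ℂ[X] → ℂ[X]}
    {f h k F : ℂ[X]} {x y : H} (hK0 : 0 < K) (hη : 0 ≤ η) (hε0 : 0 ≤ ε) (hε1 : ε ≤ 1)
    (hB : 0 < B) (S : Sys A Om ε α)
    (N : Near A Om K δ η f x y) (hh : Bdd Om B h) (hk : Bdd Om B k) (hF : Bdd Om B F)
    (hm : ∀ z ∈ Om, ‖h.eval z + conj (k.eval z)‖ ≤ (F.eval z).re) :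
    -(K * B * ε + B * (6 * K + 3) * η) ≤
      (⟪y, aeval A (f * F) x⟫_ℂ + ⟪y, aeval A (f * α F) x⟫_ℂ - K * ⟪y, aeval A h x⟫_ℂ
        - (K : ℂ)⁻¹ * ⟪y, aeval A (f * (f * α h)) x⟫_ℂ
        - (K : ℂ)⁻¹ * ⟪y, aeval A (f * (f * k)) x⟫_ℂ
        - K * ⟪y, aeval A (α k) x⟫_ℂ).re := by
  have hcp := S.cp' hB hh hk hF hm N.x_le N.y_le
  have hB2 : B * (1 + ε) ≤ 2 * B := by nlinarith
  have bound2 : ∀ {p : ℂ[X]}, Bdd Om B p → Bdd Om (2 * B) (α p) := fun hp z hz =>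
    (S.bound hB hp z hz).trans hB2
  have bf : ∀ {p : ℂ[X]} {M : ℝ}, 0 ≤ M → Bdd Om M p → Bdd Om M (f * p) := by
    intro p M hM hp z hz
    rw [eval_mul, norm_mul]
    calc ‖f.eval z‖ * ‖p.eval z‖ ≤ 1 * M := mul_le_mul (N.bdd z hz) (hp z hz) (norm_nonneg _) (by norm_num)
      _ = M := one_mul M
  have re_le : ∀ {a : ℂ} {r : ℝ}, ‖a‖ ≤ r → |a.re| ≤ r := fun h => (Complex.abs_re_le_norm _).trans h
  have h2B : (0:ℝ) ≤ 2 * B := by linarith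
  have a1 := abs_le.mp (re_le (N.e1 F B hB.le hF))
  have a2 := abs_le.mp (re_le (N.e2 F B hB.le hF))
  have a3 := abs_le.mp (re_le (N.e1 (α F) (2 * B) h2B (bound2 hF)))
  have a4 := abs_le.mp (re_le (N.e2 (α F) (2 * B) h2B (bound2 hF)))
  have b1 := abs_le.mp (re_le (N.e1 (f * α h) (2 * B) h2B (bf h2B (bound2 hh))))
  have b2 := abs_le.mp (re_le (N.e3 (α h) (2 * B) h2B (bound2 hh)))
  have c1 := abs_le.mp (re_le (N.e1 (f * k) B hB.le (bf hB.le hk)))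
  have c2 := abs_le.mp (re_le (N.e3 k B hB.le hk))
  simp only [Complex.sub_re, Complex.re_ofReal_mul, Complex.add_re] at a1 a2 a3 a4 b1 b2 c1 c2 hcp
  have hinv : (K : ℂ)⁻¹ = ((K⁻¹ : ℝ) : ℂ) := by push_cast; rfl
  rw [hinv]
  simp only [Complex.sub_re, Complex.re_ofReal_mul, Complex.add_re]
  have hKK : K⁻¹ * K = 1 := inv_mul_cancel₀ hK0.ne'
  have hKi : 0 < K⁻¹ := inv_pos.mpr hK0
  -- the two double exchanges
  have d1 : K⁻¹ * (⟪y, aeval A (f * (f * α h)) x⟫_ℂ).re ≤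
      K * (⟪x, aeval A (α h) y⟫_ℂ).re + 2 * B * (1 + K) * η := by
    have e1 : (⟪y, aeval A (f * (f * α h)) x⟫_ℂ).re ≤
        K * (K * (⟪x, aeval A (α h) y⟫_ℂ).re + K * (2 * B) * η) + K * (2 * B) * η := by
      have := mul_le_mul_of_nonneg_left b2.2 hK0.le
      nlinarith [b1.2]
    calc K⁻¹ * (⟪y, aeval A (f * (f * α h)) x⟫_ℂ).re
        ≤ K⁻¹ * (K * (K * (⟪x, aeval A (α h) y⟫_ℂ).re + K * (2 * B) * η) + K * (2 * B) * η) :=
          mul_le_mul_of_nonneg_left e1 hKi.le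
      _ = (K⁻¹ * K) * ((K * (⟪x, aeval A (α h) y⟫_ℂ).re + K * (2 * B) * η) + 2 * B * η) := by ring
      _ = _ := by rw [hKK]; ring
  have d2 : K⁻¹ * (⟪y, aeval A (f * (f * k)) x⟫_ℂ).re ≤
      K * (⟪x, aeval A k y⟫_ℂ).re + B * (1 + K) * η := by
    have e1 : (⟪y, aeval A (f * (f * k)) x⟫_ℂ).re ≤
        K * (K * (⟪x, aeval A k y⟫_ℂ).re + K * B * η) + K * B * η := by
      have := mul_le_mul_of_nonneg_left c2.2 hK0.le
      nlinarith [c1.2]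
    calc K⁻¹ * (⟪y, aeval A (f * (f * k)) x⟫_ℂ).re
        ≤ K⁻¹ * (K * (K * (⟪x, aeval A k y⟫_ℂ).re + K * B * η) + K * B * η) :=
          mul_le_mul_of_nonneg_left e1 hKi.le
      _ = (K⁻¹ * K) * ((K * (⟪x, aeval A k y⟫_ℂ).re + K * B * η) + B * η) := by ring
      _ = _ := by rw [hKK]; ring
  have hcpK := mul_le_mul_of_nonneg_left hcp hK0.le
  have hKBε : 0 ≤ K * B * ε := by positivity
  nlinarith [a1.1, a2.1, a3.1, a4.1]

/-- A numerical certificate excluding the value `K`. -/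
structure Cert (K : ℝ) (P Q F : ℂ[X]) (c₀ Λ : ℝ) : Prop where
  n1 : ∀ ξ γ : ℂ, ‖ξ‖ ≤ 1 → ‖γ‖ ≤ 1 →
    ‖ξ * P.eval (ξ * γ) + conj (γ * Q.eval (ξ * γ))‖ ≤ (F.eval (ξ * γ)).re
  n2 : ∀ w₀ : ℂ, ‖w₀‖ ≤ 1 → ∃ l : ℂ, ‖l‖ ≤ Λ ∧ ∀ ξ γ : ℂ, ‖ξ‖ ≤ 1 → ‖γ‖ ≤ 1 →
    (F.eval (ξ * γ) - (K : ℂ)⁻¹ * (ξ * P.eval (ξ * γ)) - K * (γ * Q.eval (ξ * γ)) - l * ξ).re
      + (conj l * w₀).re
      + (F.eval w₀ - K * P.eval w₀ - (K : ℂ)⁻¹ * (w₀ * Q.eval w₀)).re ≤ -c₀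

lemma exists_phase (a : ℂ) : ∃ e : ℂ, ‖e‖ = 1 ∧ a = (‖a‖ : ℂ) * e := by
  by_cases h : a = 0
  · exact ⟨1, by simp, by simp [h]⟩
  · refine ⟨a / ‖a‖, ?_, ?_⟩
    · rw [norm_div, Complex.norm_real, norm_norm, div_self (norm_ne_zero_iff.mpr h)]
    · rw [mul_div_cancel₀]
      exact_mod_cast norm_ne_zero_iff.mpr h

lemma pointwise {A : H →L[ℂ] H} {Om : Set ℂ} {K ε B c₀ Λ CG : ℝ} {α : ℂ[X] → ℂ[X]}
    {f g P Q F : ℂ[X]} (hK0 : 0 < K) (hε0 : 0 ≤ ε) (hε1 : ε ≤ 1)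
    (hB : 0 < B) (hΛ : 0 ≤ Λ) (S : Sys A Om ε α) (hf : Bdd Om 1 f) (hg : Bdd Om 1 g)
    (hfg : α f = C ((1 + ε : ℝ) : ℂ) * g)
    (cert : Cert K P Q F c₀ Λ)
    (hP : ∀ w : ℂ, ‖w‖ ≤ 1 → ‖P.eval w‖ ≤ B) (hQ : ∀ w : ℂ, ‖w‖ ≤ 1 → ‖Q.eval w‖ ≤ B)
    (hF : ∀ w : ℂ, ‖w‖ ≤ 1 → ‖F.eval w‖ ≤ B)
    (hG : ∀ (w : ℂ) (φ : ℝ), ‖w‖ ≤ 1 → 0 ≤ φ → φ ≤ 1 →
      ‖φ * (F.eval (φ * w) - K * P.eval (φ * w) - (K : ℂ)⁻¹ * (φ * w * Q.eval (φ * w)))
        - (F.eval w - K * P.eval w - (K : ℂ)⁻¹ * (w * Q.eval w))‖ ≤ CG * (1 - φ))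
    {z : ℂ} (hz : z ∈ Om) :
    ∃ e : ℂ, ‖e‖ = 1 ∧ f.eval z = (‖f.eval z‖ : ℂ) * e ∧
      (conj e * (f.eval z * ((F.comp (f * g)).eval z + (α (F.comp (f * g))).eval z
        - K * (P.comp (f * g)).eval z
        - (K : ℂ)⁻¹ * (f.eval z * (α (f * P.comp (f * g))).eval z)
        - (K : ℂ)⁻¹ * (f.eval z * (g * Q.comp (f * g)).eval z))
        - K * (α (g * Q.comp (f * g))).eval z)).re
      ≤ -c₀ + (B + K⁻¹ * B + K * B + 2 * Λ) * ε + (CG + 2 * B + 4 * B * K⁻¹) * (1 - ‖f.eval z‖) := by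
  have hKi : 0 < K⁻¹ := inv_pos.mpr hK0
  have hKc : ((K : ℂ)⁻¹) = ((K⁻¹ : ℝ) : ℂ) := by push_cast; rfl
  set w : ℂ[X] := f * g with hw
  set h : ℂ[X] := f * P.comp w with hh
  set k : ℂ[X] := g * Q.comp w with hk
  set Fw : ℂ[X] := F.comp w with hFw
  have hwb : ∀ σ ∈ Om, ‖w.eval σ‖ ≤ 1 := by
    intro σ hσ
    rw [hw, eval_mul, norm_mul]
    calc ‖f.eval σ‖ * ‖g.eval σ‖ ≤ 1 * 1 :=
          mul_le_mul (hf σ hσ) (hg σ hσ) (norm_nonneg _) (by norm_num)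
      _ = 1 := one_mul 1
  have hhb : Bdd Om B h := by
    intro σ hσ
    rw [hh, eval_mul, eval_comp, norm_mul]
    calc ‖f.eval σ‖ * ‖P.eval (w.eval σ)‖ ≤ 1 * B :=
          mul_le_mul (hf σ hσ) (hP _ (hwb σ hσ)) (norm_nonneg _) (by norm_num)
      _ = B := one_mul B
  have hkb : Bdd Om B k := by
    intro σ hσ
    rw [hk, eval_mul, eval_comp, norm_mul]
    calc ‖g.eval σ‖ * ‖Q.eval (w.eval σ)‖ ≤ 1 * B :=
          mul_le_mul (hg σ hσ) (hQ _ (hwb σ hσ)) (norm_nonneg _) (by norm_num)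
      _ = B := one_mul B
  have hFb : Bdd Om B Fw := by
    intro σ hσ
    rw [hFw, eval_comp]; exact hF _ (hwb σ hσ)
  obtain ⟨e, he, hfe⟩ := exists_phase (f.eval z)
  refine ⟨e, he, hfe, ?_⟩
  obtain ⟨φ, hφ⟩ : ∃ φ : ℝ, φ = ‖f.eval z‖ := ⟨_, rfl⟩
  have hφ0 : 0 ≤ φ := by rw [hφ]; exact norm_nonneg _
  have hφ1 : φ ≤ 1 := by rw [hφ]; exact hf z hz
  have hee : conj e * e = 1 := by
    rw [← Complex.normSq_eq_conj_mul_self, Complex.normSq_eq_norm_sq, he]; simp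
  have hee' : e * conj e = 1 := by rw [mul_comm]; exact hee
  have hce : ‖conj e‖ = 1 := by rw [RCLike.norm_conj]; exact he
  -- the parameter point
  set w₀ : ℂ := e * g.eval z with hw₀
  have hw₀1 : ‖w₀‖ ≤ 1 := by
    rw [hw₀, norm_mul, he, one_mul]; exact hg z hz
  have hwz : w.eval z = φ * w₀ := by
    rw [hw, eval_mul, hfe, ← hφ, hw₀]; ring
  obtain ⟨l, hl, hN⟩ := cert.n2 w₀ hw₀1
  -- the test function
  set T : ℂ[X] := Fw - C ((K : ℂ)⁻¹ * conj e) * h - C (K * e) * k - C (l * conj e) * f with hT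
  have hTb : Bdd Om (B + K⁻¹ * B + K * B + Λ) T := by
    intro σ hσ
    simp only [hT, eval_sub, eval_mul, eval_C]
    have n1 : ‖(K : ℂ)⁻¹ * conj e * h.eval σ‖ ≤ K⁻¹ * B := by
      rw [norm_mul, norm_mul, hce, hKc, Complex.norm_real, Real.norm_of_nonneg hKi.le, mul_one]
      exact mul_le_mul_of_nonneg_left (hhb σ hσ) hKi.le
    have n2 : ‖(K : ℂ) * e * k.eval σ‖ ≤ K * B := by
      rw [norm_mul, norm_mul, he, Complex.norm_real, Real.norm_of_nonneg hK0.le, mul_one]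
      exact mul_le_mul_of_nonneg_left (hkb σ hσ) hK0.le
    have n3 : ‖l * conj e * f.eval σ‖ ≤ Λ := by
      rw [norm_mul, norm_mul, hce, mul_one]
      calc ‖l‖ * ‖f.eval σ‖ ≤ Λ * 1 := mul_le_mul hl (hf σ hσ) (norm_nonneg _) hΛ
        _ = Λ := mul_one Λ
    calc _ ≤ ‖Fw.eval σ - (K : ℂ)⁻¹ * conj e * h.eval σ - K * e * k.eval σ‖
            + ‖l * conj e * f.eval σ‖ := norm_sub_le _ _
      _ ≤ (‖Fw.eval σ - (K : ℂ)⁻¹ * conj e * h.eval σ‖ + ‖K * e * k.eval σ‖) + Λ :=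
          add_le_add (norm_sub_le _ _) n3
      _ ≤ ((‖Fw.eval σ‖ + ‖(K : ℂ)⁻¹ * conj e * h.eval σ‖) + K * B) + Λ :=
          add_le_add (add_le_add (norm_sub_le _ _) n2) le_rfl
      _ ≤ ((B + K⁻¹ * B) + K * B) + Λ :=
          add_le_add (add_le_add (add_le_add (hFb σ hσ) n1) le_rfl) le_rfl
  set Gr : ℝ := (F.eval w₀ - K * P.eval w₀ - (K : ℂ)⁻¹ * (w₀ * Q.eval w₀)).re with hGr
  have hTre : ∀ σ ∈ Om, (T.eval σ).re ≤ -c₀ - (conj l * w₀).re - Gr := by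
    intro σ hσ
    have h1 := hN (conj e * f.eval σ) (e * g.eval σ)
      (by rw [norm_mul, hce, one_mul]; exact hf σ hσ)
      (by rw [norm_mul, he, one_mul]; exact hg σ hσ)
    have h2 : conj e * f.eval σ * (e * g.eval σ) = w.eval σ := by
      rw [hw, eval_mul]
      calc conj e * f.eval σ * (e * g.eval σ) = (conj e * e) * (f.eval σ * g.eval σ) := by ring
        _ = _ := by rw [hee, one_mul]
    rw [h2] at h1
    have h3 : T.eval σ = F.eval (w.eval σ) - (K : ℂ)⁻¹ * (conj e * f.eval σ * P.eval (w.eval σ))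
        - K * (e * g.eval σ * Q.eval (w.eval σ)) - l * (conj e * f.eval σ) := by
      simp only [hT, hFw, hh, hk, eval_sub, eval_mul, eval_C, eval_comp]
      ring
    rw [h3]
    linarith
  have hε2 : (0:ℝ) ≤ ε := hε0
  have hstar := S.pos' (by positivity) hTb hTre hz
  have hαT : (α T).eval z = (α Fw).eval z - (K : ℂ)⁻¹ * e * (α h).eval z
      - K * conj e * (α k).eval z - conj l * w₀ * ((1 + ε : ℝ) : ℂ) := by
    have hneg : ∀ (c : ℂ) (p q : ℂ[X]), α (p - C c * q) = α p - C (conj c) * α q := by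
      intro c p q
      have : p - C c * q = p + C (-c) * q := by rw [C_neg]; ring
      rw [this, S.add, S.smul, map_neg, C_neg]; ring
    rw [hT, hneg, hneg, hneg]
    simp only [eval_sub, eval_mul, eval_C, hfg, map_mul, Complex.conj_conj, map_inv₀,
      Complex.conj_ofReal]
    rw [hw₀]; ring
  rw [hαT] at hstar
  -- the error from `1 + ε`
  have hlw : |(conj l * w₀).re| ≤ Λ := by
    refine (Complex.abs_re_le_norm _).trans ?_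
    rw [norm_mul, RCLike.norm_conj]
    calc ‖l‖ * ‖w₀‖ ≤ Λ * 1 := mul_le_mul hl hw₀1 (norm_nonneg _) hΛ
      _ = Λ := mul_one Λ
  have hlw2 : (conj l * w₀ * ((1 + ε : ℝ) : ℂ)).re = (conj l * w₀).re * (1 + ε) := by
    rw [Complex.re_mul_ofReal]
  have hstar2 : ((α Fw).eval z - (K : ℂ)⁻¹ * e * (α h).eval z - K * conj e * (α k).eval z).re
      ≤ -c₀ - Gr + (B + K⁻¹ * B + K * B + 2 * Λ) * ε := by
    rw [Complex.sub_re _ (conj l * w₀ * ((1 + ε : ℝ) : ℂ)), hlw2] at hstar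
    have h1 : (conj l * w₀).re * ε ≤ Λ * ε := mul_le_mul_of_nonneg_right (abs_le.mp hlw).2 hε0
    nlinarith
  -- now compare
  have hkz : k.eval z = g.eval z * Q.eval (w.eval z) := by
    rw [hk, eval_mul, eval_comp]
  have hident : conj e * (f.eval z * (Fw.eval z + (α Fw).eval z
        - K * (P.comp w).eval z
        - (K : ℂ)⁻¹ * (f.eval z * (α h).eval z)
        - (K : ℂ)⁻¹ * (f.eval z * k.eval z))
        - K * (α k).eval z)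
      = ((α Fw).eval z - (K : ℂ)⁻¹ * e * (α h).eval z - K * conj e * (α k).eval z)
        + (F.eval w₀ - K * P.eval w₀ - (K : ℂ)⁻¹ * (w₀ * Q.eval w₀))
        + (φ * (F.eval (φ * w₀) - K * P.eval (φ * w₀) - (K : ℂ)⁻¹ * (φ * w₀ * Q.eval (φ * w₀)))
          - (F.eval w₀ - K * P.eval w₀ - (K : ℂ)⁻¹ * (w₀ * Q.eval w₀)))
        - ((1 - φ : ℝ) : ℂ) * (α Fw).eval z
        + ((1 - φ ^ 2 : ℝ) : ℂ) * ((K : ℂ)⁻¹ * e * (α h).eval z) := by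
    rw [hkz, hFw, eval_comp, eval_comp, hwz, ← hFw]
    have hfz : f.eval z = φ * e := by rw [hfe, ← hφ]
    have hgz : g.eval z = conj e * w₀ := by
      rw [hw₀, ← mul_assoc, hee, one_mul]
    rw [hgz, hfz]
    push_cast
    linear_combination
      (φ * (F.eval (φ * w₀) + (α Fw).eval z - K * P.eval (φ * w₀)
        - (K : ℂ)⁻¹ * (φ * e * (α h).eval z)
        - (K : ℂ)⁻¹ * (φ * e * (conj e * w₀ * Q.eval (φ * w₀))))
        - φ * (K : ℂ)⁻¹ * φ * w₀ * Q.eval (φ * w₀)) * hee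
  rw [hident]
  simp only [Complex.add_re, Complex.sub_re _ (((1 - φ : ℝ) : ℂ) * (α Fw).eval z)]
  have hαF : ‖(α Fw).eval z‖ ≤ 2 * B := by
    have := S.bound hB hFb z hz
    nlinarith
  have hαh : ‖(α h).eval z‖ ≤ 2 * B := by
    have := S.bound hB hhb z hz
    nlinarith
  have t1 : |(((1 - φ : ℝ) : ℂ) * (α Fw).eval z).re| ≤ (1 - φ) * (2 * B) := by
    refine (Complex.abs_re_le_norm _).trans ?_
    rw [norm_mul, Complex.norm_real, Real.norm_of_nonneg (by linarith)]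
    exact mul_le_mul_of_nonneg_left hαF (by linarith)
  have hφ2 : 0 ≤ 1 - φ ^ 2 := by nlinarith
  have hφ3 : 1 - φ ^ 2 ≤ 2 * (1 - φ) := by nlinarith
  have t2 : |(((1 - φ ^ 2 : ℝ) : ℂ) * ((K : ℂ)⁻¹ * e * (α h).eval z)).re| ≤
      2 * (1 - φ) * (K⁻¹ * (2 * B)) := by
    refine (Complex.abs_re_le_norm _).trans ?_
    rw [norm_mul, Complex.norm_real, Real.norm_of_nonneg hφ2, norm_mul, norm_mul, he, mul_one,
      hKc, Complex.norm_real, Real.norm_of_nonneg hKi.le]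
    exact mul_le_mul hφ3 (mul_le_mul_of_nonneg_left hαh hKi.le) (by positivity) (by linarith)
  have t3 := (Complex.abs_re_le_norm _).trans (hG w₀ φ hw₀1 hφ0 hφ1)
  rw [← hφ]
  have t1' := (abs_le.mp t1).1
  have t2' := (abs_le.mp t2).2
  have t3' := (abs_le.mp t3).2
  rw [← hGr]
  nlinarith

/-- Sup bound for `t f + V` from the pointwise estimate. -/
lemma sup_bound {t c₀ BV φ : ℝ} {v : ℂ} (hc : 0 < c₀) (hBV : 0 < BV) (hφ0 : 0 ≤ φ)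
    (ht : 2 * BV ^ 2 / c₀ + c₀ + BV ≤ t) (hv : ‖v‖ ≤ BV)
    (hre : t * φ + v.re ≤ t - c₀ / 2) : ‖(t : ℂ) * φ + v‖ ≤ t - c₀ / 4 := by
  have hfr : 0 ≤ 2 * BV ^ 2 / c₀ := by positivity
  have ht0 : 0 < t := by linarith
  have h1 : -(t - c₀ / 2) ≤ t * φ + v.re := by
    have := (abs_le.mp ((Complex.abs_re_le_norm v).trans hv)).1
    have h2 : 0 ≤ t * φ := by positivity
    linarith
  have h2 : (t * φ + v.re) ^ 2 ≤ (t - c₀ / 2) ^ 2 := sq_le_sq' h1 hre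
  have h3 : v.im ^ 2 ≤ BV ^ 2 := by
    have := abs_le.mp ((Complex.abs_im_le_norm v).trans hv)
    exact sq_le_sq' this.1 this.2
  have h4 : BV ^ 2 ≤ (c₀ / 4) * (2 * t - 3 * c₀ / 4) := by
    have e1 : c₀ / 4 * (2 * (2 * BV ^ 2 / c₀)) = BV ^ 2 := by field_simp; ring
    have e2 : 2 * (2 * BV ^ 2 / c₀) ≤ 2 * t - 3 * c₀ / 4 := by linarith
    have e3 := mul_le_mul_of_nonneg_left e2 (by positivity : (0:ℝ) ≤ c₀ / 4)
    linarith
  have h5 : ‖(t : ℂ) * φ + v‖ ^ 2 = (t * φ + v.re) ^ 2 + v.im ^ 2 := by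
    rw [← Complex.normSq_eq_norm_sq, Complex.normSq_apply]
    simp
    ring
  have h6 : 0 ≤ t - c₀ / 4 := by linarith
  refine (pow_le_pow_iff_left₀ (norm_nonneg _) h6 two_ne_zero).mp ?_
  rw [h5]
  nlinarith

/-- Choice of the small parameter. -/
lemma exists_param {K B c₀ B₁ t : ℝ} (hK0 : 0 < K) (hc : 0 < c₀) (hB : 0 < B) (hB₁0 : 0 < B₁)
    (ht0 : 0 < t) :
    ∃ s : ℝ, 0 < s ∧ s ≤ 1 ∧ B₁ * s ≤ c₀ / 2 ∧ s ^ 2 / (2 * K) < K ∧
      t * (s ^ 2 / (2 * K)) + (K * B * s + B * (6 * K + 3) * (s + s ^ 2 / (2 * K)))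
        ≤ K * c₀ / 8 := by
  obtain ⟨D₂, hD₂⟩ : ∃ D₂ : ℝ, D₂ = t / (2 * K) + K * B + B * (6 * K + 3) * (1 + 1 / (2 * K)) :=
    ⟨_, rfl⟩
  have hD₂0 : 0 < D₂ := by rw [hD₂]; positivity
  obtain ⟨D, hD⟩ : ∃ D : ℝ, D = 2 * B₁ / c₀ + D₂ * (8 / (K * c₀)) + 1 + 1 / K := ⟨_, rfl⟩
  have q1 : 0 < 2 * B₁ / c₀ := by positivity
  have q2 : 0 < D₂ * (8 / (K * c₀)) := by positivity
  have q3 : 0 < 1 / K := by positivity
  have hD0 : 1 ≤ D := by rw [hD]; linarith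
  obtain ⟨s, hs⟩ : ∃ s : ℝ, s = 1 / D := ⟨_, rfl⟩
  have hs0 : 0 < s := by rw [hs]; positivity
  have hs1 : s ≤ 1 := by
    rw [hs, div_le_one (by linarith)]; exact hD0
  have hsD : ∀ r : ℝ, r ≤ D → r * s ≤ 1 := by
    intro r hr
    rw [hs, mul_one_div, div_le_one (by linarith)]; exact hr
  have hs2 : s ^ 2 / (2 * K) ≤ 1 / (2 * K) * s := by
    rw [div_mul_eq_mul_div, one_mul, div_le_div_iff_of_pos_right (by positivity)]
    nlinarith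
  refine ⟨s, hs0, hs1, ?_, ?_, ?_⟩
  · have h1 : 2 * B₁ / c₀ * s ≤ 1 := hsD _ (by rw [hD]; linarith)
    have h4 : 2 * B₁ / c₀ * s = (B₁ * s) * (2 / c₀) := by ring
    rw [h4, ← le_div_iff₀ (by positivity)] at h1
    have h5 : 1 / (2 / c₀) = c₀ / 2 := by field_simp
    linarith
  · have h1 : 1 / K * s ≤ 1 := hsD _ (by rw [hD]; linarith)
    rw [one_div, inv_mul_le_iff₀ hK0] at h1
    rw [div_lt_iff₀ (by positivity)]
    nlinarith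
  · have h1 : D₂ * (8 / (K * c₀)) * s ≤ 1 := hsD _ (by rw [hD]; linarith)
    have h4 : D₂ * (8 / (K * c₀)) * s = (D₂ * s) * (8 / (K * c₀)) := by ring
    rw [h4, ← le_div_iff₀ (by positivity)] at h1
    have h5 : 1 / (8 / (K * c₀)) = K * c₀ / 8 := by field_simp
    rw [h5] at h1
    have e1 : t * (s ^ 2 / (2 * K)) ≤ t * (1 / (2 * K) * s) :=
      mul_le_mul_of_nonneg_left hs2 ht0.le
    have e2 : B * (6 * K + 3) * (s + s ^ 2 / (2 * K)) ≤ B * (6 * K + 3) * (s + 1 / (2 * K) * s) :=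
      mul_le_mul_of_nonneg_left (by linarith) (by positivity)
    calc _ ≤ t * (1 / (2 * K) * s) + (K * B * s + B * (6 * K + 3) * (s + 1 / (2 * K) * s)) := by
          linarith
      _ = D₂ * s := by rw [hD₂]; ring
      _ ≤ _ := h1

/-- The test polynomial `V`. -/
noncomputable def Vpoly (K : ℝ) (α : ℂ[X] → ℂ[X]) (f g P Q F : ℂ[X]) : ℂ[X] :=
  f * (F.comp (f * g) + α (F.comp (f * g)) - C (K : ℂ) * P.comp (f * g)
    - C ((K : ℂ)⁻¹) * (f * α (f * P.comp (f * g)))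
    - C ((K : ℂ)⁻¹) * (f * (g * Q.comp (f * g)))) - C (K : ℂ) * α (g * Q.comp (f * g))

lemma Vpoly_eval (K : ℝ) (α : ℂ[X] → ℂ[X]) (f g P Q F : ℂ[X]) (z : ℂ) :
    (Vpoly K α f g P Q F).eval z =
      (f.eval z * ((F.comp (f * g)).eval z + (α (F.comp (f * g))).eval z
        - K * (P.comp (f * g)).eval z
        - (K : ℂ)⁻¹ * (f.eval z * (α (f * P.comp (f * g))).eval z)
        - (K : ℂ)⁻¹ * (f.eval z * (g * Q.comp (f * g)).eval z))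
        - K * (α (g * Q.comp (f * g))).eval z) := by
  simp only [Vpoly, eval_sub, eval_add, eval_mul, eval_C]

lemma inner_aeval_C_mul (A : H →L[ℂ] H) (x y : H) (c : ℂ) (p : ℂ[X]) :
    ⟪y, aeval A (C c * p) x⟫_ℂ = c * ⟪y, aeval A p x⟫_ℂ := by
  rw [map_mul, aeval_C, Algebra.algebraMap_eq_smul_one, smul_mul_assoc, one_mul, smul_apply,
    inner_smul_right]

lemma inner_aeval_sub (A : H →L[ℂ] H) (x y : H) (p q : ℂ[X]) :
    ⟪y, aeval A (p - q) x⟫_ℂ = ⟪y, aeval A p x⟫_ℂ - ⟪y, aeval A q x⟫_ℂ := by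
  rw [map_sub, ContinuousLinearMap.sub_apply, inner_sub_right]

lemma inner_aeval_add (A : H →L[ℂ] H) (x y : H) (p q : ℂ[X]) :
    ⟪y, aeval A (p + q) x⟫_ℂ = ⟪y, aeval A p x⟫_ℂ + ⟪y, aeval A q x⟫_ℂ := by
  rw [map_add, ContinuousLinearMap.add_apply, inner_add_right]

lemma Vpoly_inner (A : H →L[ℂ] H) (K : ℝ) (α : ℂ[X] → ℂ[X]) (f g P Q F : ℂ[X]) (x y : H) :
    ⟪y, aeval A (Vpoly K α f g P Q F) x⟫_ℂ =
      ⟪y, aeval A (f * F.comp (f * g)) x⟫_ℂ + ⟪y, aeval A (f * α (F.comp (f * g))) x⟫_ℂ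
        - K * ⟪y, aeval A (f * P.comp (f * g)) x⟫_ℂ
        - (K : ℂ)⁻¹ * ⟪y, aeval A (f * (f * α (f * P.comp (f * g)))) x⟫_ℂ
        - (K : ℂ)⁻¹ * ⟪y, aeval A (f * (f * (g * Q.comp (f * g)))) x⟫_ℂ
        - K * ⟪y, aeval A (α (g * Q.comp (f * g))) x⟫_ℂ := by
  have h1 : Vpoly K α f g P Q F = f * F.comp (f * g) + f * α (F.comp (f * g))
      - C (K : ℂ) * (f * P.comp (f * g)) - C ((K : ℂ)⁻¹) * (f * (f * α (f * P.comp (f * g))))
      - C ((K : ℂ)⁻¹) * (f * (f * (g * Q.comp (f * g)))) - C (K : ℂ) * α (g * Q.comp (f * g)) := by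
    unfold Vpoly; ring
  rw [h1, inner_aeval_sub, inner_aeval_sub, inner_aeval_sub, inner_aeval_sub, inner_aeval_add,
    inner_aeval_C_mul, inner_aeval_C_mul, inner_aeval_C_mul, inner_aeval_C_mul]

lemma comp_bounds {Om : Set ℂ} {B : ℝ} {f g P Q F : ℂ[X]}
    (hf : Bdd Om 1 f) (hg : Bdd Om 1 g)
    (hP : ∀ w : ℂ, ‖w‖ ≤ 1 → ‖P.eval w‖ ≤ B) (hQ : ∀ w : ℂ, ‖w‖ ≤ 1 → ‖Q.eval w‖ ≤ B)
    (hF : ∀ w : ℂ, ‖w‖ ≤ 1 → ‖F.eval w‖ ≤ B) :
    Bdd Om B (P.comp (f * g)) ∧ Bdd Om B (f * P.comp (f * g)) ∧ Bdd Om B (g * Q.comp (f * g)) ∧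
      Bdd Om B (F.comp (f * g)) := by
  have hwb : ∀ σ ∈ Om, ‖(f * g).eval σ‖ ≤ 1 := by
    intro σ hσ
    rw [eval_mul, norm_mul]
    calc ‖f.eval σ‖ * ‖g.eval σ‖ ≤ 1 * 1 :=
          mul_le_mul (hf σ hσ) (hg σ hσ) (norm_nonneg _) (by norm_num)
      _ = 1 := one_mul 1
  refine ⟨?_, ?_, ?_, ?_⟩
  · intro σ hσ
    rw [eval_comp]; exact hP _ (hwb σ hσ)
  · intro σ hσ
    rw [eval_mul, eval_comp, norm_mul]
    calc ‖f.eval σ‖ * ‖P.eval ((f * g).eval σ)‖ ≤ 1 * B :=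
          mul_le_mul (hf σ hσ) (hP _ (hwb σ hσ)) (norm_nonneg _) (by norm_num)
      _ = B := one_mul B
  · intro σ hσ
    rw [eval_mul, eval_comp, norm_mul]
    calc ‖g.eval σ‖ * ‖Q.eval ((f * g).eval σ)‖ ≤ 1 * B :=
          mul_le_mul (hg σ hσ) (hQ _ (hwb σ hσ)) (norm_nonneg _) (by norm_num)
      _ = B := one_mul B
  · intro σ hσ
    rw [eval_comp]; exact hF _ (hwb σ hσ)

lemma Vpoly_bound {A : H →L[ℂ] H} {Om : Set ℂ} {K ε B : ℝ} {α : ℂ[X] → ℂ[X]}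
    {f g P Q F : ℂ[X]} (hK0 : 0 < K) (hε1 : ε ≤ 1)
    (hB : 0 < B) (S : Sys A Om ε α) (hf : Bdd Om 1 f)
    (hPw : Bdd Om B (P.comp (f * g))) (hh : Bdd Om B (f * P.comp (f * g)))
    (hk : Bdd Om B (g * Q.comp (f * g))) (hFw : Bdd Om B (F.comp (f * g))) :
    Bdd Om (B + 2 * B + K * B + K⁻¹ * (2 * B) + K⁻¹ * B + K * (2 * B)) (Vpoly K α f g P Q F) := by
  intro z hz
  have hKi : 0 < K⁻¹ := inv_pos.mpr hK0
  have hKc : ((K : ℂ)⁻¹) = ((K⁻¹ : ℝ) : ℂ) := by push_cast; rfl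
  have hφ1 : ‖f.eval z‖ ≤ 1 := hf z hz
  have hαF : ‖(α (F.comp (f * g))).eval z‖ ≤ 2 * B := by
    have := S.bound hB hFw z hz
    nlinarith
  have hαh : ‖(α (f * P.comp (f * g))).eval z‖ ≤ 2 * B := by
    have := S.bound hB hh z hz
    nlinarith
  have hαk : ‖(α (g * Q.comp (f * g))).eval z‖ ≤ 2 * B := by
    have := S.bound hB hk z hz
    nlinarith
  rw [Vpoly_eval]
  have m1 : ‖(K : ℂ) * (P.comp (f * g)).eval z‖ ≤ K * B := by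
    rw [norm_mul, Complex.norm_real, Real.norm_of_nonneg hK0.le]
    exact mul_le_mul_of_nonneg_left (hPw z hz) hK0.le
  have m2 : ‖(K : ℂ)⁻¹ * (f.eval z * (α (f * P.comp (f * g))).eval z)‖ ≤ K⁻¹ * (2 * B) := by
    rw [norm_mul, norm_mul, hKc, Complex.norm_real, Real.norm_of_nonneg hKi.le]
    apply mul_le_mul_of_nonneg_left _ hKi.le
    calc ‖f.eval z‖ * ‖(α (f * P.comp (f * g))).eval z‖ ≤ 1 * (2 * B) :=
          mul_le_mul hφ1 hαh (norm_nonneg _) (by norm_num)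
      _ = 2 * B := one_mul _
  have m3 : ‖(K : ℂ)⁻¹ * (f.eval z * (g * Q.comp (f * g)).eval z)‖ ≤ K⁻¹ * B := by
    rw [norm_mul, norm_mul, hKc, Complex.norm_real, Real.norm_of_nonneg hKi.le]
    apply mul_le_mul_of_nonneg_left _ hKi.le
    calc ‖f.eval z‖ * ‖(g * Q.comp (f * g)).eval z‖ ≤ 1 * B :=
          mul_le_mul hφ1 (hk z hz) (norm_nonneg _) (by norm_num)
      _ = B := one_mul _
  have m4 : ‖(K : ℂ) * (α (g * Q.comp (f * g))).eval z‖ ≤ K * (2 * B) := by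
    rw [norm_mul, Complex.norm_real, Real.norm_of_nonneg hK0.le]
    exact mul_le_mul_of_nonneg_left hαk hK0.le
  refine (norm_sub_le _ _).trans (add_le_add ?_ m4)
  rw [norm_mul]
  have m5 : ‖(F.comp (f * g)).eval z + (α (F.comp (f * g))).eval z
      - (K : ℂ) * (P.comp (f * g)).eval z
      - (K : ℂ)⁻¹ * (f.eval z * (α (f * P.comp (f * g))).eval z)
      - (K : ℂ)⁻¹ * (f.eval z * (g * Q.comp (f * g)).eval z)‖
      ≤ B + 2 * B + K * B + K⁻¹ * (2 * B) + K⁻¹ * B := by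
    refine (norm_sub_le _ _).trans (add_le_add ?_ m3)
    refine (norm_sub_le _ _).trans (add_le_add ?_ m2)
    refine (norm_sub_le _ _).trans (add_le_add ?_ m1)
    exact (norm_add_le _ _).trans (add_le_add (hFw z hz) hαF)
  calc _ ≤ 1 * (B + 2 * B + K * B + K⁻¹ * (2 * B) + K⁻¹ * B) :=
        mul_le_mul hφ1 m5 (norm_nonneg _) (by norm_num)
    _ = _ := one_mul _

/-- The rotated sup estimate. -/
lemma norm_tf_add {t : ℝ} {f V : ℂ[X]} {e z : ℂ} (he : ‖e‖ = 1)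
    (hfe : f.eval z = (‖f.eval z‖ : ℂ) * e) :
    ‖(C (t : ℂ) * f + V).eval z‖ = ‖(t : ℂ) * ‖f.eval z‖ + conj e * V.eval z‖ := by
  have hee : conj e * e = 1 := by
    rw [← Complex.normSq_eq_conj_mul_self, Complex.normSq_eq_norm_sq, he]; simp
  have hce : ‖conj e‖ = 1 := by rw [RCLike.norm_conj]; exact he
  have h2 : conj e * f.eval z = (‖f.eval z‖ : ℂ) := by
    conv_lhs => rw [hfe]
    calc conj e * ((‖f.eval z‖ : ℂ) * e) = (conj e * e) * (‖f.eval z‖ : ℂ) := by ring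
      _ = _ := by rw [hee, one_mul]
  have h1 : (t : ℂ) * ‖f.eval z‖ + conj e * V.eval z = conj e * (C (t : ℂ) * f + V).eval z := by
    rw [eval_add, eval_mul, eval_C, ← h2]; ring
  rw [h1, norm_mul, hce, one_mul]

theorem no_extremal [CompleteSpace H] {A : H →L[ℂ] H} {Om : Set ℂ} {K B c₀ Λ CG : ℝ}
    {P Q F : ℂ[X]} (hK0 : 0 < K) (hc : 0 < c₀) (hB : 0 < B) (hΛ : 0 ≤ Λ) (hCG : 0 ≤ CG)
    (hK : SpecBd A Om K) (hne : ∀ r > 0, ∃ p : ℂ[X], Bdd Om 1 p ∧ K - r ≤ ‖aeval A p‖)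
    (hsys : ∀ ε > 0, ∃ α : ℂ[X] → ℂ[X], Sys A Om ε α)
    (cert : Cert K P Q F c₀ Λ)
    (hP : ∀ w : ℂ, ‖w‖ ≤ 1 → ‖P.eval w‖ ≤ B) (hQ : ∀ w : ℂ, ‖w‖ ≤ 1 → ‖Q.eval w‖ ≤ B)
    (hF : ∀ w : ℂ, ‖w‖ ≤ 1 → ‖F.eval w‖ ≤ B)
    (hG : ∀ (w : ℂ) (φ : ℝ), ‖w‖ ≤ 1 → 0 ≤ φ → φ ≤ 1 →
      ‖φ * (F.eval (φ * w) - K * P.eval (φ * w) - (K : ℂ)⁻¹ * (φ * w * Q.eval (φ * w)))
        - (F.eval w - K * P.eval w - (K : ℂ)⁻¹ * (w * Q.eval w))‖ ≤ CG * (1 - φ)) :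
    False := by
  have hKi : 0 < K⁻¹ := inv_pos.mpr hK0
  -- constants
  obtain ⟨B₁, hB₁⟩ : ∃ b : ℝ, b = B + K⁻¹ * B + K * B + 2 * Λ := ⟨_, rfl⟩
  obtain ⟨C₁, hC₁⟩ : ∃ b : ℝ, b = CG + 2 * B + 4 * B * K⁻¹ := ⟨_, rfl⟩
  obtain ⟨BV, hBV⟩ : ∃ b : ℝ, b = B + 2 * B + K * B + K⁻¹ * (2 * B) + K⁻¹ * B + K * (2 * B) :=
    ⟨_, rfl⟩
  have hB₁0 : 0 < B₁ := by rw [hB₁]; positivity
  have hC₁0 : 0 < C₁ := by rw [hC₁]; positivity
  have hBV0 : 0 < BV := by rw [hBV]; positivity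
  obtain ⟨t, ht⟩ : ∃ t : ℝ, t = 2 * BV ^ 2 / c₀ + c₀ + BV + C₁ := ⟨_, rfl⟩
  have hfr : 0 < 2 * BV ^ 2 / c₀ := by positivity
  have ht0 : 0 < t := by rw [ht]; positivity
  obtain ⟨s, hs0, hs1, hsB, hδK, herr⟩ := exists_param hK0 hc hB hB₁0 ht0
  obtain ⟨δ, hδ⟩ : ∃ δ : ℝ, δ = s ^ 2 / (2 * K) := ⟨_, rfl⟩
  rw [← hδ] at hδK herr
  have hδ0 : 0 < δ := by rw [hδ]; positivity
  have hsqrt : √(2 * K * δ) = s := by
    have : 2 * K * δ = s ^ 2 := by rw [hδ]; field_simp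
    rw [this, Real.sqrt_sq hs0.le]
  -- the near-extremal pair and the system
  obtain ⟨f, x, y, N⟩ := near_exists hK0 hδ0 hδK hK hne
  rw [hsqrt] at N
  obtain ⟨α, S⟩ := hsys s hs0
  -- g
  obtain ⟨g, hg⟩ : ∃ g : ℂ[X], g = C (((1 + s)⁻¹ : ℝ) : ℂ) * α f := ⟨_, rfl⟩
  have hgb : Bdd Om 1 g := by
    intro z hz
    rw [hg, eval_mul, eval_C, norm_mul, Complex.norm_real, Real.norm_of_nonneg (by positivity)]
    have := S.bound (B := 1) (by norm_num) N.bdd z hz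
    rw [inv_mul_le_iff₀ (by positivity)]
    linarith
  have hfg : α f = C ((1 + s : ℝ) : ℂ) * g := by
    rw [hg, ← mul_assoc, ← C_mul, ← Complex.ofReal_mul, mul_inv_cancel₀ (by positivity)]
    simp
  obtain ⟨hPw, hhb, hkb, hFb⟩ := comp_bounds N.bdd hgb hP hQ hF
  have hm : ∀ z ∈ Om, ‖(f * P.comp (f * g)).eval z + conj ((g * Q.comp (f * g)).eval z)‖ ≤
      ((F.comp (f * g)).eval z).re := by
    intro z hz
    have h1 := cert.n1 (f.eval z) (g.eval z) (N.bdd z hz) (hgb z hz)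
    simpa [eval_mul, eval_comp] using h1
  have hlow := lower_bound hK0 (by positivity : (0:ℝ) ≤ s + δ) hs0.le hs1 hB S N hhb hkb hFb hm
  rw [← Vpoly_inner] at hlow
  have hVb := Vpoly_bound hK0 hs1 hB S N.bdd hPw hhb hkb hFb
  rw [← hBV] at hVb
  -- sup bound
  have hsup : Bdd Om (t - c₀ / 4) (C (t : ℂ) * f + Vpoly K α f g P Q F) := by
    intro z hz
    obtain ⟨e, he, hfe, hpt⟩ := pointwise hK0 hs0.le hs1 hB hΛ S N.bdd hgb hfg cert hP hQ hF hG hz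
    rw [← Vpoly_eval, ← hB₁, ← hC₁] at hpt
    have hφ0 : 0 ≤ ‖f.eval z‖ := norm_nonneg _
    have hφ1 : ‖f.eval z‖ ≤ 1 := N.bdd z hz
    have hv : ‖conj e * (Vpoly K α f g P Q F).eval z‖ ≤ BV := by
      rw [norm_mul, RCLike.norm_conj, he, one_mul]; exact hVb z hz
    have hC₁t : C₁ * (1 - ‖f.eval z‖) ≤ t * (1 - ‖f.eval z‖) := by
      apply mul_le_mul_of_nonneg_right _ (by linarith)
      rw [ht]; linarith
    have hre : t * ‖f.eval z‖ + (conj e * (Vpoly K α f g P Q F).eval z).re ≤ t - c₀ / 2 := by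
      linarith
    rw [norm_tf_add he hfe]
    exact sup_bound hc hBV0 hφ0 (by rw [ht]; linarith) hv hre
  have htc : 0 ≤ t - c₀ / 4 := by rw [ht]; linarith
  have hop := hK.scaled hK0.le htc hsup
  have hLle : (⟪y, aeval A (C (t : ℂ) * f + Vpoly K α f g P Q F) x⟫_ℂ).re ≤ K * (t - c₀ / 4) := by
    refine (Complex.re_le_norm _).trans ?_
    calc ‖⟪y, aeval A (C (t : ℂ) * f + Vpoly K α f g P Q F) x⟫_ℂ‖
        ≤ ‖y‖ * ‖aeval A (C (t : ℂ) * f + Vpoly K α f g P Q F) x‖ := norm_inner_le_norm _ _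
      _ ≤ 1 * (‖aeval A (C (t : ℂ) * f + Vpoly K α f g P Q F)‖ * ‖x‖) :=
          mul_le_mul N.y_le (ContinuousLinearMap.le_opNorm _ _) (norm_nonneg _) (by norm_num)
      _ ≤ 1 * ((K * (t - c₀ / 4)) * 1) := by
          apply mul_le_mul_of_nonneg_left _ (by norm_num)
          exact mul_le_mul hop N.x_le (norm_nonneg _) (by positivity)
      _ = K * (t - c₀ / 4) := by ring
  rw [inner_aeval_add, inner_aeval_C_mul, Complex.add_re, Complex.re_ofReal_mul] at hLle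
  have hlarge := mul_le_mul_of_nonneg_left N.large ht0.le
  have hKc0 : 0 < K * c₀ := by positivity
  linarith

end Vale.Agent.P123
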