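import Vale.Agent.P123.Near

/-!
# P123: the operator `α` on the domain and its positivity near the boundary
-/

open Complex MeasureTheory Set Filter Topology
open scoped Real ComplexConjugate

namespace Vale.Agent.P123

variable {h h1 h2 : ℝ → ℝ}

/-- The scalar Cauchy integral of the boundary function `g`. -/
noncomputable def cas (h h1 h2 : ℝ → ℝ) (g : ℝ → ℂ) (z : ℂ) : ℂ :=
  (1 / (2 * π) : ℂ) * ∫ t in (0 : ℝ)..(2 * π), g t * (tng h h2 t / (bd h h1 t - z))

lemma bd_sub_ne {z : ℂ} {t : ℝ} (hz0 : (exp (-(t * I)) * z).re < h t) : bd h h1 t - z ≠ 0 := by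
  intro hc
  have : z = bd h h1 t := (sub_eq_zero.1 hc).symm
  rw [this, re_exp_mul_bd_self] at hz0
  exact lt_irrefl _ hz0

lemma mem_intr_smul {z : ℂ} (hp : ∀ t, 0 < h t) (hz : z ∈ body h) {s : ℝ} (h0 : 0 ≤ s)
    (h1 : s < 1) : (s : ℂ) * z ∈ intr h := by
  intro t
  have h3 : exp (-(t * I)) * ((s : ℂ) * z) = (s : ℂ) * (exp (-(t * I)) * z) := by ring
  rw [h3, Complex.re_ofReal_mul]
  have h4 := mul_le_mul_of_nonneg_left (hz t) h0
  have h5 := hp t
  nlinarith

lemma intr_subset_body : intr h ⊆ body h := fun _ hz t => (hz t).le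

lemma mem_intr_smul' {z : ℂ} (hp : ∀ t, 0 < h t) (hz : z ∈ intr h) {s : ℝ} (h0 : 0 ≤ s)
    (h1 : s ≤ 1) : (s : ℂ) * z ∈ intr h := by
  rcases eq_or_lt_of_le h1 with h1 | h1
  · rw [h1, Complex.ofReal_one, one_mul]; exact hz
  · exact mem_intr_smul hp (intr_subset_body hz) h0 h1

/-- Cauchy's formula for polynomials at interior points. -/
lemma SuppData.cauchy_scalar (S : SuppData h h1 h2) (hp : ∀ t, 0 < h t) {z : ℂ}
    (hz : z ∈ intr h) (F : Polynomial ℂ) :
    cas h h1 h2 (fun t => F.eval (bd h h1 t)) z = F.eval z := by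
  have hu : ∀ s ∈ Icc (0 : ℝ) 1, ∀ t, IsUnit (algebraMap ℂ ℂ (bd h h1 t) - s • z) := by
    intro s hs t
    rw [isUnit_iff_ne_zero]
    have h5 := mem_intr_smul' hp hz hs.1 hs.2 t
    have := bd_sub_ne (h1 := h1) h5
    simpa using this
  have h0 := S.cauchy_poly z hp hu F
  have e : ∀ t, F.eval (bd h h1 t) * (tng h h2 t / (bd h h1 t - z))
      = (tng h h2 t * F.eval (bd h h1 t)) • res h h1 z t := by
    intro t
    rw [res, Ring.inverse_eq_inv']
    simp only [Algebra.algebraMap_self, RingHom.id_apply, smul_eq_mul]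
    ring
  unfold cas
  simp only [e]
  rw [h0]
  have h3 : (Polynomial.aeval z) F = F.eval z := by simp [Polynomial.aeval_def]
  rw [h3, smul_eq_mul, ← mul_assoc, one_div, inv_mul_cancel₀, one_mul]
  have := Real.pi_ne_zero
  simp [this]

section
variable (S : SuppData h h1 h2)
include S

lemma SuppData.cont_tng_div {z : ℂ} (hz : z ∈ intr h) :
    Continuous fun t => tng h h2 t / (bd h h1 t - z) :=
  S.cont_tng.div (S.cont_bd.sub continuous_const) fun t => bd_sub_ne (hz t)

omit S in
/-- The kernel at the point `z`. -/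
lemma pker_translate (h h1 h2 : ℝ → ℝ) (z : ℂ) (t : ℝ) :
    2 * (tng h h2 t / (bd h h1 t - z)).re = pker (hz h z) (hz1 h1 z) (hz2 h2 z) t := by
  rw [← re_tng_div, bd_translate]
  simp only [tng, rho_translate]

/-- The real formula for `α F`. -/
lemma SuppData.re_cas_conj (hp : ∀ t, 0 < h t) {z : ℂ} (hzi : z ∈ intr h) (F : Polynomial ℂ) :
    (cas h h1 h2 (fun t => conj (F.eval (bd h h1 t))) z).re
      = (1 / (2 * π)) * (∫ t in (0 : ℝ)..(2 * π),
          (F.eval (bd h h1 t)).re * pker (hz h z) (hz1 h1 z) (hz2 h2 z) t) - (F.eval z).re := by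
  have hcb := S.cont_bd
  have hcF : Continuous fun t => F.eval (bd h h1 t) := F.continuous.comp hcb
  have hk := S.cont_tng_div hzi
  have h3 : (cas h h1 h2 (fun t => conj (F.eval (bd h h1 t))) z).re
      = (1 / (2 * π)) * ∫ t in (0 : ℝ)..(2 * π),
          (conj (F.eval (bd h h1 t)) * (tng h h2 t / (bd h h1 t - z))).re := by
    unfold cas
    have : (1 / (2 * π) : ℂ) = ((1 / (2 * π) : ℝ) : ℂ) := by push_cast; rfl
    rw [this, Complex.re_ofReal_mul]
    congr 1
    have hi : IntervalIntegrable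
        (fun t => conj (F.eval (bd h h1 t)) * (tng h h2 t / (bd h h1 t - z)))
        volume 0 (2 * π) := by
      apply Continuous.intervalIntegrable
      exact (Complex.continuous_conj.comp hcF).mul hk
    exact (Complex.reCLM.intervalIntegral_comp_comm hi).symm
  have h4 : (F.eval z).re = (1 / (2 * π)) * ∫ t in (0 : ℝ)..(2 * π),
      (F.eval (bd h h1 t) * (tng h h2 t / (bd h h1 t - z))).re := by
    rw [← S.cauchy_scalar hp hzi F]
    unfold cas
    have : (1 / (2 * π) : ℂ) = ((1 / (2 * π) : ℝ) : ℂ) := by push_cast; rfl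
    rw [this, Complex.re_ofReal_mul]
    congr 1
    have hi : IntervalIntegrable
        (fun t => F.eval (bd h h1 t) * (tng h h2 t / (bd h h1 t - z)))
        volume 0 (2 * π) := by
      apply Continuous.intervalIntegrable
      exact hcF.mul hk
    exact (Complex.reCLM.intervalIntegral_comp_comm hi).symm
  rw [h3, h4, ← mul_sub, ← intervalIntegral.integral_sub]
  · congr 1
    apply intervalIntegral.integral_congr
    intro t _
    simp only [Complex.mul_re, Complex.conj_re, Complex.conj_im, ← pker_translate h h1 h2 z t]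
    ring
  · apply Continuous.intervalIntegrable
    have := S.translate z
    have hpz : ∀ t, 0 < hz h z t := fun t => by have := hzi t; simp only [hz]; linarith
    have := this.cont_pker hpz
    exact (Complex.continuous_re.comp hcF).mul this
  · apply Continuous.intervalIntegrable
    exact Complex.continuous_re.comp (hcF.mul hk)

end

/-- A continuous periodic function attains its minimum. -/
lemma exists_min_of_periodic {f : ℝ → ℝ} (hf : Continuous f)
    (hper : Function.Periodic f (2 * π)) : ∃ θ, ∀ t, f θ ≤ f t := by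
  obtain ⟨θ, _, hθ⟩ := (isCompact_Icc (a := (0 : ℝ)) (b := 2 * π)).exists_isMinOn
    ⟨0, left_mem_Icc.2 (by positivity)⟩ hf.continuousOn
  refine ⟨θ, fun t => ?_⟩
  obtain ⟨y, hy, hyt⟩ := hper.exists_mem_Ico₀ (by positivity) t
  rw [hyt]
  exact hθ ⟨hy.1, hy.2.le⟩

lemma exists_max_of_periodic {f : ℝ → ℝ} (hf : Continuous f)
    (hper : Function.Periodic f (2 * π)) : ∃ θ, ∀ t, f t ≤ f θ := by
  obtain ⟨θ, hθ⟩ := exists_min_of_periodic hf.neg (f := fun t => -f t)
    (fun t => by simp only [hper t])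
  exact ⟨θ, fun t => by have := hθ t; linarith⟩

lemma isClosed_body (h : ℝ → ℝ) : IsClosed (body h) := by
  have : body h = ⋂ t : ℝ, {z : ℂ | (exp (-(t * I)) * z).re ≤ h t} := by
    ext z; simp [body]
  rw [this]
  exact isClosed_iInter fun t => isClosed_le (by fun_prop) continuous_const

lemma norm_le_of_mem_body {z : ℂ} (hz : z ∈ body h) : ‖z‖ ≤ h (arg z) := by
  have h3 := hz (arg z)
  have : exp (-(arg z * I)) * z = (‖z‖ : ℂ) := by
    have e := Complex.norm_mul_exp_arg_mul_I z
    calc exp (-(arg z * I)) * z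
        = exp (-(arg z * I)) * ((‖z‖ : ℂ) * exp (arg z * I)) := by rw [e]
      _ = (‖z‖ : ℂ) * (exp (-(arg z * I)) * exp (arg z * I)) := by ring
      _ = (‖z‖ : ℂ) := by rw [exp_neg_mul_exp, mul_one]
  rw [this, Complex.ofReal_re] at h3
  exact h3

lemma SuppData.isCompact_body (S : SuppData h h1 h2) : IsCompact (body h) := by
  obtain ⟨θ, hθ⟩ := exists_max_of_periodic S.c0 S.per
  apply Metric.isCompact_of_isClosed_isBounded (isClosed_body h)
  rw [Metric.isBounded_iff_subset_closedBall 0]
  refine ⟨h θ, fun z hz => ?_⟩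
  rw [mem_closedBall_zero_iff]
  exact (norm_le_of_mem_body hz).trans (hθ _)

lemma SuppData.norm_bd_sub_le (S : SuppData h h1 h2) {r1 : ℝ} (hi : ∀ s, rho h h2 s ≤ r1)
    (t s : ℝ) : ‖bd h h1 t - bd h h1 s‖ ≤ r1 * |t - s| := by
  have := Convex.norm_image_sub_le_of_norm_hasDerivWithin_le (f := bd h h1)
    (f' := fun t => I * tng h h2 t) (C := r1) (s := univ) (x := s) (y := t)
    (fun x _ => (S.hasDerivAt_bd x).hasDerivWithinAt) ?_ convex_univ (mem_univ _) (mem_univ _)
  · simpa [Real.norm_eq_abs] using this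
  · intro x _
    rw [norm_mul, Complex.norm_I, one_mul, tng, norm_mul, Complex.norm_exp_ofReal_mul_I, mul_one,
      Complex.norm_real, Real.norm_eq_abs, abs_of_pos (S.rho_pos x)]
    exact hi x

/-- Positivity of `α` near the boundary. -/
theorem SuppData.near_boundary (S : SuppData h h1 h2) (hp : ∀ t, 0 < h t) (F : Polynomial ℂ)
    {C : ℝ} (hF : ∀ z ∈ body h, (F.eval z).re ≤ C) {ε : ℝ} (hε : 0 < ε) :
    ∃ δ > 0, ∀ z ∈ intr h, ∀ s, hz h z s < δ →
      (cas h h1 h2 (fun t => conj (F.eval (bd h h1 t))) z).re ≤ C + ε := by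
  obtain ⟨t0, ht0⟩ := exists_min_of_periodic S.cont_rho S.rho_per
  obtain ⟨t1, ht1⟩ := exists_max_of_periodic S.cont_rho S.rho_per
  set r0 := rho h h2 t0 with hr0
  set r1 := rho h h2 t1 with hr1
  have hr0p : 0 < r0 := S.rho_pos t0
  have hr1p : 0 < r1 := S.rho_pos t1
  have hcomp := S.isCompact_body
  obtain ⟨B, hB⟩ : ∃ B, ∀ z ∈ body h, ‖(fun z => C - (F.eval z).re) z‖ ≤ B := by
    apply hcomp.exists_bound_of_continuousOn
    exact (continuous_const.sub (Complex.continuous_re.comp F.continuous)).continuousOn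
  have hB0 : 0 ≤ B := (norm_nonneg _).trans (hB _ (S.bd_mem_body 0))
  have hUC := hcomp.uniformContinuousOn_of_continuous
    (f := fun z => (F.eval z).re) (Complex.continuous_re.comp F.continuous).continuousOn
  rw [Metric.uniformContinuousOn_iff] at hUC
  obtain ⟨δ1, hδ1, hUC⟩ := hUC (ε / 2) (by positivity)
  -- the choice of `τ`
  set τ : ℝ := min 1 (min (r0 / (2 * r1)) (min (δ1 / (3 * r1)) (ε * r0 / (8 * r1 * (B + 1)))))
    with hτdef
  have hτ : 0 < τ := by
    rw [hτdef]
    positivity
  have hτ1 : τ ≤ 1 := min_le_left _ _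
  have hτa : τ ≤ r0 / (2 * r1) := (min_le_right _ _).trans (min_le_left _ _)
  have hτb : τ ≤ δ1 / (3 * r1) :=
    (min_le_right _ _).trans ((min_le_right _ _).trans (min_le_left _ _))
  have hτc : τ ≤ ε * r0 / (8 * r1 * (B + 1)) :=
    (min_le_right _ _).trans ((min_le_right _ _).trans (min_le_right _ _))
  have hτsq : τ ^ 2 ≤ τ := by nlinarith
  have hτ2 : r1 * τ ^ 2 ≤ r0 / 2 := by
    rw [le_div_iff₀ (by positivity)] at hτa
    nlinarith
  have hτb' : 3 * (r1 * τ) ≤ δ1 := by
    rw [le_div_iff₀ (by positivity)] at hτb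
    linarith
  have hτc' : 8 * r1 / r0 * τ * (B + 1) ≤ ε := by
    rw [le_div_iff₀ (by positivity)] at hτc
    rw [div_mul_eq_mul_div, div_mul_eq_mul_div, div_le_iff₀ hr0p]
    linarith
  refine ⟨r1 * τ ^ 2 / 2, by positivity, ?_⟩
  intro z hzi s hs
  -- translate
  have T := S.translate z
  have hpz : ∀ t, 0 < hz h z t := fun t => by have := hzi t; simp only [hz]; linarith
  obtain ⟨θ, hθ⟩ := exists_min_of_periodic T.c0 T.per
  set d := hz h z θ with hd
  have hdlt : d ≤ r1 * τ ^ 2 / 2 := ((hθ s).trans_lt hs).le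
  have hd0 : 0 < d := hpz θ
  have h10 : hz1 h1 z θ = 0 := by
    apply IsLocalMin.hasDerivAt_eq_zero _ (T.d1 θ)
    exact Eventually.of_forall hθ
  have hzθ : ‖bd h h1 θ - z‖ = d := by
    rw [← bd_translate, bd_eq, h10, ← hd]
    simp only [Complex.ofReal_zero, zero_mul, add_zero, norm_mul, Complex.norm_exp_ofReal_mul_I,
      mul_one, Complex.norm_real, Real.norm_eq_abs]
    exact abs_of_pos hd0
  have hpk := T.pker_pos hpz
  have hcpk := T.cont_pker hpz
  set p := pker (hz h z) (hz1 h1 z) (hz2 h2 z) with hpdef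
  have hlo : ∀ s, r0 ≤ rho (hz h z) (hz2 h2 z) s := fun s => by
    rw [rho_translate]; exact ht0 s
  have hhi : ∀ s, rho (hz h z) (hz2 h2 z) s ≤ r1 := fun s => by
    rw [rho_translate]; exact ht1 s
  have hmass := T.near_mass hpz hlo hhi hr0p hd.symm h10 hτ hτ2 hdlt
  rw [← hpdef] at hmass
  -- total mass
  have hmass1 : (1 / (2 * π)) * ∫ t in (0 : ℝ)..(2 * π), p t = 2 := by
    have e1 := S.re_cas_conj hp hzi 1
    have e2 := S.cauchy_scalar hp hzi 1
    have e3 : (fun t => conj ((1 : Polynomial ℂ).eval (bd h h1 t)))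
        = (fun t => (1 : Polynomial ℂ).eval (bd h h1 t)) := by
      ext t; simp
    rw [e3, e2] at e1
    simp only [Polynomial.eval_one, Complex.one_re, one_mul] at e1
    rw [← hpdef] at e1
    linarith
  rw [S.re_cas_conj hp hzi F, ← hpdef]
  set U : ℝ → ℝ := fun t => C - (F.eval (bd h h1 t)).re with hU
  have hcU : Continuous U :=
    continuous_const.sub (Complex.continuous_re.comp (F.continuous.comp S.cont_bd))
  have hU0 : ∀ t, 0 ≤ U t := fun t => by
    have := hF _ (S.bd_mem_body t)
    simp only [hU]; linarith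
  set Uz := C - (F.eval z).re with hUz
  have hUz0 : 0 ≤ Uz := by have := hF z (intr_subset_body hzi); linarith
  have hUzB : Uz ≤ B := (le_abs_self _).trans (hB z (intr_subset_body hzi))
  have hint : ∫ t in (0 : ℝ)..(2 * π), (F.eval (bd h h1 t)).re * p t
      = C * (∫ t in (0 : ℝ)..(2 * π), p t) - ∫ t in (0 : ℝ)..(2 * π), U t * p t := by
    rw [← intervalIntegral.integral_const_mul, ← intervalIntegral.integral_sub]
    · apply intervalIntegral.integral_congr
      intro t _
      simp only [hU]; ring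
    · exact (continuous_const.mul hcpk).intervalIntegrable _ _
    · exact (hcU.mul hcpk).intervalIntegrable _ _
  have hUper : Function.Periodic (fun t => U t * p t) (2 * π) := by
    intro t
    have e1 := S.bd_per t
    have e2 : p (t + 2 * π) = p t := by
      simp only [hpdef, pker, T.per t, T.per1 t, T.rho_per t]
    simp only [hU, e1, e2]
  have hshift : ∫ t in (0 : ℝ)..(2 * π), U t * p t
      = ∫ t in (θ - π)..(θ + π), U t * p t := by
    have := hUper.intervalIntegral_add_eq 0 (θ - π)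
    rw [zero_add, show θ - π + 2 * π = θ + π by ring] at this
    exact this
  have hτπ : τ ≤ π := hτ1.trans (by linarith [Real.pi_gt_three])
  have hge : ∫ t in (θ - τ)..(θ + τ), U t * p t ≤ ∫ t in (θ - π)..(θ + π), U t * p t := by
    apply intervalIntegral.integral_mono_interval (by linarith) (by linarith) (by linarith)
    · exact Eventually.of_forall fun t => mul_nonneg (hU0 t) (hpk t).le
    · exact (hcU.mul hcpk).intervalIntegrable _ _
  have hpi := Real.pi_pos
  rw [hint, mul_sub, mul_left_comm, hmass1]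
  rcases le_or_gt Uz (ε / 2) with hcase | hcase
  · have : 0 ≤ ∫ t in (0 : ℝ)..(2 * π), U t * p t := by
      apply intervalIntegral.integral_nonneg (by positivity)
      intro t _
      exact mul_nonneg (hU0 t) (hpk t).le
    have h5 : 0 ≤ 1 / (2 * π) * ∫ t in (0 : ℝ)..(2 * π), U t * p t := by positivity
    linarith
  · have hnear : (Uz - ε / 2) * ∫ t in (θ - τ)..(θ + τ), p t
        ≤ ∫ t in (θ - τ)..(θ + τ), U t * p t := by
      rw [← intervalIntegral.integral_const_mul]
      apply intervalIntegral.integral_mono_on (by linarith)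
      · exact (continuous_const.mul hcpk).intervalIntegrable _ _
      · exact (hcU.mul hcpk).intervalIntegrable _ _
      · intro t ht
        apply mul_le_mul_of_nonneg_right _ (hpk t).le
        have hdist : dist (bd h h1 t) z < δ1 := by
          rw [dist_eq_norm]
          have e1 : ‖bd h h1 t - z‖ ≤ ‖bd h h1 t - bd h h1 θ‖ + ‖bd h h1 θ - z‖ := by
            have := norm_add_le (bd h h1 t - bd h h1 θ) (bd h h1 θ - z)
            rwa [sub_add_sub_cancel] at this
          have e2 := S.norm_bd_sub_le (fun s => ht1 s) t θ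
          have e3 : |t - θ| ≤ τ := by
            rw [abs_le]; constructor <;> linarith [ht.1, ht.2]
          have e4 : r1 * |t - θ| ≤ r1 * τ := mul_le_mul_of_nonneg_left e3 hr1p.le
          have e5 : r1 * τ ^ 2 ≤ r1 * τ := mul_le_mul_of_nonneg_left hτsq hr1p.le
          have e6 : 0 < r1 * τ := by positivity
          rw [hzθ] at e1
          linarith
        have h6 := hUC _ (S.bd_mem_body t) _ (intr_subset_body hzi) hdist
        rw [Real.dist_eq, abs_lt] at h6
        simp only [hU, hUz]
        linarith [h6.1, h6.2]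
    have h7 : (Uz - ε / 2) * (2 * π - 8 * r1 / r0 * τ) ≤ ∫ t in (0 : ℝ)..(2 * π), U t * p t := by
      rw [hshift]
      refine (mul_le_mul_of_nonneg_left hmass (by linarith)).trans (hnear.trans hge)
    have h8 : (1 / (2 * π)) * ((Uz - ε / 2) * (2 * π - 8 * r1 / r0 * τ))
        ≤ 1 / (2 * π) * ∫ t in (0 : ℝ)..(2 * π), U t * p t :=
      mul_le_mul_of_nonneg_left h7 (by positivity)
    have h9 : (1 / (2 * π)) * ((Uz - ε / 2) * (2 * π - 8 * r1 / r0 * τ))
        = (Uz - ε / 2) - (1 / (2 * π)) * ((Uz - ε / 2) * (8 * r1 / r0 * τ)) := by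
      field_simp
    have h10 : (Uz - ε / 2) * (8 * r1 / r0 * τ) ≤ ε := by
      have : 0 ≤ 8 * r1 / r0 * τ := by positivity
      have h11 : (Uz - ε / 2) * (8 * r1 / r0 * τ) ≤ (B + 1) * (8 * r1 / r0 * τ) :=
        mul_le_mul_of_nonneg_right (by linarith) this
      linarith
    have h12 : (1 / (2 * π)) * ((Uz - ε / 2) * (8 * r1 / r0 * τ)) ≤ ε / 2 := by
      have h13 : (1 / (2 * π)) * ((Uz - ε / 2) * (8 * r1 / r0 * τ)) ≤ (1 / (2 * π)) * ε :=
        mul_le_mul_of_nonneg_left h10 (by positivity)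
      have h14 : 1 / (2 * π) ≤ 1 / 2 := by
        apply one_div_le_one_div_of_le (by norm_num)
        linarith [Real.pi_gt_three]
      have h15 := mul_le_mul_of_nonneg_right h14 hε.le
      linarith
    rw [h9] at h8
    linarith

end Vale.Agent.P123
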