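import Vale.Agent.P123.Cauchy

/-!
# P123: polynomial approximation of Cauchy integrals
-/

open Complex MeasureTheory Set Filter Topology
open scoped Real ComplexConjugate Polynomial

namespace Vale.Agent.P123

set_option linter.unusedSectionVars false

variable {h h1 h2 : ℝ → ℝ}

/-- The centre shift of the expansion. -/
noncomputable def cen (h h1 : ℝ → ℝ) (r L t : ℝ) : ℂ :=
  bd h h1 t + ((r * L : ℝ) : ℂ) * exp (t * I)

/-- The polynomial approximating `z ↦ 1 / (σ(t) - r z)`. -/
noncomputable def kpol (h h1 : ℝ → ℝ) (r L : ℝ) (N : ℕ) (t : ℝ) : ℂ[X] :=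
  ∑ k ∈ Finset.range N, Polynomial.C ((r : ℂ) ^ k / cen h h1 r L t ^ (k + 1)) *
    (Polynomial.X + Polynomial.C ((L : ℂ) * exp (t * I))) ^ k

/-- The approximating polynomial of the Cauchy integral of `g`. -/
noncomputable def apx (h h1 h2 : ℝ → ℝ) (r L : ℝ) (N : ℕ) (g : ℝ → ℂ) : ℂ[X] :=
  ∑ j ∈ Finset.range (N + 1), Polynomial.monomial j
    ((1 / (2 * π) : ℂ) * ∫ t in (0 : ℝ)..(2 * π), g t * tng h h2 t * (kpol h h1 r L N t).coeff j)

lemma re_cen (h h1 : ℝ → ℝ) (r L t : ℝ) : (exp (-(t * I)) * cen h h1 r L t).re = h t + r * L := by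
  unfold cen
  rw [mul_add, Complex.add_re, re_exp_mul_bd_self, mul_left_comm, exp_neg_mul_exp, mul_one,
    Complex.ofReal_re]

lemma le_norm_cen (h h1 : ℝ → ℝ) (r L t : ℝ) : h t + r * L ≤ ‖cen h h1 r L t‖ := by
  rw [← re_cen h h1 r L t]
  refine (Complex.re_le_norm _).trans ?_
  rw [norm_mul]
  have : ‖exp (-(t * I))‖ = 1 := by
    rw [show -((t : ℂ) * I) = ((-t : ℝ) : ℂ) * I by push_cast; ring, Complex.norm_exp_ofReal_mul_I]
  rw [this, one_mul]

lemma cen_ne_zero {r L t : ℝ} (hpos : 0 < h t + r * L) : cen h h1 r L t ≠ 0 := by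
  have := le_norm_cen h h1 r L t
  intro hc
  rw [hc, norm_zero] at this
  linarith

lemma SuppData.cont_cen (S : SuppData h h1 h2) (r L : ℝ) : Continuous (cen h h1 r L) := by
  have := S.cont_bd
  unfold cen
  fun_prop

lemma SuppData.cont_coeff (S : SuppData h h1 h2) {r L : ℝ} (hpos : ∀ t, 0 < h t + r * L)
    (N j : ℕ) : Continuous fun t => (kpol h h1 r L N t).coeff j := by
  unfold kpol
  simp only [Polynomial.finsetSum_coeff, Polynomial.coeff_C_mul, Polynomial.coeff_X_add_C_pow]
  apply continuous_finsetSum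
  intro k _
  have h3 := S.cont_cen r L
  refine Continuous.mul ?_ ?_
  · exact continuous_const.div (h3.pow _) fun t => pow_ne_zero _ (cen_ne_zero (hpos t))
  · fun_prop

lemma natDegree_kpol (h h1 : ℝ → ℝ) (r L : ℝ) (N : ℕ) (t : ℝ) :
    (kpol h h1 r L N t).natDegree < N + 1 := by
  unfold kpol
  refine Nat.lt_succ_of_le (Polynomial.natDegree_sum_le_of_forall_le _ _ ?_)
  intro k hk
  refine (Polynomial.natDegree_C_mul_le _ _).trans ?_
  refine (Polynomial.natDegree_pow_le).trans ?_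
  rw [Polynomial.natDegree_X_add_C, mul_one]
  exact (Finset.mem_range.1 hk).le

variable {R : Type*} [NormedRing R] [NormedAlgebra ℂ R] [CompleteSpace R]

lemma SuppData.aeval_apx (S : SuppData h h1 h2) {r L : ℝ} (hpos : ∀ t, 0 < h t + r * L)
    (N : ℕ) {g : ℝ → ℂ} (hg : Continuous g) (a : R) :
    Polynomial.aeval a (apx h h1 h2 r L N g)
      = (1 / (2 * π) : ℂ) • ∫ t in (0 : ℝ)..(2 * π),
          (g t * tng h h2 t) • Polynomial.aeval a (kpol h h1 r L N t) := by
  have hct := S.cont_tng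
  have hcc := fun j => S.cont_coeff hpos N j
  have e : ∀ t, (g t * tng h h2 t) • Polynomial.aeval a (kpol h h1 r L N t)
      = ∑ j ∈ Finset.range (N + 1),
        (g t * tng h h2 t * (kpol h h1 r L N t).coeff j) • a ^ j := by
    intro t
    rw [Polynomial.aeval_eq_sum_range' (natDegree_kpol h h1 r L N t), Finset.smul_sum]
    simp only [smul_smul]
  simp only [e]
  rw [intervalIntegral.integral_finsetSum, Finset.smul_sum]
  · unfold apx
    rw [map_sum]
    apply Finset.sum_congr rfl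
    intro j _
    rw [intervalIntegral.integral_smul_const, smul_smul, Polynomial.aeval_monomial,
      Algebra.smul_def]
  · intro j _
    apply Continuous.intervalIntegrable
    have := hcc j
    fun_prop

/-- Telescoping: `kpol` is an approximate resolvent. -/
lemma aeval_kpol_mul {r L : ℝ} {t : ℝ} (hpos : 0 < h t + r * L) (N : ℕ) (a : R) :
    Polynomial.aeval a (kpol h h1 r L N t) * (algebraMap ℂ R (bd h h1 t) - r • a)
      = 1 - (((r : ℂ) / cen h h1 r L t) • (a + ((L : ℂ) * exp (t * I)) • (1 : R))) ^ N := by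
  have hne := cen_ne_zero (h1 := h1) hpos
  set c := cen h h1 r L t with hc
  set b : R := ((r : ℂ) / c) • (a + ((L : ℂ) * exp (t * I)) • (1 : R)) with hb
  have e1 : Polynomial.aeval a (kpol h h1 r L N t)
      = ∑ k ∈ Finset.range N, b ^ k * ((1 / c) • (1 : R)) := by
    unfold kpol
    rw [map_sum]
    apply Finset.sum_congr rfl
    intro k _
    rw [map_mul, map_pow, map_add, Polynomial.aeval_X, Polynomial.aeval_C, Polynomial.aeval_C,
      ← hc, hb, Algebra.algebraMap_eq_smul_one, Algebra.algebraMap_eq_smul_one, smul_pow,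
      smul_mul_assoc, one_mul, mul_smul_comm, mul_one, smul_smul]
    congr 1
    rw [div_pow]
    field_simp
    ring
  have e2 : algebraMap ℂ R (bd h h1 t) - r • a = c • (1 - b) := by
    rw [hb, smul_sub, smul_smul, mul_div_cancel₀ _ hne, smul_add, smul_smul, hc, cen, add_smul,
      Algebra.algebraMap_eq_smul_one, ← Complex.coe_smul]
    have : ((r * L : ℝ) : ℂ) * exp (t * I) = (r : ℂ) * ((L : ℂ) * exp (t * I)) := by
      push_cast; ring
    rw [this]
    abel
  rw [e1, e2, ← Finset.sum_mul, mul_assoc, mul_smul_comm, smul_mul_assoc, one_mul, smul_smul,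
    mul_one_div_cancel hne, one_smul, geom_sum_mul_neg]

/-- The approximation estimate, for one value of the parameter. -/
lemma norm_kpol_sub_le {r L θ κ : ℝ} {t : ℝ} (hpos : 0 < h t + r * L) {N : ℕ} (hN : 0 < N) {a : R}
    (hu : IsUnit (algebraMap ℂ R (bd h h1 t) - r • a))
    (hb : ‖((r : ℂ) / cen h h1 r L t) • (a + ((L : ℂ) * exp (t * I)) • (1 : R))‖ ≤ θ)
    (hk : ‖Ring.inverse (algebraMap ℂ R (bd h h1 t) - r • a)‖ ≤ κ) :
    ‖Polynomial.aeval a (kpol h h1 r L N t) - resS h h1 a r t‖ ≤ θ ^ N * κ := by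
  have h3 := aeval_kpol_mul (h1 := h1) hpos N a
  set b := ((r : ℂ) / cen h h1 r L t) • (a + ((L : ℂ) * exp (t * I)) • (1 : R)) with hbdef
  have h4 : Polynomial.aeval a (kpol h h1 r L N t) - resS h h1 a r t
      = -(b ^ N * resS h h1 a r t) := by
    have : Polynomial.aeval a (kpol h h1 r L N t) = (1 - b ^ N) * resS h h1 a r t := by
      rw [← h3, resS, mul_assoc, Ring.mul_inverse_cancel _ hu, mul_one]
    rw [this]
    noncomm_ring
  rw [h4, norm_neg]
  refine (norm_mul_le _ _).trans ?_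
  apply mul_le_mul _ hk (norm_nonneg _) (pow_nonneg ((norm_nonneg _).trans hb) _)
  exact (norm_pow_le' b hN).trans (pow_le_pow_left₀ (norm_nonneg _) hb N)

/-- The integrated approximation estimate. -/
lemma SuppData.norm_apx_sub_le (S : SuppData h h1 h2) {r L e B r1 : ℝ}
    (hpos : ∀ t, 0 < h t + r * L) {N : ℕ} {g : ℝ → ℂ} (hg : Continuous g)
    (hgB : ∀ t, ‖g t‖ ≤ B) (hi : ∀ s, rho h h2 s ≤ r1) {a : R}
    (hu : ∀ t, IsUnit (algebraMap ℂ R (bd h h1 t) - r • a))
    (he : ∀ t, ‖Polynomial.aeval a (kpol h h1 r L N t) - resS h h1 a r t‖ ≤ e) :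
    ‖Polynomial.aeval a (apx h h1 h2 r L N g)
      - (1 / (2 * π) : ℂ) • ∫ t in (0 : ℝ)..(2 * π), (g t * tng h h2 t) • resS h h1 a r t‖
      ≤ B * r1 * e := by
  have hct := S.cont_tng
  have hB0 : 0 ≤ B := (norm_nonneg _).trans (hgB 0)
  have he0 : 0 ≤ e := (norm_nonneg _).trans (he 0)
  have hr10 : 0 ≤ r1 := (S.rho_pos 0).le.trans (hi 0)
  have hcres : Continuous (fun t => resS h h1 a r t) := by
    refine continuous_ringInverse_comp ?_ hu
    have := S.cont_bd
    have h2 : Continuous (algebraMap ℂ R) := continuous_algebraMap ℂ R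
    fun_prop
  have hcpol : Continuous fun t => Polynomial.aeval a (kpol h h1 r L N t) := by
    have e : ∀ t, Polynomial.aeval a (kpol h h1 r L N t)
        = ∑ j ∈ Finset.range (N + 1), (kpol h h1 r L N t).coeff j • a ^ j := fun t =>
      Polynomial.aeval_eq_sum_range' (natDegree_kpol h h1 r L N t) a
    simp only [e]
    apply continuous_finsetSum
    intro j _
    have := S.cont_coeff hpos N j
    fun_prop
  rw [S.aeval_apx hpos N hg, ← smul_sub, ← intervalIntegral.integral_sub, norm_smul]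
  · have h3 : ‖(1 / (2 * π) : ℂ)‖ = 1 / (2 * π) := by
      have : (1 / (2 * π) : ℂ) = ((1 / (2 * π) : ℝ) : ℂ) := by push_cast; rfl
      rw [this, Complex.norm_real, Real.norm_eq_abs, abs_of_pos (by positivity)]
    rw [h3]
    have h4 : ‖∫ t in (0 : ℝ)..(2 * π),
        ((g t * tng h h2 t) • Polynomial.aeval a (kpol h h1 r L N t)
          - (g t * tng h h2 t) • resS h h1 a r t)‖ ≤ (B * r1 * e) * |2 * π - 0| := by
      apply intervalIntegral.norm_integral_le_of_norm_le_const
      intro t _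
      rw [← smul_sub, norm_smul, norm_mul]
      have h5 : ‖tng h h2 t‖ ≤ r1 := by
        rw [tng, norm_mul, Complex.norm_exp_ofReal_mul_I, mul_one,
          Complex.norm_real, Real.norm_eq_abs, abs_of_pos (S.rho_pos t)]
        exact hi t
      have h6 : ‖g t‖ * ‖tng h h2 t‖ ≤ B * r1 := mul_le_mul (hgB t) h5 (norm_nonneg _) hB0
      exact mul_le_mul h6 (he t) (norm_nonneg _) (by positivity)
    rw [sub_zero, abs_of_pos (by positivity)] at h4
    have h5 := mul_le_mul_of_nonneg_left h4 (show 0 ≤ 1 / (2 * π) by positivity)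
    refine h5.trans (le_of_eq ?_)
    field_simp
  · apply Continuous.intervalIntegrable
    fun_prop
  · apply Continuous.intervalIntegrable
    fun_prop

/-- The choice of the centre of the expansion. -/
lemma exists_center {m M D r : ℝ} (hm : 0 < m) (hmh : ∀ t, m ≤ h t) (hM : ∀ t, h t ≤ M)
    (hr0 : 0 < r) (hr1 : r < 1) :
    ∃ L θ : ℝ, 0 < L ∧ 0 ≤ θ ∧ θ < 1 ∧
      ∀ t, r ^ 2 * (L ^ 2 + 2 * L * h t + D ^ 2) ≤ θ ^ 2 * (h t + r * L) ^ 2 := by
  set L : ℝ := (D ^ 2 + 1) / (2 * m * r * (1 - r)) with hL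
  have h1r : 0 < 1 - r := by linarith
  have hL0 : 0 < L := by positivity
  have hM0 : 0 < M := lt_of_lt_of_le hm ((hmh 0).trans (hM 0))
  set Q : ℝ := (M + r * L) ^ 2 + 1 with hQ
  have hQ1 : 1 < Q := by
    have : 0 < (M + r * L) ^ 2 := by positivity
    linarith
  refine ⟨L, Real.sqrt (1 - 1 / Q), hL0, Real.sqrt_nonneg _, ?_, ?_⟩
  · rw [Real.sqrt_lt' one_pos]
    have : 0 < 1 / Q := by positivity
    linarith
  · intro t
    have hQ0 : 0 ≤ 1 - 1 / Q := by
      have : 1 / Q ≤ 1 := by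
        rw [div_le_one (by linarith)]; exact hQ1.le
      linarith
    rw [Real.sq_sqrt hQ0]
    have hht := hmh t
    have hMt := hM t
    have h3 : (h t + r * L) ^ 2 ≤ Q := by
      have : (h t + r * L) ^ 2 ≤ (M + r * L) ^ 2 := by
        apply pow_le_pow_left₀
        · have : 0 < r * L := by positivity
          linarith
        · linarith
      linarith
    have h4 : (1 - 1 / Q) * (h t + r * L) ^ 2 = (h t + r * L) ^ 2 - (h t + r * L) ^ 2 / Q := by
      ring
    have h5 : (h t + r * L) ^ 2 / Q ≤ 1 := by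
      rw [div_le_one (by linarith)]; exact h3
    have h6 : 2 * m * r * (1 - r) * L = D ^ 2 + 1 := by
      rw [hL]; field_simp
    have h7 : 2 * m * r * (1 - r) * L ≤ 2 * h t * r * (1 - r) * L := by
      have : 0 ≤ r * (1 - r) * L := by positivity
      nlinarith
    have h8 : r ^ 2 * D ^ 2 ≤ D ^ 2 := by
      have : r ^ 2 ≤ 1 := by nlinarith
      nlinarith [sq_nonneg D]
    rw [h4]
    have h9 : 0 ≤ h t ^ 2 := sq_nonneg _
    nlinarith

end Vale.Agent.P123
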