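import Vale.Agent.P123.Operator

/-!
# P123: the map `S(F) = F(A) + (α F)(A)†` and its complete positivity
-/

open Complex MeasureTheory Set Filter Topology
open scoped Real ComplexConjugate

namespace Vale.Agent.P123

set_option linter.unusedSectionVars false

variable {H : Type*} [NormedAddCommGroup H] [InnerProductSpace ℂ H] [CompleteSpace H]
variable {h h1 h2 : ℝ → ℝ}

/-- The Cauchy integral of the boundary function `g`, evaluated at the operator `A`. -/
noncomputable def cau (h h1 h2 : ℝ → ℝ) (A : H →L[ℂ] H) (g : ℝ → ℂ) : H →L[ℂ] H :=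
  (1 / (2 * π) : ℂ) • ∫ t in (0 : ℝ)..(2 * π), g t • wres h h1 h2 A t

/-- The boundary values of the conjugate of a polynomial. -/
noncomputable def cbd (h h1 : ℝ → ℝ) (F : Polynomial ℂ) (t : ℝ) : ℂ := conj (F.eval (bd h h1 t))

/-- The map `S(F) = F(A) + (α F)(A)†`. -/
noncomputable def sMap (h h1 h2 : ℝ → ℝ) (A : H →L[ℂ] H) (F : Polynomial ℂ) : H →L[ℂ] H :=
  Polynomial.aeval A F + ContinuousLinearMap.adjoint (cau h h1 h2 A (cbd h h1 F))

lemma two_pi_ne : (2 * π : ℂ) ≠ 0 := by
  have := Real.pi_ne_zero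
  simp [this]

lemma SuppData.cont_wres (S : SuppData h h1 h2) {A : H →L[ℂ] H}
    (hu : ∀ t, IsUnit (algebraMap ℂ (H →L[ℂ] H) (bd h h1 t) - A)) :
    Continuous (wres h h1 h2 A) := by
  have := S.continuous_res A hu
  have := S.cont_tng
  unfold wres
  fun_prop

lemma SuppData.cont_cbd (S : SuppData h h1 h2) (F : Polynomial ℂ) : Continuous (cbd h h1 F) := by
  unfold cbd
  exact Complex.continuous_conj.comp (F.continuous.comp S.cont_bd)

section
variable (S : SuppData h h1 h2) {A : H →L[ℂ] H}
include S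

lemma SuppData.inner_cau (hu : ∀ t, IsUnit (algebraMap ℂ (H →L[ℂ] H) (bd h h1 t) - A))
    {g : ℝ → ℂ} (hg : Continuous g) (y x : H) :
    inner ℂ y (cau h h1 h2 A g x)
      = (1 / (2 * π) : ℂ) * ∫ t in (0 : ℝ)..(2 * π), g t * inner ℂ y (wres h h1 h2 A t x) := by
  have hc := S.cont_wres hu
  have hi : IntervalIntegrable (fun t => g t • wres h h1 h2 A t) volume 0 (2 * π) := by
    apply Continuous.intervalIntegrable
    fun_prop
  let L : (H →L[ℂ] H) →L[ℂ] ℂ := (innerSL ℂ y).comp (ContinuousLinearMap.apply ℂ H x)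
  have hL := L.intervalIntegral_comp_comm hi
  have hLapp : ∀ B : H →L[ℂ] H, L B = inner ℂ y (B x) := fun B => rfl
  have e : cau h h1 h2 A g x = (1 / (2 * π) : ℂ) •
      ((∫ t in (0 : ℝ)..(2 * π), g t • wres h h1 h2 A t) x) := rfl
  rw [e, inner_smul_right, ← hLapp, ← hL]
  congr 1
  apply intervalIntegral.integral_congr
  intro t _
  simp only [hLapp, _root_.smul_apply, inner_smul_right]

lemma SuppData.inner_cau_left (hu : ∀ t, IsUnit (algebraMap ℂ (H →L[ℂ] H) (bd h h1 t) - A))
    {g : ℝ → ℂ} (hg : Continuous g) (y x : H) :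
    inner ℂ (cau h h1 h2 A g y) x
      = (1 / (2 * π) : ℂ) *
        ∫ t in (0 : ℝ)..(2 * π), conj (g t) * inner ℂ (wres h h1 h2 A t y) x := by
  rw [← inner_conj_symm, S.inner_cau hu hg, map_mul]
  congr 1
  · have : (1 / (2 * π) : ℂ) = ((1 / (2 * π) : ℝ) : ℂ) := by push_cast; rfl
    rw [this, Complex.conj_ofReal]
  · rw [← intervalIntegral.intervalIntegral_conj]
    apply intervalIntegral.integral_congr
    intro t _
    simp only [map_mul, inner_conj_symm]

lemma SuppData.aeval_eq_cau {m η : ℝ} (hm : 0 < m) (hmh : ∀ t, m ≤ h t) (hη : 0 < η)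
    (hA : Gap h η A) (F : Polynomial ℂ) :
    Polynomial.aeval A F = cau h h1 h2 A (fun t => F.eval (bd h h1 t)) := by
  have h0 := S.cauchy_poly A (fun t => lt_of_lt_of_le hm (hmh t))
    (fun s hs t => isUnit_of_gap hm hmh hη hA hs t) F
  unfold cau
  have e : ∀ t, F.eval (bd h h1 t) • wres h h1 h2 A t
      = (tng h h2 t * F.eval (bd h h1 t)) • res h h1 A t := by
    intro t
    rw [wres, smul_smul, mul_comm]
  simp only [e]
  rw [h0, smul_smul, one_div, inv_mul_cancel₀ two_pi_ne, one_smul]

/-- The basic formula for `S`. -/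
lemma SuppData.inner_sMap {m η : ℝ} (hm : 0 < m) (hmh : ∀ t, m ≤ h t) (hη : 0 < η)
    (hA : Gap h η A) (F : Polynomial ℂ) (y x : H) :
    inner ℂ y (sMap h h1 h2 A F x)
      = (1 / (2 * π) : ℂ) *
        ∫ t in (0 : ℝ)..(2 * π), F.eval (bd h h1 t) * kern h h1 h2 A t y x := by
  have hu : ∀ t, IsUnit (algebraMap ℂ (H →L[ℂ] H) (bd h h1 t) - A) := by
    intro t
    have := isUnit_of_gap (h1 := h1) hm hmh hη hA (s := 1) ⟨zero_le_one, le_refl _⟩ t
    rwa [one_smul] at this
  have hcw := S.cont_wres hu
  have hcF : Continuous fun t => F.eval (bd h h1 t) := F.continuous.comp S.cont_bd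
  have e : sMap h h1 h2 A F x = cau h h1 h2 A (fun t => F.eval (bd h h1 t)) x
      + ContinuousLinearMap.adjoint (cau h h1 h2 A (cbd h h1 F)) x := by
    rw [sMap, S.aeval_eq_cau hm hmh hη hA]
    rfl
  rw [e, inner_add_right, ContinuousLinearMap.adjoint_inner_right, S.inner_cau hu hcF,
    S.inner_cau_left hu (S.cont_cbd F), ← mul_add, ← intervalIntegral.integral_add]
  · congr 1
    apply intervalIntegral.integral_congr
    intro t _
    simp only [kern, cbd, Complex.conj_conj]
    ring
  · apply Continuous.intervalIntegrable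
    fun_prop
  · apply Continuous.intervalIntegrable
    have := S.cont_cbd F
    have h2 : Continuous fun t => conj (cbd h h1 F t) := Complex.continuous_conj.comp this
    fun_prop

/-- Complete (two-)positivity of `S`. -/
theorem SuppData.sMap_two_pos {m η : ℝ} (hm : 0 < m) (hmh : ∀ t, m ≤ h t) (hη : 0 < η)
    (hA : Gap h η A) (u v F G : Polynomial ℂ)
    (hF : ∀ z ∈ body h, 0 ≤ (F.eval z).re) (hG : ∀ z ∈ body h, 0 ≤ (G.eval z).re)
    (hFG : ∀ z ∈ body h, ‖u.eval z + conj (v.eval z)‖ ^ 2 ≤ (F.eval z).re * (G.eval z).re)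
    (x y : H) :
    2 * (inner ℂ y (sMap h h1 h2 A u x) + inner ℂ (sMap h h1 h2 A v y) x).re
      ≤ (inner ℂ x (sMap h h1 h2 A F x)).re + (inner ℂ y (sMap h h1 h2 A G y)).re := by
  have hu : ∀ t, IsUnit (algebraMap ℂ (H →L[ℂ] H) (bd h h1 t) - A) := by
    intro t
    have := isUnit_of_gap (h1 := h1) hm hmh hη hA (s := 1) ⟨zero_le_one, le_refl _⟩ t
    rwa [one_smul] at this
  have hA0 : ∀ (t : ℝ) (v : H), (exp (-(t * I)) * inner ℂ v (A v)).re ≤ h t * ‖v‖ ^ 2 := by
    intro t v
    have h3 := hA t v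
    have h4 : 0 ≤ η * ‖v‖ ^ 2 := by positivity
    linarith
  have hcw := S.cont_wres hu
  have hck : ∀ y x : H, Continuous fun t => kern h h1 h2 A t y x := by
    intro y x
    unfold kern
    fun_prop
  have hcb := S.cont_bd
  have hcp : ∀ P : Polynomial ℂ, Continuous fun t => P.eval (bd h h1 t) :=
    fun P => P.continuous.comp hcb
  have hre : ∀ P : Polynomial ℂ, ∀ y x : H, (inner ℂ y (sMap h h1 h2 A P x)).re
      = (1 / (2 * π)) * ∫ t in (0 : ℝ)..(2 * π), (P.eval (bd h h1 t) * kern h h1 h2 A t y x).re := by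
    intro P y x
    rw [S.inner_sMap hm hmh hη hA]
    have : (1 / (2 * π) : ℂ) = ((1 / (2 * π) : ℝ) : ℂ) := by push_cast; rfl
    rw [this, Complex.re_ofReal_mul]
    congr 1
    have hi : IntervalIntegrable (fun t => P.eval (bd h h1 t) * kern h h1 h2 A t y x)
        volume 0 (2 * π) := by
      apply Continuous.intervalIntegrable
      exact (hcp P).mul (hck y x)
    exact (Complex.reCLM.intervalIntegral_comp_comm hi).symm
  have e2 : (inner ℂ (sMap h h1 h2 A v y) x).re
      = (1 / (2 * π)) * ∫ t in (0 : ℝ)..(2 * π),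
          (conj (v.eval (bd h h1 t)) * kern h h1 h2 A t y x).re := by
    rw [← inner_conj_symm, Complex.conj_re, hre]
    congr 1
    apply intervalIntegral.integral_congr
    intro t _
    simp only
    rw [← Complex.conj_re, map_mul, kern_conj]
  have hkk : ∀ P : Polynomial ℂ, ∀ x : H, ∀ t : ℝ, (P.eval (bd h h1 t) * kern h h1 h2 A t x x).re
      = (P.eval (bd h h1 t)).re * (kern h h1 h2 A t x x).re := by
    intro P x t
    rw [Complex.mul_re, kern_self_im, mul_zero, sub_zero]
  rw [Complex.add_re, hre u, e2, hre F, hre G, ← mul_add, ← mul_add,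
    ← intervalIntegral.integral_add, ← intervalIntegral.integral_add]
  · rw [← mul_assoc, mul_comm 2, mul_assoc]
    apply mul_le_mul_of_nonneg_left _ (by positivity)
    rw [← intervalIntegral.integral_const_mul]
    apply intervalIntegral.integral_mono_on (by positivity)
    · apply Continuous.intervalIntegrable
      have c1 := (hcp u).mul (hck y x)
      have c2 := (Complex.continuous_conj.comp (hcp v)).mul (hck y x)
      exact continuous_const.mul ((Complex.continuous_re.comp c1).add
        (Complex.continuous_re.comp c2))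
    · apply Continuous.intervalIntegrable
      exact (Complex.continuous_re.comp ((hcp F).mul (hck x x))).add
        (Complex.continuous_re.comp ((hcp G).mul (hck y y)))
    · intro t _
      have hb := S.bd_mem_body t
      have h5 := kern_two_pos S (hA0 t) (hu t) (hF _ hb) (hG _ hb) (hFG _ hb) x y
      rw [hkk, hkk]
      rw [add_mul, Complex.add_re] at h5
      exact h5
  · apply Continuous.intervalIntegrable
    exact Complex.continuous_re.comp ((hcp F).mul (hck x x))
  · apply Continuous.intervalIntegrable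
    exact Complex.continuous_re.comp ((hcp G).mul (hck y y))
  · apply Continuous.intervalIntegrable
    exact Complex.continuous_re.comp ((hcp u).mul (hck y x))
  · apply Continuous.intervalIntegrable
    exact Complex.continuous_re.comp ((Complex.continuous_conj.comp (hcp v)).mul (hck y x))

end

end Vale.Agent.P123
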