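import Vale.Agent.P123.Approx
import Vale.Agent.P123.SMap
import Vale.Agent.P123.Alpha

/-!
# P123: simultaneous approximation at points and at the operator
-/

open Complex MeasureTheory Set Filter Topology
open scoped Real ComplexConjugate Polynomial

namespace Vale.Agent.P123

set_option linter.unusedSectionVars false

variable {H : Type*} [NormedAddCommGroup H] [InnerProductSpace ℂ H] [CompleteSpace H]
variable {h h1 h2 : ℝ → ℝ}

lemma norm_exp_neg (t : ℝ) : ‖exp (-(t * I))‖ = 1 := by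
  rw [show -((t : ℂ) * I) = ((-t : ℝ) : ℂ) * I by push_cast; ring, Complex.norm_exp_ofReal_mul_I]

lemma conj_exp (t : ℝ) : conj (exp (t * I)) = exp (-(t * I)) := by
  rw [← Complex.exp_conj]; simp

lemma norm_scalar_add_le {z : ℂ} {t L D : ℝ} (hL : 0 ≤ L) (hz : (exp (-(t * I)) * z).re ≤ h t)
    (hD : ‖z‖ ≤ D) : ‖z + (L : ℂ) * exp (t * I)‖ ^ 2 ≤ L ^ 2 + 2 * L * h t + D ^ 2 := by
  have h3 : ‖z + (L : ℂ) * exp (t * I)‖ ^ 2
      = ‖z‖ ^ 2 + 2 * L * (exp (-(t * I)) * z).re + L ^ 2 := by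
    rw [← Complex.normSq_eq_norm_sq, ← Complex.normSq_eq_norm_sq, Complex.normSq_add]
    have e1 : Complex.normSq ((L : ℂ) * exp (t * I)) = L ^ 2 := by
      rw [Complex.normSq_mul, Complex.normSq_ofReal, Complex.normSq_eq_norm_sq,
        Complex.norm_exp_ofReal_mul_I]
      ring
    have e2 : (z * conj ((L : ℂ) * exp (t * I))).re = L * (exp (-(t * I)) * z).re := by
      rw [map_mul, Complex.conj_ofReal, conj_exp, ← Complex.re_ofReal_mul]
      congr 1
      ring
    rw [e1, e2]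
    ring
  rw [h3]
  have h4 := mul_le_mul_of_nonneg_left hz (show 0 ≤ 2 * L by linarith)
  have h5 : ‖z‖ ^ 2 ≤ D ^ 2 := pow_le_pow_left₀ (norm_nonneg _) hD 2
  linarith

lemma norm_op_add_le {A : H →L[ℂ] H} {t L D : ℝ} (hL : 0 ≤ L)
    (hA : ∀ v : H, (exp (-(t * I)) * inner ℂ v (A v)).re ≤ h t * ‖v‖ ^ 2)
    (hh : 0 ≤ h t) (hD : ‖A‖ ≤ D) :
    ‖A + ((L : ℂ) * exp (t * I)) • (1 : H →L[ℂ] H)‖ ≤ Real.sqrt (L ^ 2 + 2 * L * h t + D ^ 2) := by
  apply ContinuousLinearMap.opNorm_le_bound _ (Real.sqrt_nonneg _)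
  intro v
  have h0 : 0 ≤ L ^ 2 + 2 * L * h t + D ^ 2 := by positivity
  apply le_of_sq_le_sq _ (by positivity)
  rw [mul_pow, Real.sq_sqrt h0]
  have e : (A + ((L : ℂ) * exp (t * I)) • (1 : H →L[ℂ] H)) v
      = A v + ((L : ℂ) * exp (t * I)) • v := by simp
  rw [e, @norm_add_sq ℂ, inner_smul_right, norm_smul, norm_mul, Complex.norm_exp_ofReal_mul_I,
    Complex.norm_real, Real.norm_eq_abs, mul_one, mul_pow, sq_abs]
  have e2 : RCLike.re ((L : ℂ) * exp (t * I) * inner ℂ (A v) v)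
      = L * (exp (-(t * I)) * inner ℂ v (A v)).re := by
    rw [RCLike.re_to_complex, mul_assoc, Complex.re_ofReal_mul, ← inner_conj_symm (A v) v,
      ← Complex.conj_re, map_mul, Complex.conj_conj, conj_exp]
  rw [e2]
  have h4 := mul_le_mul_of_nonneg_left (hA v) (show 0 ≤ 2 * L by linarith)
  have h5 : ‖A v‖ ^ 2 ≤ D ^ 2 * ‖v‖ ^ 2 := by
    rw [← mul_pow]
    apply pow_le_pow_left₀ (norm_nonneg _)
    exact (A.le_opNorm v).trans (mul_le_mul_of_nonneg_right hD (norm_nonneg _))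
  nlinarith

lemma norm_b_le {R : Type*} [NormedRing R] [NormedAlgebra ℂ R] {r L D θ t : ℝ} {a : R}
    (hr : 0 < r) (hpos : 0 < h t + r * L) (hθ : 0 ≤ θ)
    (hc : r ^ 2 * (L ^ 2 + 2 * L * h t + D ^ 2) ≤ θ ^ 2 * (h t + r * L) ^ 2)
    (hn : ‖a + ((L : ℂ) * exp (t * I)) • (1 : R)‖ ^ 2 ≤ L ^ 2 + 2 * L * h t + D ^ 2) :
    ‖((r : ℂ) / cen h h1 r L t) • (a + ((L : ℂ) * exp (t * I)) • (1 : R))‖ ≤ θ := by
  have h3 := le_norm_cen h h1 r L t
  have h4 : 0 < ‖cen h h1 r L t‖ := lt_of_lt_of_le hpos h3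
  rw [norm_smul, norm_div, Complex.norm_real, Real.norm_eq_abs, abs_of_pos hr, div_mul_eq_mul_div,
    div_le_iff₀ h4]
  apply le_of_sq_le_sq _ (by positivity)
  rw [mul_pow, mul_pow]
  calc r ^ 2 * ‖a + ((L : ℂ) * exp (t * I)) • (1 : R)‖ ^ 2
      ≤ r ^ 2 * (L ^ 2 + 2 * L * h t + D ^ 2) := mul_le_mul_of_nonneg_left hn (sq_nonneg _)
    _ ≤ θ ^ 2 * (h t + r * L) ^ 2 := hc
    _ ≤ θ ^ 2 * ‖cen h h1 r L t‖ ^ 2 := by
      apply mul_le_mul_of_nonneg_left _ (sq_nonneg _)
      exact pow_le_pow_left₀ hpos.le h3 2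

/-- Norm bound for the inverse of an operator with accretive multiple. -/
lemma norm_inverse_le {T : H →L[ℂ] H} {u : ℂ} (hu1 : ‖u‖ = 1) {c : ℝ} (hc : 0 < c)
    (hT : ∀ v, c * ‖v‖ ^ 2 ≤ (inner ℂ v ((u • T) v)).re) (hu : IsUnit T) :
    ‖Ring.inverse T‖ ≤ 1 / c := by
  apply ContinuousLinearMap.opNorm_le_bound _ (by positivity)
  intro v
  set w := Ring.inverse T v with hw
  have hv : T w = v := by
    rw [hw, ← _root_.mul_apply_eq_comp, Ring.mul_inverse_cancel _ hu]
    rfl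
  have h3 := hT w
  rw [_root_.smul_apply, hv, inner_smul_right] at h3
  have h4 : (u * inner ℂ w v).re ≤ ‖w‖ * ‖v‖ := by
    refine (Complex.re_le_norm _).trans ?_
    rw [norm_mul, hu1, one_mul]
    exact norm_inner_le_norm w v
  have h5 : c * ‖w‖ ^ 2 ≤ ‖w‖ * ‖v‖ := h3.trans h4
  rcases eq_or_lt_of_le (norm_nonneg w) with h6 | h6
  · rw [← h6]; positivity
  · rw [div_mul_eq_mul_div, one_mul, le_div_iff₀ hc]
    nlinarith

lemma norm_inverse_gap_le {m η μ : ℝ} (hμ : 0 < μ) (hμm : μ ≤ m) (hμη : μ ≤ η)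
    (hmh : ∀ t, m ≤ h t) {A : H →L[ℂ] H}
    (hA : Gap h η A) {s : ℝ} (hs : s ∈ Icc (0 : ℝ) 1) (t : ℝ) :
    ‖Ring.inverse (algebraMap ℂ (H →L[ℂ] H) (bd h h1 t) - s • A)‖ ≤ 1 / μ := by
  refine norm_inverse_le (norm_exp_neg t) hμ ?_
    (isUnit_of_gap (hμ.trans_le hμm) hmh (hμ.trans_le hμη) hA hs t)
  intro v
  rw [inner_twist]
  have h3 := mul_le_mul_of_nonneg_left (hA t v) hs.1
  have h4 : μ ≤ (1 - s) * h t + s * η := by
    have h5 : (1 - s) * μ ≤ (1 - s) * h t :=
      mul_le_mul_of_nonneg_left (hμm.trans (hmh t)) (by linarith [hs.2])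
    have h6 : s * μ ≤ s * η := mul_le_mul_of_nonneg_left hμη hs.1
    linarith
  have h7 := mul_le_mul_of_nonneg_right h4 (sq_nonneg ‖v‖)
  nlinarith

/-- Simultaneous approximation of the Cauchy integral at all points of the dilated body and at
the dilated operator. -/
theorem SuppData.approx_all (S : SuppData h h1 h2) {m η : ℝ} (hm : 0 < m) (hmh : ∀ t, m ≤ h t)
    (hη : 0 < η) {A : H →L[ℂ] H} (hA : Gap h η A) {r : ℝ} (hr0 : 0 < r) (hr1 : r < 1)
    {e : ℝ} (he : 0 < e) :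
    ∃ (L : ℝ) (N : ℕ), 0 < L ∧ ∀ (g : ℝ → ℂ), Continuous g → ∀ B, (∀ t, ‖g t‖ ≤ B) →
      (∀ z ∈ body h, ‖(apx h h1 h2 r L N g).eval z - cas h h1 h2 g ((r : ℂ) * z)‖ ≤ e * B) ∧
      ‖Polynomial.aeval A (apx h h1 h2 r L N g)
        - (1 / (2 * π) : ℂ) • ∫ t in (0 : ℝ)..(2 * π), (g t * tng h h2 t) • resS h h1 A r t‖
        ≤ e * B := by
  obtain ⟨tM, htM⟩ := exists_max_of_periodic S.c0 S.per
  obtain ⟨t1, ht1⟩ := exists_max_of_periodic S.cont_rho S.rho_per
  set M := h tM with hM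
  set r1 := rho h h2 t1 with hr1def
  have hr1p : 0 < r1 := S.rho_pos t1
  set D : ℝ := max M ‖A‖ with hD
  have hp : ∀ t, 0 < h t := fun t => hm.trans_le (hmh t)
  obtain ⟨L, θ, hL, hθ0, hθ1, hLθ⟩ := exists_center (D := D) hm hmh htM hr0 hr1
  have hpos : ∀ t, 0 < h t + r * L := fun t => by have := hp t; positivity
  -- uniform resolvent bound
  set μ : ℝ := min ((1 - r) * m) (min m η) with hμ
  have hμ0 : 0 < μ := by
    rw [hμ]
    have : 0 < 1 - r := by linarith
    positivity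
  obtain ⟨N, hN⟩ := exists_pow_lt_of_lt_one (show 0 < e * μ / r1 by positivity) hθ1
  have hN' : θ ^ (N + 1) * (1 / μ) ≤ e / r1 := by
    have h3 : θ ^ (N + 1) ≤ θ ^ N := pow_le_pow_of_le_one hθ0 hθ1.le (Nat.le_succ N)
    have h4 : θ ^ (N + 1) ≤ e * μ / r1 := h3.trans hN.le
    rw [mul_one_div, div_le_iff₀ hμ0]
    refine h4.trans (le_of_eq ?_)
    ring
  refine ⟨L, N + 1, hL, ?_⟩
  intro g hg B hB
  have hfin : B * r1 * (e / r1) = e * B := by field_simp
  refine ⟨?_, ?_⟩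
  · intro z hz
    have hu : ∀ t, IsUnit (algebraMap ℂ ℂ (bd h h1 t) - r • z) := by
      intro t
      rw [isUnit_iff_ne_zero]
      have := bd_sub_ne (h1 := h1) (mem_intr_smul hp hz hr0.le hr1 t)
      simpa using this
    have hk : ∀ t, ‖Polynomial.aeval z (kpol h h1 r L (N + 1) t) - resS h h1 z r t‖ ≤ e / r1 := by
      intro t
      refine (norm_kpol_sub_le (hpos t) (Nat.succ_pos N) (hu t) (θ := θ) (κ := 1 / μ)
        ?_ ?_).trans hN'
      · apply norm_b_le (D := D) hr0 (hpos t) hθ0 (hLθ t)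
        have := norm_scalar_add_le (h := h) (z := z) (t := t) (L := L) (D := D) hL.le (hz t)
          ((norm_le_of_mem_body hz).trans ((htM _).trans (le_max_left _ _)))
        simpa using this
      · rw [Ring.inverse_eq_inv', norm_inv, one_div]
        apply inv_anti₀ hμ0
        have h3 : μ ≤ (1 - r) * m := min_le_left _ _
        refine h3.trans ?_
        have h4 : (exp (-(t * I)) * (algebraMap ℂ ℂ (bd h h1 t) - r • z)).re
            = h t - r * (exp (-(t * I)) * z).re := by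
          have : exp (-(t * I)) * (algebraMap ℂ ℂ (bd h h1 t) - r • z)
              = exp (-(t * I)) * bd h h1 t - (r : ℂ) * (exp (-(t * I)) * z) := by
            simp only [Algebra.algebraMap_self, RingHom.id_apply, Complex.real_smul]
            ring
          rw [this, Complex.sub_re, Complex.re_ofReal_mul, re_exp_mul_bd_self]
        have h5 : h t - r * (exp (-(t * I)) * z).re
            ≤ ‖algebraMap ℂ ℂ (bd h h1 t) - r • z‖ := by
          rw [← h4]
          refine (Complex.re_le_norm _).trans ?_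
          rw [norm_mul, norm_exp_neg, one_mul]
        refine le_trans ?_ h5
        have h6 := mul_le_mul_of_nonneg_left (hz t) hr0.le
        have h7 := mul_le_mul_of_nonneg_left (hmh t) (show 0 ≤ 1 - r by linarith)
        linarith
    have h3 := S.norm_apx_sub_le (a := z) hpos hg hB ht1 hu hk
    rw [hfin] at h3
    have h4 : Polynomial.aeval z (apx h h1 h2 r L (N + 1) g)
        = (apx h h1 h2 r L (N + 1) g).eval z := by simp [Polynomial.aeval_def]
    have h5 : (1 / (2 * π) : ℂ) • ∫ t in (0 : ℝ)..(2 * π), (g t * tng h h2 t) • resS h h1 z r t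
        = cas h h1 h2 g ((r : ℂ) * z) := by
      unfold cas
      rw [smul_eq_mul]
      congr 1
      apply intervalIntegral.integral_congr
      intro t _
      simp only [resS, Ring.inverse_eq_inv', Algebra.algebraMap_self, RingHom.id_apply,
        Complex.real_smul, smul_eq_mul]
      ring
    rw [h4, h5] at h3
    exact h3
  · have hrI : r ∈ Icc (0 : ℝ) 1 := ⟨hr0.le, hr1.le⟩
    have hu : ∀ t, IsUnit (algebraMap ℂ (H →L[ℂ] H) (bd h h1 t) - r • A) :=
      fun t => isUnit_of_gap hm hmh hη hA hrI t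
    have hA0 : ∀ (t : ℝ) (v : H), (exp (-(t * I)) * inner ℂ v (A v)).re ≤ h t * ‖v‖ ^ 2 := by
      intro t v
      have h3 := hA t v
      have h4 : 0 ≤ η * ‖v‖ ^ 2 := by positivity
      linarith
    have hk : ∀ t, ‖Polynomial.aeval A (kpol h h1 r L (N + 1) t) - resS h h1 A r t‖
        ≤ e / r1 := by
      intro t
      refine (norm_kpol_sub_le (hpos t) (Nat.succ_pos N) (hu t) (θ := θ) (κ := 1 / μ)
        ?_ ?_).trans hN'
      · apply norm_b_le (D := D) hr0 (hpos t) hθ0 (hLθ t)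
        have h3 := norm_op_add_le (D := D) hL.le (hA0 t) (hp t).le (le_max_right _ _)
        have h4 := pow_le_pow_left₀ (norm_nonneg _) h3 2
        rwa [Real.sq_sqrt] at h4
        have := hp t
        positivity
      · exact norm_inverse_gap_le hμ0 ((min_le_right _ _).trans (min_le_left _ _))
          ((min_le_right _ _).trans (min_le_right _ _)) hmh hA hrI t
    have h3 := S.norm_apx_sub_le (a := A) hpos hg hB ht1 hu hk
    rw [hfin] at h3
    exact h3

end Vale.Agent.P123
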