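import Vale.Agent.P123.Support

/-!
# P123: passing from smooth convex domains to the numerical range
-/

open Complex Set
open scoped Real ComplexConjugate Polynomial

namespace Vale.Agent.P123

variable {H : Type*} [NormedAddCommGroup H] [InnerProductSpace ℂ H]

lemma norm_le_of_mem_numRange {A : H →L[ℂ] H} {z : ℂ} (hz : z ∈ numRange A) : ‖z‖ ≤ ‖A‖ := by
  obtain ⟨v, hv, rfl⟩ := hz
  refine (norm_inner_le_norm v (A v)).trans ?_
  rw [hv, one_mul]
  refine (A.le_opNorm v).trans ?_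
  rw [hv, mul_one]

/-- Smooth convex domains close to the numerical range. -/
theorem exists_domain [CompleteSpace H] (A : H →L[ℂ] H) (h0 : (0 : ℂ) ∈ numRange A) {δ : ℝ}
    (hδ : 0 < δ) :
    ∃ (h h1 h2 : ℝ → ℝ) (m η : ℝ), SuppData h h1 h2 ∧ 0 < m ∧ (∀ t, m ≤ h t) ∧ 0 < η ∧
      Gap h η A ∧ ∀ z ∈ body h, ∃ w ∈ numRange A, dist z w < δ := by
  obtain ⟨h, h1, h2, S, hlow, hup⟩ := exists_suppData
    (fun z hz => norm_le_of_mem_numRange hz) (norm_nonneg A) h0 hδ
  have hn : ∀ t, 0 ≤ supp (numRange A) t :=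
    supp_nonneg (fun z hz => norm_le_of_mem_numRange hz) h0
  refine ⟨h, h1, h2, δ / 4, δ / 4, S, by positivity, fun t => ?_, by positivity, ?_, ?_⟩
  · linarith [hn t, hlow t]
  · intro t v
    by_cases hv : v = 0
    · simp [hv]
    · have hvn : 0 < ‖v‖ := norm_pos_iff.2 hv
      set u : H := ((‖v‖⁻¹ : ℝ) : ℂ) • v with hu
      have hun : ‖u‖ = 1 := by
        rw [hu, norm_smul, Complex.norm_real, Real.norm_of_nonneg (by positivity)]
        field_simp
      have h3 : inner ℂ u (A u) = ((‖v‖⁻¹ ^ 2 : ℝ) : ℂ) * inner ℂ v (A v) := by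
        rw [hu, map_smul, inner_smul_left, inner_smul_right, Complex.conj_ofReal]
        push_cast
        ring
      have h4 := le_supp (K := numRange A) (fun z hz => norm_le_of_mem_numRange hz) t
        ⟨u, hun, rfl⟩
      rw [h3, mul_left_comm, Complex.re_ofReal_mul] at h4
      have h5 := hlow t
      have h6 : ‖v‖⁻¹ ^ 2 * (exp (-(t * I)) * inner ℂ v (A v)).re ≤ h t - δ / 4 := by linarith
      have h7 := mul_le_mul_of_nonneg_right h6 (sq_nonneg ‖v‖)
      have h8 : ‖v‖⁻¹ ^ 2 * (exp (-(t * I)) * inner ℂ v (A v)).re * ‖v‖ ^ 2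
          = (exp (-(t * I)) * inner ℂ v (A v)).re := by
        field_simp
      rw [h8] at h7
      exact h7
  · intro z hz
    exact exists_near (convex_numRange A) ⟨0, h0⟩ hδ fun t => (hz t).trans (hup t)

/-- Assembly: a bound for all smooth convex domains containing the numerical range with a gap
gives the bound for the numerical range. -/
theorem assemble [CompleteSpace H] [Nontrivial H] {C₀ : ℝ}
    (main : ∀ (A : H →L[ℂ] H) (h h1 h2 : ℝ → ℝ) (m η : ℝ), SuppData h h1 h2 → 0 < m →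
      (∀ t, m ≤ h t) → 0 < η → Gap h η A →
      ∀ p : ℂ[X], (∀ z ∈ body h, ‖p.eval z‖ ≤ 1) → ‖Polynomial.aeval A p‖ ≤ C₀)
    (A : H →L[ℂ] H) (p : ℂ[X]) (M : ℝ)
    (hM : ∀ x : H, ‖x‖ = 1 → ‖p.eval (inner ℂ x (A x))‖ ≤ M) :
    ‖Polynomial.aeval A p‖ ≤ C₀ * M := by
  obtain ⟨v0, hv0⟩ : ∃ v : H, ‖v‖ = 1 := by
    obtain ⟨w, hw⟩ := exists_ne (0 : H)
    refine ⟨((‖w‖⁻¹ : ℝ) : ℂ) • w, ?_⟩
    have hwn : 0 < ‖w‖ := norm_pos_iff.2 hw
    rw [norm_smul, Complex.norm_real, Real.norm_of_nonneg (by positivity)]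
    field_simp
  have hM0 : 0 ≤ M := (norm_nonneg _).trans (hM v0 hv0)
  set c : ℂ := inner ℂ v0 (A v0) with hc
  set A' : H →L[ℂ] H := A - algebraMap ℂ (H →L[ℂ] H) c with hA'
  set p' : ℂ[X] := p.comp (Polynomial.X + Polynomial.C c) with hp'
  have hin : ∀ x : H, ‖x‖ = 1 → inner ℂ x (A' x) = inner ℂ x (A x) - c := by
    intro x hx
    have : A' x = A x - c • x := by
      rw [hA', _root_.sub_apply, Algebra.algebraMap_eq_smul_one]
      rfl
    rw [this, inner_sub_right, inner_smul_right, inner_self_eq_norm_sq_to_K, hx]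
    simp
  have hae : Polynomial.aeval A' p' = Polynomial.aeval A p := by
    rw [hp', Polynomial.aeval_comp]
    congr 1
    simp [hA']
  have h0 : (0 : ℂ) ∈ numRange A' := ⟨v0, hv0, by rw [hin v0 hv0, ← hc, sub_self]⟩
  have hM' : ∀ w ∈ numRange A', ‖p'.eval w‖ ≤ M := by
    rintro w ⟨x, hx, rfl⟩
    rw [hin x hx, hp', Polynomial.eval_comp]
    simpa using hM x hx
  have key : ∀ ε : ℝ, 0 < ε → ‖Polynomial.aeval A p‖ ≤ C₀ * (M + ε) := by
    intro ε hε
    have hcomp : IsCompact (Metric.closedBall (0 : ℂ) (‖A'‖ + 1)) := isCompact_closedBall _ _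
    have huc : UniformContinuousOn (fun z => p'.eval z) (Metric.closedBall (0 : ℂ) (‖A'‖ + 1)) :=
      hcomp.uniformContinuousOn_of_continuous p'.continuous.continuousOn
    obtain ⟨δ₀, hδ₀, hunif⟩ := Metric.uniformContinuousOn_iff.1 huc ε hε
    set δ : ℝ := min δ₀ 1 with hδdef
    have hδ : 0 < δ := lt_min hδ₀ one_pos
    obtain ⟨h, h1, h2, m, η, S, hm, hmh, hη, hgap, hnear⟩ := exists_domain A' h0 hδ
    have hbd : ∀ z ∈ body h, ‖p'.eval z‖ ≤ M + ε := by
      intro z hz
      obtain ⟨w, hw, hzw⟩ := hnear z hz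
      have hwn := norm_le_of_mem_numRange hw
      have hzn : ‖z‖ ≤ ‖A'‖ + 1 := by
        have h3 : ‖z‖ ≤ ‖w‖ + ‖z - w‖ := by
          have := norm_add_le w (z - w)
          rwa [add_sub_cancel] at this
        rw [dist_eq_norm] at hzw
        have h4 : δ ≤ 1 := min_le_right _ _
        linarith
      have h5 := hunif z (by simpa using hzn) w (by
        rw [mem_closedBall_zero_iff]; linarith) (hzw.trans_le (min_le_left _ _))
      have h6 := hM' w hw
      rw [dist_eq_norm] at h5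
      have h7 : ‖p'.eval z‖ ≤ ‖p'.eval w‖ + ‖p'.eval z - p'.eval w‖ := by
        have := norm_add_le (p'.eval w) (p'.eval z - p'.eval w)
        rwa [add_sub_cancel] at this
      linarith
    have hMe : 0 < M + ε := by linarith
    have h8 := main A' h h1 h2 m η S hm hmh hη hgap
      (Polynomial.C (((M + ε)⁻¹ : ℝ) : ℂ) * p') (by
        intro z hz
        rw [Polynomial.eval_mul, Polynomial.eval_C, norm_mul, Complex.norm_real,
          Real.norm_of_nonneg (by positivity), inv_mul_le_iff₀ hMe, mul_one]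
        exact hbd z hz)
    rw [map_mul, Polynomial.aeval_C, ← Algebra.smul_def, norm_smul, Complex.norm_real,
      Real.norm_of_nonneg (by positivity), inv_mul_le_iff₀ hMe, hae] at h8
    linarith
  have hlim : Filter.Tendsto (fun ε : ℝ => C₀ * (M + ε)) (nhdsWithin 0 (Ioi 0))
      (nhds (C₀ * (M + 0))) := by
    apply Filter.Tendsto.mono_left _ nhdsWithin_le_nhds
    exact (continuous_const.mul (continuous_const.add continuous_id)).tendsto 0
  rw [add_zero] at hlim
  exact ge_of_tendsto hlim (Filter.eventually_of_mem self_mem_nhdsWithin fun ε hε => key ε hε)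

end Vale.Agent.P123
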