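import Vale.Agent.P123.CertOne

/-!
# P123: from certificates to the bound on a fixed body
-/

open Polynomial ComplexConjugate
open scoped InnerProductSpace

namespace Vale.Agent.P123

variable {H : Type*} [NormedAddCommGroup H] [InnerProductSpace ℂ H]

lemma exists_bound_poly (P : ℂ[X]) : ∃ B : ℝ, 0 ≤ B ∧ ∀ w : ℂ, ‖w‖ ≤ 1 → ‖P.eval w‖ ≤ B := by
  induction P using Polynomial.induction_on' with
  | add p q hp hq =>
    obtain ⟨B, hB0, hB⟩ := hp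
    obtain ⟨B', hB0', hB'⟩ := hq
    refine ⟨B + B', by positivity, fun w hw => ?_⟩
    rw [eval_add]
    exact (norm_add_le _ _).trans (add_le_add (hB w hw) (hB' w hw))
  | monomial n a =>
    refine ⟨‖a‖, norm_nonneg _, fun w hw => ?_⟩
    rw [eval_monomial, norm_mul, norm_pow]
    calc ‖a‖ * ‖w‖ ^ n ≤ ‖a‖ * 1 :=
          mul_le_mul_of_nonneg_left (pow_le_one₀ (norm_nonneg _) hw) (norm_nonneg _)
      _ = ‖a‖ := mul_one _

lemma one_sub_pow_le {φ : ℝ} (h0 : 0 ≤ φ) (h1 : φ ≤ 1) (n : ℕ) :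
    1 - φ ^ n ≤ n * (1 - φ) := by
  induction n with
  | zero => simp
  | succ n ih =>
    have h2 : φ ^ n ≤ 1 := pow_le_one₀ h0 h1
    have h3 : φ ^ (n + 1) = φ ^ n - φ ^ n * (1 - φ) := by ring
    push_cast
    rw [h3]
    have h4 : φ ^ n * (1 - φ) ≤ 1 * (1 - φ) := mul_le_mul_of_nonneg_right h2 (by linarith)
    linarith

lemma exists_lipschitz_poly (G : ℂ[X]) : ∃ CG : ℝ, 0 ≤ CG ∧ ∀ (w : ℂ) (φ : ℝ), ‖w‖ ≤ 1 →
    0 ≤ φ → φ ≤ 1 → ‖φ * G.eval (φ * w) - G.eval w‖ ≤ CG * (1 - φ) := by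
  induction G using Polynomial.induction_on' with
  | add p q hp hq =>
    obtain ⟨B, hB0, hB⟩ := hp
    obtain ⟨B', hB0', hB'⟩ := hq
    refine ⟨B + B', by positivity, fun w φ hw h0 h1 => ?_⟩
    rw [eval_add, eval_add]
    have : (φ : ℂ) * (p.eval (φ * w) + q.eval (φ * w)) - (p.eval w + q.eval w)
        = (φ * p.eval (φ * w) - p.eval w) + (φ * q.eval (φ * w) - q.eval w) := by ring
    rw [this, add_mul]
    exact (norm_add_le _ _).trans (add_le_add (hB w φ hw h0 h1) (hB' w φ hw h0 h1))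
  | monomial n a =>
    refine ⟨‖a‖ * (n + 1), by positivity, fun w φ hw h0 h1 => ?_⟩
    rw [eval_monomial, eval_monomial]
    have : (φ : ℂ) * (a * (φ * w) ^ n) - a * w ^ n
        = -(a * w ^ n * ((1 - φ ^ (n + 1) : ℝ) : ℂ)) := by
      push_cast; ring
    rw [this, norm_neg, norm_mul, norm_mul, norm_pow, Complex.norm_real]
    have h2 : φ ^ (n + 1) ≤ 1 := pow_le_one₀ h0 h1
    rw [Real.norm_of_nonneg (by linarith)]
    have h3 := one_sub_pow_le h0 h1 (n + 1)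
    push_cast at h3
    calc ‖a‖ * ‖w‖ ^ n * (1 - φ ^ (n + 1)) ≤ ‖a‖ * 1 * ((n + 1) * (1 - φ)) := by
          apply mul_le_mul _ h3 (by linarith) (by positivity)
          exact mul_le_mul_of_nonneg_left (pow_le_one₀ (norm_nonneg _) hw) (norm_nonneg _)
      _ = ‖a‖ * (n + 1) * (1 - φ) := by ring

theorem cert_false [CompleteSpace H] {A : H →L[ℂ] H} {Om : Set ℂ} {K c₀ Λ : ℝ}
    {P Q F : ℂ[X]} (hK0 : 0 < K) (hc : 0 < c₀) (hΛ : 0 ≤ Λ)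
    (hK : SpecBd A Om K) (hne : ∀ r > 0, ∃ p : ℂ[X], Bdd Om 1 p ∧ K - r ≤ ‖aeval A p‖)
    (hsys : ∀ ε > 0, ∃ α : ℂ[X] → ℂ[X], Sys A Om ε α)
    (cert : Cert K P Q F c₀ Λ) : False := by
  obtain ⟨B₁, hB₁0, hB₁⟩ := exists_bound_poly P
  obtain ⟨B₂, hB₂0, hB₂⟩ := exists_bound_poly Q
  obtain ⟨B₃, hB₃0, hB₃⟩ := exists_bound_poly F
  obtain ⟨CG, hCG0, hCG⟩ := exists_lipschitz_poly (F - C (K : ℂ) * P - C ((K : ℂ)⁻¹) * (X * Q))
  refine no_extremal (B := B₁ + B₂ + B₃ + 1) hK0 hc (by positivity) hΛ hCG0 hK hne hsys cert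
    (fun w hw => ?_) (fun w hw => ?_) (fun w hw => ?_) (fun w φ hw h0 h1 => ?_)
  · have := hB₁ w hw; linarith
  · have := hB₂ w hw; linarith
  · have := hB₃ w hw; linarith
  · have := hCG w φ hw h0 h1
    simpa only [eval_sub, eval_mul, eval_C, eval_X] using this

/-- Exclusion of every large constant gives the bound. -/
theorem specBd_of_cert [CompleteSpace H] {A : H →L[ℂ] H} {Om : Set ℂ} {C₀ : ℝ} (hC₀ : 0 < C₀)
    (hfin : ∃ K₀ : ℝ, ∀ p : ℂ[X], Bdd Om 1 p → ‖aeval A p‖ ≤ K₀)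
    (hsys : ∀ ε > 0, ∃ α : ℂ[X] → ℂ[X], Sys A Om ε α)
    (hcert : ∀ K : ℝ, C₀ < K → ∃ (P Q F : ℂ[X]) (c₀ Λ : ℝ), 0 < c₀ ∧ 0 ≤ Λ ∧ Cert K P Q F c₀ Λ) :
    SpecBd A Om C₀ := by
  intro p₀ hp₀
  by_contra hcon
  push Not at hcon
  obtain ⟨K₀, hK₀⟩ := hfin
  set S : Set ℝ := {r | ∃ p : ℂ[X], Bdd Om 1 p ∧ r = ‖aeval A p‖} with hS
  have hbdd : BddAbove S := ⟨K₀, by rintro r ⟨p, hp, rfl⟩; exact hK₀ p hp⟩
  have hmem : ‖aeval A p₀‖ ∈ S := ⟨p₀, hp₀, rfl⟩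
  set K := sSup S with hKdef
  have hCK : C₀ < K := hcon.trans_le (le_csSup hbdd hmem)
  have hK : SpecBd A Om K := fun p hp => le_csSup hbdd ⟨p, hp, rfl⟩
  have hne : ∀ r > 0, ∃ p : ℂ[X], Bdd Om 1 p ∧ K - r ≤ ‖aeval A p‖ := by
    intro r hr
    obtain ⟨v, ⟨p, hp, rfl⟩, hv⟩ := exists_lt_of_lt_csSup ⟨_, hmem⟩ (show K - r < sSup S by linarith)
    exact ⟨p, hp, hv.le⟩
  obtain ⟨P, Q, F, c₀, Λ, hc, hΛ, cert⟩ := hcert K hCK
  exact cert_false (by linarith) hc hΛ hK hne hsys cert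

theorem specBd_one [CompleteSpace H] {A : H →L[ℂ] H} {Om : Set ℂ}
    (hfin : ∃ K₀ : ℝ, ∀ p : ℂ[X], Bdd Om 1 p → ‖aeval A p‖ ≤ K₀)
    (hsys : ∀ ε > 0, ∃ α : ℂ[X] → ℂ[X], Sys A Om ε α) :
    SpecBd A Om (47 / 20) := by
  refine specBd_of_cert (by norm_num) hfin hsys fun K hK => ?_
  rcases le_total K (121 / 50) with h | h
  · exact ⟨_, _, _, _, _, by norm_num, by norm_num, cert_one hK.le h rfl rfl⟩
  · exact ⟨_, _, _, _, _, by norm_num, by norm_num, cert_zero h⟩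

end Vale.Agent.P123
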