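import Vale.Agent.P123.Package

/-!
# P123: (FIN) and (SYS)
-/

open Complex MeasureTheory Set Filter Topology
open scoped Real ComplexConjugate Polynomial

namespace Vale.Agent.P123

set_option linter.unusedSectionVars false

variable {H : Type*} [NormedAddCommGroup H] [InnerProductSpace ℂ H] [CompleteSpace H]
variable {h h1 h2 : ℝ → ℝ}

lemma norm_inv_two_pi : ‖(1 / (2 * π) : ℂ)‖ = 1 / (2 * π) := by
  have : (1 / (2 * π) : ℂ) = ((1 / (2 * π) : ℝ) : ℂ) := by push_cast; rfl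
  rw [this, Complex.norm_real, Real.norm_eq_abs, abs_of_pos (by positivity)]

lemma SuppData.norm_tng_le (S : SuppData h h1 h2) {r1 : ℝ} (hi : ∀ s, rho h h2 s ≤ r1) (t : ℝ) :
    ‖tng h h2 t‖ ≤ r1 := by
  rw [tng, norm_mul, Complex.norm_exp_ofReal_mul_I, mul_one,
    Complex.norm_real, Real.norm_eq_abs, abs_of_pos (S.rho_pos t)]
  exact hi t

lemma SuppData.continuous_resS_t (S : SuppData h h1 h2) {A : H →L[ℂ] H} {s : ℝ}
    (hu : ∀ t, IsUnit (algebraMap ℂ (H →L[ℂ] H) (bd h h1 t) - s • A)) :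
    Continuous (fun t => resS h h1 A s t) := by
  refine continuous_ringInverse_comp ?_ hu
  have := S.cont_bd
  have h2 : Continuous (algebraMap ℂ (H →L[ℂ] H)) := continuous_algebraMap ℂ (H →L[ℂ] H)
  fun_prop

/-- Dilating the operator changes the Cauchy integral only a little. -/
lemma SuppData.norm_cau_sub_le (S : SuppData h h1 h2) {m η μ r1 B r : ℝ} (hμ : 0 < μ)
    (hμm : μ ≤ m) (hμη : μ ≤ η) (hmh : ∀ t, m ≤ h t) {A : H →L[ℂ] H} (hA : Gap h η A)
    (hi : ∀ s, rho h h2 s ≤ r1) (hr0 : 0 ≤ r) (hr1 : r ≤ 1) {g : ℝ → ℂ} (hg : Continuous g)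
    (hB : ∀ t, ‖g t‖ ≤ B) :
    ‖cau h h1 h2 A g
      - (1 / (2 * π) : ℂ) • ∫ t in (0 : ℝ)..(2 * π), (g t * tng h h2 t) • resS h h1 A r t‖
      ≤ B * r1 * ((1 - r) * ‖A‖ / μ ^ 2) := by
  have hm : 0 < m := hμ.trans_le hμm
  have hη : 0 < η := hμ.trans_le hμη
  have hB0 : 0 ≤ B := (norm_nonneg _).trans (hB 0)
  have hr10 : 0 ≤ r1 := (S.rho_pos 0).le.trans (hi 0)
  have hct := S.cont_tng
  have hur := fun t => isUnit_of_gap (h1 := h1) hm hmh hη hA (s := r) ⟨hr0, hr1⟩ t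
  have hu1 := fun t => isUnit_of_gap (h1 := h1) hm hmh hη hA (s := 1) ⟨zero_le_one, le_refl _⟩ t
  have hcr := S.continuous_resS_t hur
  have hc1 := S.continuous_resS_t hu1
  have e0 : cau h h1 h2 A g
      = (1 / (2 * π) : ℂ) • ∫ t in (0 : ℝ)..(2 * π), (g t * tng h h2 t) • resS h h1 A 1 t := by
    unfold cau
    congr 1
    apply intervalIntegral.integral_congr
    intro t _
    simp only [wres, smul_smul, resS, res, one_smul]
  have hbd : ∀ t, ‖resS h h1 A 1 t - resS h h1 A r t‖ ≤ (1 - r) * ‖A‖ / μ ^ 2 := by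
    intro t
    have i1 : (algebraMap ℂ (H →L[ℂ] H) (bd h h1 t) - (1 : ℝ) • A) * resS h h1 A 1 t = 1 :=
      Ring.mul_inverse_cancel _ (hu1 t)
    have i2 : resS h h1 A r t * (algebraMap ℂ (H →L[ℂ] H) (bd h h1 t) - r • A) = 1 :=
      Ring.inverse_mul_cancel _ (hur t)
    have e1 : resS h h1 A 1 t - resS h h1 A r t
        = resS h h1 A r t * ((1 - r) • A) * resS h h1 A 1 t := by
      have e2 : (1 - r) • A = (algebraMap ℂ (H →L[ℂ] H) (bd h h1 t) - r • A)
          - (algebraMap ℂ (H →L[ℂ] H) (bd h h1 t) - (1 : ℝ) • A) := by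
        rw [sub_smul]; abel
      rw [e2, mul_sub, i2, sub_mul, one_mul, mul_assoc, i1, mul_one]
    have n1 : ‖resS h h1 A 1 t‖ ≤ 1 / μ :=
      norm_inverse_gap_le hμ hμm hμη hmh hA ⟨zero_le_one, le_refl _⟩ t
    have n2 : ‖resS h h1 A r t‖ ≤ 1 / μ :=
      norm_inverse_gap_le hμ hμm hμη hmh hA ⟨hr0, hr1⟩ t
    have n3 : ‖(1 - r) • A‖ = (1 - r) * ‖A‖ := by
      rw [norm_smul, Real.norm_eq_abs, abs_of_nonneg (by linarith)]
    rw [e1]
    calc ‖resS h h1 A r t * ((1 - r) • A) * resS h h1 A 1 t‖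
        ≤ ‖resS h h1 A r t * ((1 - r) • A)‖ * ‖resS h h1 A 1 t‖ := norm_mul_le _ _
      _ ≤ (‖resS h h1 A r t‖ * ‖(1 - r) • A‖) * ‖resS h h1 A 1 t‖ :=
          mul_le_mul_of_nonneg_right (norm_mul_le _ _) (norm_nonneg _)
      _ ≤ (1 / μ * ((1 - r) * ‖A‖)) * (1 / μ) := by
          rw [n3]
          have : 0 ≤ (1 - r) * ‖A‖ := mul_nonneg (by linarith) (norm_nonneg _)
          gcongr
      _ = (1 - r) * ‖A‖ / μ ^ 2 := by field_simp
  rw [e0, ← smul_sub, ← intervalIntegral.integral_sub, norm_smul, norm_inv_two_pi]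
  · have h4 : ‖∫ t in (0 : ℝ)..(2 * π), ((g t * tng h h2 t) • resS h h1 A 1 t
          - (g t * tng h h2 t) • resS h h1 A r t)‖
        ≤ (B * r1 * ((1 - r) * ‖A‖ / μ ^ 2)) * |2 * π - 0| := by
      apply intervalIntegral.norm_integral_le_of_norm_le_const
      intro t _
      rw [← smul_sub, norm_smul, norm_mul]
      have h6 : ‖g t‖ * ‖tng h h2 t‖ ≤ B * r1 :=
        mul_le_mul (hB t) (S.norm_tng_le hi t) (norm_nonneg _) hB0
      exact mul_le_mul h6 (hbd t) (norm_nonneg _) (by positivity)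
    rw [sub_zero, abs_of_pos (by positivity)] at h4
    have h5 := mul_le_mul_of_nonneg_left h4 (show 0 ≤ 1 / (2 * π) by positivity)
    refine h5.trans (le_of_eq ?_)
    have := Real.pi_ne_zero
    field_simp
  · apply Continuous.intervalIntegrable
    fun_prop
  · apply Continuous.intervalIntegrable
    fun_prop

/-- (FIN): polynomials bounded by one on the body are uniformly bounded at `A`. -/
theorem SuppData.fin (S : SuppData h h1 h2) {m η : ℝ} (hm : 0 < m) (hmh : ∀ t, m ≤ h t)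
    (hη : 0 < η) {A : H →L[ℂ] H} (hA : Gap h η A) :
    ∃ K0 : ℝ, ∀ p : ℂ[X], (∀ z ∈ body h, ‖p.eval z‖ ≤ 1) → ‖Polynomial.aeval A p‖ ≤ K0 := by
  obtain ⟨t1, ht1⟩ := exists_max_of_periodic S.cont_rho S.rho_per
  set r1 := rho h h2 t1 with hr1def
  have hμ : 0 < min m η := lt_min hm hη
  refine ⟨r1 * (1 / min m η), fun p hp => ?_⟩
  rw [S.aeval_eq_cau hm hmh hη hA]
  unfold cau
  rw [norm_smul, norm_inv_two_pi]
  have h4 : ‖∫ t in (0 : ℝ)..(2 * π), p.eval (bd h h1 t) • wres h h1 h2 A t‖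
      ≤ (r1 * (1 / min m η)) * |2 * π - 0| := by
    apply intervalIntegral.norm_integral_le_of_norm_le_const
    intro t _
    rw [norm_smul, wres, norm_smul]
    have h5 : ‖res h h1 A t‖ ≤ 1 / min m η := by
      have := norm_inverse_gap_le (h1 := h1) hμ (min_le_left _ _) (min_le_right _ _) hmh hA
        (s := 1) ⟨zero_le_one, le_refl _⟩ t
      rwa [one_smul] at this
    have h6 := hp _ (S.bd_mem_body t)
    have h7 := S.norm_tng_le ht1 t
    have h8 : ‖tng h h2 t‖ * ‖res h h1 A t‖ ≤ r1 * (1 / min m η) :=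
      mul_le_mul h7 h5 (norm_nonneg _) ((norm_nonneg _).trans h7)
    calc ‖p.eval (bd h h1 t)‖ * (‖tng h h2 t‖ * ‖res h h1 A t‖)
        ≤ 1 * (r1 * (1 / min m η)) := mul_le_mul h6 h8 (by positivity) zero_le_one
      _ = _ := one_mul _
  rw [sub_zero, abs_of_pos (by positivity)] at h4
  have h5 := mul_le_mul_of_nonneg_left h4 (show 0 ≤ 1 / (2 * π) by positivity)
  refine h5.trans (le_of_eq ?_)
  have := Real.pi_ne_zero
  field_simp

lemma cbd_add (p q : ℂ[X]) (t : ℝ) :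
    cbd h h1 (p + q) t = cbd h h1 p t + cbd h h1 q t := by
  simp [cbd]

lemma cbd_C_mul (c : ℂ) (p : ℂ[X]) (t : ℝ) :
    cbd h h1 (Polynomial.C c * p) t = conj c * cbd h h1 p t := by
  simp [cbd]

lemma SuppData.apx_add (S : SuppData h h1 h2) {r L : ℝ} (hpos : ∀ t, 0 < h t + r * L) (N : ℕ)
    (p q : ℂ[X]) : apx h h1 h2 r L N (cbd h h1 (p + q))
      = apx h h1 h2 r L N (cbd h h1 p) + apx h h1 h2 r L N (cbd h h1 q) := by
  unfold apx
  rw [← Finset.sum_add_distrib]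
  apply Finset.sum_congr rfl
  intro j _
  rw [← map_add, ← mul_add, ← intervalIntegral.integral_add]
  · congr 2
    apply intervalIntegral.integral_congr
    intro t _
    simp only [cbd_add]
    ring
  · apply Continuous.intervalIntegrable
    exact ((S.cont_cbd p).mul S.cont_tng).mul (S.cont_coeff hpos N j)
  · apply Continuous.intervalIntegrable
    exact ((S.cont_cbd q).mul S.cont_tng).mul (S.cont_coeff hpos N j)

lemma apx_C_mul (r L : ℝ) (N : ℕ) (c : ℂ) (p : ℂ[X]) :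
    apx h h1 h2 r L N (cbd h h1 (Polynomial.C c * p))
      = Polynomial.C (conj c) * apx h h1 h2 r L N (cbd h h1 p) := by
  unfold apx
  rw [Finset.mul_sum]
  apply Finset.sum_congr rfl
  intro j _
  rw [Polynomial.C_mul_monomial]
  congr 1
  rw [mul_left_comm]
  congr 1
  rw [← intervalIntegral.integral_const_mul]
  apply intervalIntegral.integral_congr
  intro t _
  simp only [cbd_C_mul]
  ring

/-- (SYS), with two different majorants. -/
theorem SuppData.sys2 (S : SuppData h h1 h2) {m η : ℝ} (hm : 0 < m) (hmh : ∀ t, m ≤ h t)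
    (hη : 0 < η) {A : H →L[ℂ] H} (hA : Gap h η A) {ε : ℝ} (hε : 0 < ε) :
    ∃ α : ℂ[X] → ℂ[X], (∀ p q, α (p + q) = α p + α q) ∧
      (∀ (c : ℂ) p, α (Polynomial.C c * p) = Polynomial.C (conj c) * α p) ∧
      (∀ (p : ℂ[X]) (M : ℝ), (∀ z ∈ body h, ‖p.eval z‖ ≤ 1) →
        (∀ z ∈ body h, (p.eval z).re ≤ M) → ∀ z ∈ body h, ((α p).eval z).re ≤ M + ε) ∧
      (∀ p q F G : ℂ[X],
        (∀ z ∈ body h, ‖p.eval z‖ ≤ 1) → (∀ z ∈ body h, ‖q.eval z‖ ≤ 1) →
        (∀ z ∈ body h, ‖F.eval z‖ ≤ 1) → (∀ z ∈ body h, ‖G.eval z‖ ≤ 1) →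
        (∀ z ∈ body h, 0 ≤ (F.eval z).re) → (∀ z ∈ body h, 0 ≤ (G.eval z).re) →
        (∀ z ∈ body h, ‖p.eval z + conj (q.eval z)‖ ^ 2 ≤ (F.eval z).re * (G.eval z).re) →
        ∀ x y : H, ‖x‖ ≤ 1 → ‖y‖ ≤ 1 →
        2 * (inner ℂ y (Polynomial.aeval A p x) + inner ℂ (Polynomial.aeval A (α p) y) x
            + inner ℂ (Polynomial.aeval A q y) x + inner ℂ y (Polynomial.aeval A (α q) x)).re
          ≤ (inner ℂ x (Polynomial.aeval A F x) + inner ℂ x (Polynomial.aeval A (α F) x)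
            + inner ℂ y (Polynomial.aeval A G y) + inner ℂ y (Polynomial.aeval A (α G) y)).re
            + ε) := by
  have hp : ∀ t, 0 < h t := fun t => hm.trans_le (hmh t)
  obtain ⟨t1, ht1⟩ := exists_max_of_periodic S.cont_rho S.rho_per
  set r1 := rho h h2 t1 with hr1def
  have hr1p : 0 < r1 := S.rho_pos t1
  set μ := min m η with hμdef
  have hμ : 0 < μ := lt_min hm hη
  -- choice of `r`
  set κ : ℝ := r1 * ‖A‖ / μ ^ 2 with hκ
  have hκ0 : 0 ≤ κ := by positivity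
  obtain ⟨r, hr0, hr1, hrκ⟩ : ∃ r : ℝ, 0 < r ∧ r < 1 ∧ (1 - r) * κ ≤ ε / 12 := by
    refine ⟨1 - min (1 / 2) (ε / (12 * (κ + 1))), ?_, ?_, ?_⟩
    · have : min (1 / 2) (ε / (12 * (κ + 1))) ≤ 1 / 2 := min_le_left _ _
      linarith
    · have : 0 < min (1 / 2) (ε / (12 * (κ + 1))) := by positivity
      linarith
    · rw [sub_sub_cancel]
      calc min (1 / 2) (ε / (12 * (κ + 1))) * κ ≤ ε / (12 * (κ + 1)) * κ :=
            mul_le_mul_of_nonneg_right (min_le_right _ _) hκ0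
        _ ≤ ε / 12 := by
            rw [div_mul_eq_mul_div, div_le_div_iff₀ (by positivity) (by norm_num)]
            nlinarith
  obtain ⟨L, N, hL, happ⟩ := S.approx_all hm hmh hη hA hr0 hr1 (show 0 < ε / 12 by positivity)
  have hpos : ∀ t, 0 < h t + r * L := fun t => by have := hp t; positivity
  refine ⟨fun p => apx h h1 h2 r L N (cbd h h1 p), fun p q => S.apx_add hpos N p q,
    fun c p => apx_C_mul r L N c p, ?_, ?_⟩
  · intro p M hp1 hpM z hz
    have hB : ∀ t, ‖cbd h h1 p t‖ ≤ 1 := fun t => by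
      rw [cbd, RCLike.norm_conj]; exact hp1 _ (S.bd_mem_body t)
    have h3 := (happ _ (S.cont_cbd p) 1 hB).1 z hz
    have h4 := S.interior_pos hm hmh p hpM (mem_intr_smul hp hz hr0.le hr1)
    have h5 := (Complex.re_le_norm _).trans h3
    rw [Complex.sub_re] at h5
    simp only
    linarith
  · intro p q F G hp1 hq1 hF1 hG1 hF0 hG0 hpq x y hx hy
    -- closeness of `cau` and `α`
    have hclose : ∀ P : ℂ[X], (∀ z ∈ body h, ‖P.eval z‖ ≤ 1) →
        ‖cau h h1 h2 A (cbd h h1 P)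
          - Polynomial.aeval A (apx h h1 h2 r L N (cbd h h1 P))‖ ≤ ε / 6 := by
      intro P hP
      have hB : ∀ t, ‖cbd h h1 P t‖ ≤ 1 := fun t => by
        rw [cbd, RCLike.norm_conj]; exact hP _ (S.bd_mem_body t)
      have h3 := (happ _ (S.cont_cbd P) 1 hB).2
      have h4 := S.norm_cau_sub_le hμ (min_le_left m η) (min_le_right m η) hmh hA ht1 hr0.le
        hr1.le (S.cont_cbd P) hB
      rw [norm_sub_rev] at h3
      have h5 : (1 : ℝ) * r1 * ((1 - r) * ‖A‖ / μ ^ 2) = (1 - r) * κ := by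
        rw [hκ]; ring
      rw [h5] at h4
      have h6 := norm_add_le (cau h h1 h2 A (cbd h h1 P)
        - (1 / (2 * π) : ℂ) • ∫ t in (0 : ℝ)..(2 * π),
            (cbd h h1 P t * tng h h2 t) • resS h h1 A r t)
        ((1 / (2 * π) : ℂ) • (∫ t in (0 : ℝ)..(2 * π),
            (cbd h h1 P t * tng h h2 t) • resS h h1 A r t)
          - Polynomial.aeval A (apx h h1 h2 r L N (cbd h h1 P)))
      rw [sub_add_sub_cancel] at h6
      linarith
    have hbil : ∀ (T : H →L[ℂ] H) (u v : H), ‖u‖ ≤ 1 → ‖v‖ ≤ 1 → ‖T‖ ≤ ε / 6 →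
        |(inner ℂ u (T v)).re| ≤ ε / 6 := by
      intro T u v hu hv hT
      refine (Complex.abs_re_le_norm _).trans ((norm_inner_le_norm u (T v)).trans ?_)
      have h3 : ‖T v‖ ≤ ε / 6 := by
        refine (T.le_opNorm v).trans ?_
        calc ‖T‖ * ‖v‖ ≤ ε / 6 * 1 := mul_le_mul hT hv (norm_nonneg _) (by positivity)
          _ = ε / 6 := mul_one _
      calc ‖u‖ * ‖T v‖ ≤ 1 * (ε / 6) := mul_le_mul hu h3 (norm_nonneg _) zero_le_one
        _ = ε / 6 := one_mul _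
    have hmain := S.sMap_two_pos hm hmh hη hA p q F G hF0 hG0 hpq x y
    have e1 : ∀ (P : ℂ[X]) (u v : H), (inner ℂ u (sMap h h1 h2 A P v)).re
        = (inner ℂ u (Polynomial.aeval A P v)).re
          + (inner ℂ v (cau h h1 h2 A (cbd h h1 P) u)).re := by
      intro P u v
      have : sMap h h1 h2 A P v = Polynomial.aeval A P v
          + ContinuousLinearMap.adjoint (cau h h1 h2 A (cbd h h1 P)) v := rfl
      rw [this, inner_add_right, Complex.add_re, ContinuousLinearMap.adjoint_inner_right,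
        ← inner_conj_symm (cau h h1 h2 A (cbd h h1 P) u) v, Complex.conj_re]
    have e2 : ∀ (u v : H), (inner ℂ u v).re = (inner ℂ v u).re := by
      intro u v
      rw [← inner_conj_symm u v, Complex.conj_re]
    have e3 : ∀ (P : ℂ[X]), (∀ z ∈ body h, ‖P.eval z‖ ≤ 1) → ∀ u v : H, ‖u‖ ≤ 1 → ‖v‖ ≤ 1 →
        |(inner ℂ v (cau h h1 h2 A (cbd h h1 P) u)).re
          - (inner ℂ v (Polynomial.aeval A (apx h h1 h2 r L N (cbd h h1 P)) u)).re| ≤ ε / 6 := by
      intro P hP u v hu hv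
      have := hbil _ v u hv hu (hclose P hP)
      rw [_root_.sub_apply, inner_sub_right, Complex.sub_re] at this
      exact this
    have f1 := abs_le.1 (e3 p hp1 y x hy hx)
    have f2 := abs_le.1 (e3 q hq1 x y hx hy)
    have f3 := abs_le.1 (e3 F hF1 x x hx hx)
    have f4 := abs_le.1 (e3 G hG1 y y hy hy)
    rw [Complex.add_re, e2 (sMap h h1 h2 A q y) x, e1 p y x, e1 q x y, e1 F x x, e1 G y y] at hmain
    simp only [Complex.add_re]
    rw [e2 (Polynomial.aeval A (apx h h1 h2 r L N (cbd h h1 p)) y) x,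
      e2 (Polynomial.aeval A q y) x]
    linarith [f1.1, f1.2, f2.1, f2.2, f3.1, f3.2, f4.1, f4.2]

/-- (SYS), in the form used by the abstract argument. -/
theorem SuppData.sys (S : SuppData h h1 h2) {m η : ℝ} (hm : 0 < m) (hmh : ∀ t, m ≤ h t)
    (hη : 0 < η) {A : H →L[ℂ] H} (hA : Gap h η A) {ε : ℝ} (hε : 0 < ε) :
    ∃ α : ℂ[X] → ℂ[X], (∀ p q, α (p + q) = α p + α q) ∧
      (∀ (c : ℂ) p, α (Polynomial.C c * p) = Polynomial.C (conj c) * α p) ∧
      (∀ (p : ℂ[X]) (M : ℝ), (∀ z ∈ body h, ‖p.eval z‖ ≤ 1) →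
        (∀ z ∈ body h, (p.eval z).re ≤ M) → ∀ z ∈ body h, ((α p).eval z).re ≤ M + ε) ∧
      (∀ p q F : ℂ[X],
        (∀ z ∈ body h, ‖p.eval z‖ ≤ 1 ∧ ‖q.eval z‖ ≤ 1 ∧ ‖F.eval z‖ ≤ 1) →
        (∀ z ∈ body h, ‖p.eval z + conj (q.eval z)‖ ≤ (F.eval z).re) →
        ∀ x y : H, ‖x‖ ≤ 1 → ‖y‖ ≤ 1 →
        2 * (inner ℂ y (Polynomial.aeval A p x) + inner ℂ (Polynomial.aeval A (α p) y) x
            + inner ℂ (Polynomial.aeval A q y) x + inner ℂ y (Polynomial.aeval A (α q) x)).re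
          ≤ (inner ℂ x (Polynomial.aeval A F x) + inner ℂ x (Polynomial.aeval A (α F) x)
            + inner ℂ y (Polynomial.aeval A F y) + inner ℂ y (Polynomial.aeval A (α F) y)).re
            + ε) := by
  obtain ⟨α, h3, h4, h5, h6⟩ := S.sys2 hm hmh hη hA hε
  refine ⟨α, h3, h4, h5, ?_⟩
  intro p q F h7 h8 x y hx hy
  have h9 : ∀ z ∈ body h, 0 ≤ (F.eval z).re := fun z hz => (norm_nonneg _).trans (h8 z hz)
  refine h6 p q F F (fun z hz => (h7 z hz).1) (fun z hz => (h7 z hz).2.1)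
    (fun z hz => (h7 z hz).2.2) (fun z hz => (h7 z hz).2.2) h9 h9 ?_ x y hx hy
  intro z hz
  rw [← sq]
  exact pow_le_pow_left₀ (norm_nonneg _) (h8 z hz) 2

end Vale.Agent.P123
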