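import Vale.Agent.P123.Assembly
import Vale.Agent.P123.Final
import Vale.Agent.P123.Abstract

/-!
# P123: from `no_extremal` to a bound for all operators
-/

open Complex Set
open scoped Real ComplexConjugate Polynomial

namespace Vale.Agent.P123

variable {H : Type*} [NormedAddCommGroup H] [InnerProductSpace ℂ H]

lemma SuppData.exists_sys [CompleteSpace H] {h h1 h2 : ℝ → ℝ} (S : SuppData h h1 h2) {m η : ℝ}
    (hm : 0 < m) (hmh : ∀ t, m ≤ h t) (hη : 0 < η) {A : H →L[ℂ] H} (hA : Gap h η A) {ε : ℝ}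
    (hε : 0 < ε) : ∃ α : ℂ[X] → ℂ[X], Sys A (body h) ε α := by
  obtain ⟨α, hadd, hsmul, hpos, hcp⟩ := S.sys hm hmh hη hA hε
  refine ⟨α, ⟨hadd, hsmul, hpos, ?_⟩⟩
  intro p q F hp hq hF hpq x y hx hy
  have h3 := hcp p q F (fun z hz => ⟨hp z hz, hq z hz, hF z hz⟩) hpq x y hx hy
  have e2 : ∀ (u v : H), (inner ℂ u v).re = (inner ℂ v u).re := by
    intro u v
    rw [← inner_conj_symm u v, Complex.conj_re]
  simp only [Complex.add_re] at h3 ⊢
  rw [e2 (Polynomial.aeval A (α p) y) x, e2 (Polynomial.aeval A q y) x] at h3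
  exact h3

/-- **Master theorem**: if no value `K > C₀` can be the best constant of a system, then `C₀` is a
bound for the polynomial functional calculus over the numerical range. -/
theorem master [CompleteSpace H] [Nontrivial H] {C₀ : ℝ} (hC₀ : 0 ≤ C₀)
    (hno : ∀ K : ℝ, C₀ < K → ∀ (A : H →L[ℂ] H) (Om : Set ℂ), SpecBd A Om K →
      (∀ r > 0, ∃ p : ℂ[X], Bdd Om 1 p ∧ K - r ≤ ‖Polynomial.aeval A p‖) →
      (∀ ε > 0, ∃ α : ℂ[X] → ℂ[X], Sys A Om ε α) → False)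
    (A : H →L[ℂ] H) (p : ℂ[X]) (M : ℝ)
    (hM : ∀ x : H, ‖x‖ = 1 → ‖p.eval (inner ℂ x (A x))‖ ≤ M) :
    ‖Polynomial.aeval A p‖ ≤ C₀ * M := by
  refine assemble ?_ A p M hM
  intro A h h1 h2 m η S hm hmh hη hA
  obtain ⟨K0, hK0⟩ := S.fin hm hmh hη hA
  set T : Set ℝ := {r | ∃ p : ℂ[X], Bdd (body h) 1 p ∧ ‖Polynomial.aeval A p‖ = r} with hT
  have hbdd : BddAbove T := by
    refine ⟨K0, ?_⟩
    rintro r ⟨p, hp, rfl⟩
    exact hK0 p hp
  have hne : T.Nonempty := ⟨‖Polynomial.aeval A (0 : ℂ[X])‖, 0, by intro z _; simp, rfl⟩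
  have hsp : SpecBd A (body h) (sSup T) := fun p hp => le_csSup hbdd ⟨p, hp, rfl⟩
  have hle : sSup T ≤ C₀ := by
    by_contra hcon
    push Not at hcon
    refine hno (sSup T) hcon A (body h) hsp ?_ (fun ε hε => S.exists_sys hm hmh hη hA hε)
    intro r hr
    obtain ⟨_, ⟨p, hp, rfl⟩, hlt⟩ := exists_lt_of_lt_csSup hne (sub_lt_self (sSup T) hr)
    exact ⟨p, hp, hlt.le⟩
  intro p hp
  exact (hsp p hp).trans hle

end Vale.Agent.P123
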