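import Vale.Agent.P123.Final

/-!
# P123: three-vector positivity of the map `S(F) = F(A) + (α F)(A)†`
-/

open Complex MeasureTheory Set Filter Topology
open scoped Real ComplexConjugate Polynomial

namespace Vale.Agent.P123

set_option linter.unusedSectionVars false

variable {H : Type*} [NormedAddCommGroup H] [InnerProductSpace ℂ H] [CompleteSpace H]
variable {h h1 h2 : ℝ → ℝ}

/-- Pointwise three-vector positivity of the kernel. -/
lemma kern_three_pos (S : SuppData h h1 h2) {A : H →L[ℂ] H} {t : ℝ}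
    (hA : ∀ v : H, (exp (-(t * I)) * inner ℂ v (A v)).re ≤ h t * ‖v‖ ^ 2)
    (hu : IsUnit (algebraMap ℂ (H →L[ℂ] H) (bd h h1 t) - A)) {a b : ℂ}
    (ha : ‖a‖ ≤ 1) (hb : ‖b‖ ≤ 1) (x y z : H) :
    0 ≤ (kern h h1 h2 A t x x).re + (kern h h1 h2 A t y y).re + (kern h h1 h2 A t z z).re
      + 2 * (a * kern h h1 h2 A t y x).re + 2 * (b * kern h h1 h2 A t z y).re
      + 2 * (a * b * kern h h1 h2 A t z x).re := by
  have hx := kern_pos S hA hu x
  have hw := kern_pos S hA hu (a • x + (1 : ℂ) • y)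
  have hz := kern_pos S hA hu (b • (a • x + (1 : ℂ) • y) + (1 : ℂ) • z)
  rw [kern_quadratic, map_one, one_mul, norm_one, one_pow, one_mul] at hz
  have e1 := kern_quadratic (h := h) (h1 := h1) (h2 := h2) A t a 1 x y
  rw [map_one, one_mul, norm_one, one_pow, one_mul] at e1
  have e2 : kern h h1 h2 A t z (a • x + (1 : ℂ) • y)
      = a * kern h h1 h2 A t z x + kern h h1 h2 A t z y := by
    unfold kern
    simp only [map_add, map_smul, inner_add_right, inner_smul_right, one_mul]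
    ring
  rw [e2, mul_add, Complex.add_re, ← mul_assoc, mul_comm b a] at hz
  have ha2 : ‖a‖ ^ 2 ≤ 1 := pow_le_one₀ (norm_nonneg _) ha
  have hb2 : ‖b‖ ^ 2 ≤ 1 := pow_le_one₀ (norm_nonneg _) hb
  have h3 : ‖a‖ ^ 2 * (kern h h1 h2 A t x x).re ≤ 1 * (kern h h1 h2 A t x x).re :=
    mul_le_mul_of_nonneg_right ha2 hx
  have h4 := mul_le_mul_of_nonneg_right hb2 hw
  linarith

section
variable (S : SuppData h h1 h2) {A : H →L[ℂ] H}
include S

lemma SuppData.inner_sMap_re {m η : ℝ} (hm : 0 < m) (hmh : ∀ t, m ≤ h t) (hη : 0 < η)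
    (hA : Gap h η A) (P : Polynomial ℂ) (y x : H) :
    (inner ℂ y (sMap h h1 h2 A P x)).re
      = (1 / (2 * π)) * ∫ t in (0 : ℝ)..(2 * π),
          (P.eval (bd h h1 t) * kern h h1 h2 A t y x).re := by
  have hu : ∀ t, IsUnit (algebraMap ℂ (H →L[ℂ] H) (bd h h1 t) - A) := by
    intro t
    have := isUnit_of_gap (h1 := h1) hm hmh hη hA (s := 1) ⟨zero_le_one, le_refl _⟩ t
    rwa [one_smul] at this
  have hcw := S.cont_wres hu
  have hck : ∀ y x : H, Continuous fun t => kern h h1 h2 A t y x := by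
    intro y x
    unfold kern
    fun_prop
  have hcb := S.cont_bd
  rw [S.inner_sMap hm hmh hη hA]
  have : (1 / (2 * π) : ℂ) = ((1 / (2 * π) : ℝ) : ℂ) := by push_cast; rfl
  rw [this, Complex.re_ofReal_mul]
  congr 1
  have hi : IntervalIntegrable (fun t => P.eval (bd h h1 t) * kern h h1 h2 A t y x)
      volume 0 (2 * π) := by
    apply Continuous.intervalIntegrable
    exact (P.continuous.comp hcb).mul (hck y x)
  exact (Complex.reCLM.intervalIntegral_comp_comm hi).symm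

lemma SuppData.sMap_one_self {m η : ℝ} (hm : 0 < m) (hmh : ∀ t, m ≤ h t) (hη : 0 < η)
    (hA : Gap h η A) (x : H) : (inner ℂ x (sMap h h1 h2 A 1 x)).re = 2 * ‖x‖ ^ 2 := by
  have h3 := S.aeval_eq_cau hm hmh hη hA 1
  have h4 : cbd h h1 (1 : Polynomial ℂ) = fun t => (1 : Polynomial ℂ).eval (bd h h1 t) := by
    funext t
    simp [cbd]
  have h5 : sMap h h1 h2 A 1 x = x + x := by
    unfold sMap
    rw [h4, ← h3, map_one, ← ContinuousLinearMap.star_eq_adjoint, star_one]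
    rfl
  have e4 : inner ℂ x x = ((‖x‖ ^ 2 : ℝ) : ℂ) := by
    rw [inner_self_eq_norm_sq_to_K]; norm_cast
  rw [h5, inner_add_right, e4, Complex.add_re, Complex.ofReal_re]
  ring

/-- Three-vector positivity of `S`. -/
theorem SuppData.sMap_three_pos {m η : ℝ} (hm : 0 < m) (hmh : ∀ t, m ≤ h t) (hη : 0 < η)
    (hA : Gap h η A) (p q : Polynomial ℂ)
    (hp : ∀ z ∈ body h, ‖p.eval z‖ ≤ 1) (hq : ∀ z ∈ body h, ‖q.eval z‖ ≤ 1)
    (x y z : H) :
    0 ≤ 2 * (‖x‖ ^ 2 + ‖y‖ ^ 2 + ‖z‖ ^ 2) + 2 * ((inner ℂ y (sMap h h1 h2 A p x)).re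
      + (inner ℂ z (sMap h h1 h2 A q y)).re + (inner ℂ z (sMap h h1 h2 A (p * q) x)).re) := by
  have hu : ∀ t, IsUnit (algebraMap ℂ (H →L[ℂ] H) (bd h h1 t) - A) := by
    intro t
    have := isUnit_of_gap (h1 := h1) hm hmh hη hA (s := 1) ⟨zero_le_one, le_refl _⟩ t
    rwa [one_smul] at this
  have hA0 : ∀ (t : ℝ) (v : H), (exp (-(t * I)) * inner ℂ v (A v)).re ≤ h t * ‖v‖ ^ 2 := by
    intro t v
    have h3 := hA t v
    have h4 : 0 ≤ η * ‖v‖ ^ 2 := by positivity
    linarith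
  have hcw := S.cont_wres hu
  have hck : ∀ y x : H, Continuous fun t => kern h h1 h2 A t y x := by
    intro y x
    unfold kern
    fun_prop
  have hcb := S.cont_bd
  have hcr : ∀ (P : Polynomial ℂ) (y x : H),
      Continuous fun t => (P.eval (bd h h1 t) * kern h h1 h2 A t y x).re :=
    fun P y x => Complex.continuous_re.comp ((P.continuous.comp hcb).mul (hck y x))
  have hii : ∀ (P : Polynomial ℂ) (y x : H), IntervalIntegrable
      (fun t => (P.eval (bd h h1 t) * kern h h1 h2 A t y x).re) volume 0 (2 * π) :=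
    fun P y x => (hcr P y x).intervalIntegrable _ _
  have hone : ∀ x : H, 2 * ‖x‖ ^ 2 = (1 / (2 * π)) * ∫ t in (0 : ℝ)..(2 * π),
      ((1 : Polynomial ℂ).eval (bd h h1 t) * kern h h1 h2 A t x x).re := fun x => by
    rw [← S.inner_sMap_re hm hmh hη hA, S.sMap_one_self hm hmh hη hA]
  have hsum : 2 * (‖x‖ ^ 2 + ‖y‖ ^ 2 + ‖z‖ ^ 2) + 2 * ((inner ℂ y (sMap h h1 h2 A p x)).re
      + (inner ℂ z (sMap h h1 h2 A q y)).re + (inner ℂ z (sMap h h1 h2 A (p * q) x)).re)
      = (1 / (2 * π)) * ∫ t in (0 : ℝ)..(2 * π),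
        (((1 : Polynomial ℂ).eval (bd h h1 t) * kern h h1 h2 A t x x).re
        + ((1 : Polynomial ℂ).eval (bd h h1 t) * kern h h1 h2 A t y y).re
        + ((1 : Polynomial ℂ).eval (bd h h1 t) * kern h h1 h2 A t z z).re
        + 2 * (p.eval (bd h h1 t) * kern h h1 h2 A t y x).re
        + 2 * (q.eval (bd h h1 t) * kern h h1 h2 A t z y).re
        + 2 * ((p * q).eval (bd h h1 t) * kern h h1 h2 A t z x).re) := by
    rw [intervalIntegral.integral_add, intervalIntegral.integral_add,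
      intervalIntegral.integral_add, intervalIntegral.integral_add,
      intervalIntegral.integral_add, intervalIntegral.integral_const_mul,
      intervalIntegral.integral_const_mul, intervalIntegral.integral_const_mul,
      S.inner_sMap_re hm hmh hη hA, S.inner_sMap_re hm hmh hη hA, S.inner_sMap_re hm hmh hη hA]
    · have e1 := hone x
      have e2 := hone y
      have e3 := hone z
      rw [mul_add, mul_add, e1, e2, e3]
      ring
    · exact hii 1 x x
    · exact hii 1 y y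
    · exact (hii 1 x x).add (hii 1 y y)
    · exact hii 1 z z
    · exact ((hii 1 x x).add (hii 1 y y)).add (hii 1 z z)
    · exact (hii p y x).const_mul 2
    · exact (((hii 1 x x).add (hii 1 y y)).add (hii 1 z z)).add ((hii p y x).const_mul 2)
    · exact (hii q z y).const_mul 2
    · exact ((((hii 1 x x).add (hii 1 y y)).add (hii 1 z z)).add ((hii p y x).const_mul 2)).add
        ((hii q z y).const_mul 2)
    · exact (hii (p * q) z x).const_mul 2
  rw [hsum]
  apply mul_nonneg (by positivity)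
  apply intervalIntegral.integral_nonneg (by positivity)
  intro t _
  have hb := S.bd_mem_body t
  have h5 := kern_three_pos S (hA0 t) (hu t) (hp _ hb) (hq _ hb) x y z
  simp only [Polynomial.eval_one, one_mul, Polynomial.eval_mul]
  exact h5

end

lemma sMap_re_eq (A : H →L[ℂ] H) (P : ℂ[X]) (u v : H) : (inner ℂ u (sMap h h1 h2 A P v)).re
    = (inner ℂ u (Polynomial.aeval A P v)).re
      + (inner ℂ v (cau h h1 h2 A (cbd h h1 P) u)).re := by
  have : sMap h h1 h2 A P v = Polynomial.aeval A P v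
      + ContinuousLinearMap.adjoint (cau h h1 h2 A (cbd h h1 P)) v := rfl
  rw [this, inner_add_right, Complex.add_re, ContinuousLinearMap.adjoint_inner_right,
    ← inner_conj_symm (cau h h1 h2 A (cbd h h1 P) u) v, Complex.conj_re]

lemma bilin_le {T : H →L[ℂ] H} {c : ℝ} (hT : ‖T‖ ≤ c) (u v : H) :
    |(inner ℂ v (T u)).re| ≤ c * (‖u‖ * ‖v‖) := by
  refine (Complex.abs_re_le_norm _).trans ((norm_inner_le_norm v (T u)).trans ?_)
  have h3 : ‖T u‖ ≤ c * ‖u‖ := (T.le_opNorm u).trans (mul_le_mul_of_nonneg_right hT (norm_nonneg _))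
  calc ‖v‖ * ‖T u‖ ≤ ‖v‖ * (c * ‖u‖) := mul_le_mul_of_nonneg_left h3 (norm_nonneg _)
    _ = c * (‖u‖ * ‖v‖) := by ring

/-- A map on polynomials which approximates the Cauchy integral of the conjugate boundary values,
both at `A` and (for the bound) on the body. -/
theorem SuppData.exists_alpha (S : SuppData h h1 h2) {m η : ℝ} (hm : 0 < m) (hmh : ∀ t, m ≤ h t)
    (hη : 0 < η) {A : H →L[ℂ] H} (hA : Gap h η A) {ε : ℝ} (hε : 0 < ε) :
    ∃ α : ℂ[X] → ℂ[X],
      (∀ (c : ℂ) p, α (Polynomial.C c * p) = Polynomial.C (conj c) * α p) ∧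
      (∀ (p : ℂ[X]) (M : ℝ), (∀ z ∈ body h, ‖p.eval z‖ ≤ 1) →
        (∀ z ∈ body h, (p.eval z).re ≤ M) → ∀ z ∈ body h, ((α p).eval z).re ≤ M + ε) ∧
      (∀ p : ℂ[X], (∀ z ∈ body h, ‖p.eval z‖ ≤ 1) →
        ‖cau h h1 h2 A (cbd h h1 p) - Polynomial.aeval A (α p)‖ ≤ ε) := by
  have hp : ∀ t, 0 < h t := fun t => hm.trans_le (hmh t)
  obtain ⟨t1, ht1⟩ := exists_max_of_periodic S.cont_rho S.rho_per
  set r1 := rho h h2 t1 with hr1def
  have hr1p : 0 < r1 := S.rho_pos t1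
  set μ := min m η with hμdef
  have hμ : 0 < μ := lt_min hm hη
  -- choice of `r`
  set κ : ℝ := r1 * ‖A‖ / μ ^ 2 with hκ
  have hκ0 : 0 ≤ κ := by positivity
  obtain ⟨r, hr0, hr1, hrκ⟩ : ∃ r : ℝ, 0 < r ∧ r < 1 ∧ (1 - r) * κ ≤ ε / 2 := by
    refine ⟨1 - min (1 / 2) (ε / (2 * (κ + 1))), ?_, ?_, ?_⟩
    · have : min (1 / 2) (ε / (2 * (κ + 1))) ≤ 1 / 2 := min_le_left _ _
      linarith
    · have : 0 < min (1 / 2) (ε / (2 * (κ + 1))) := by positivity
      linarith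
    · rw [sub_sub_cancel]
      calc min (1 / 2) (ε / (2 * (κ + 1))) * κ ≤ ε / (2 * (κ + 1)) * κ :=
            mul_le_mul_of_nonneg_right (min_le_right _ _) hκ0
        _ ≤ ε / 2 := by
            rw [div_mul_eq_mul_div, div_le_div_iff₀ (by positivity) (by norm_num)]
            nlinarith
  obtain ⟨L, N, hL, happ⟩ := S.approx_all hm hmh hη hA hr0 hr1 (show 0 < ε / 2 by positivity)
  refine ⟨fun p => apx h h1 h2 r L N (cbd h h1 p), fun c p => apx_C_mul r L N c p, ?_, ?_⟩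
  · intro p M hp1 hpM z hz
    have hB : ∀ t, ‖cbd h h1 p t‖ ≤ 1 := fun t => by
      rw [cbd, RCLike.norm_conj]; exact hp1 _ (S.bd_mem_body t)
    have h3 := (happ _ (S.cont_cbd p) 1 hB).1 z hz
    have h4 := S.interior_pos hm hmh p hpM (mem_intr_smul hp hz hr0.le hr1)
    have h5 := (Complex.re_le_norm _).trans h3
    rw [Complex.sub_re] at h5
    simp only
    linarith
  · intro P hP
    have hB : ∀ t, ‖cbd h h1 P t‖ ≤ 1 := fun t => by
      rw [cbd, RCLike.norm_conj]; exact hP _ (S.bd_mem_body t)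
    have h3 := (happ _ (S.cont_cbd P) 1 hB).2
    have h4 := S.norm_cau_sub_le hμ (min_le_left m η) (min_le_right m η) hmh hA ht1 hr0.le
      hr1.le (S.cont_cbd P) hB
    rw [norm_sub_rev] at h3
    have h5 : (1 : ℝ) * r1 * ((1 - r) * ‖A‖ / μ ^ 2) = (1 - r) * κ := by
      rw [hκ]; ring
    rw [h5] at h4
    have h6 := norm_add_le (cau h h1 h2 A (cbd h h1 P)
      - (1 / (2 * π) : ℂ) • ∫ t in (0 : ℝ)..(2 * π),
          (cbd h h1 P t * tng h h2 t) • resS h h1 A r t)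
      ((1 / (2 * π) : ℂ) • (∫ t in (0 : ℝ)..(2 * π),
          (cbd h h1 P t * tng h h2 t) • resS h h1 A r t)
        - Polynomial.aeval A (apx h h1 h2 r L N (cbd h h1 P)))
    rw [sub_add_sub_cancel] at h6
    linarith

/-- (SYS3): the three-vector version of (SYS). -/
theorem SuppData.sys3 (S : SuppData h h1 h2) {m η : ℝ} (hm : 0 < m) (hmh : ∀ t, m ≤ h t)
    (hη : 0 < η) {A : H →L[ℂ] H} (hA : Gap h η A) {ε : ℝ} (hε : 0 < ε) :
    ∃ α : ℂ[X] → ℂ[X],
      (∀ (c : ℂ) p, α (Polynomial.C c * p) = Polynomial.C (conj c) * α p) ∧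
      (∀ (p : ℂ[X]) (M : ℝ), (∀ z ∈ body h, ‖p.eval z‖ ≤ 1) →
        (∀ z ∈ body h, (p.eval z).re ≤ M) → ∀ z ∈ body h, ((α p).eval z).re ≤ M + ε) ∧
      (∀ p q : ℂ[X], (∀ z ∈ body h, ‖p.eval z‖ ≤ 1) → (∀ z ∈ body h, ‖q.eval z‖ ≤ 1) →
        ∀ x y z : H,
        0 ≤ 2 * (‖x‖ ^ 2 + ‖y‖ ^ 2 + ‖z‖ ^ 2)
          + 2 * (inner ℂ y (Polynomial.aeval A p x) + inner ℂ x (Polynomial.aeval A (α p) y)
            + inner ℂ z (Polynomial.aeval A q y) + inner ℂ y (Polynomial.aeval A (α q) z)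
            + inner ℂ z (Polynomial.aeval A (p * q) x)
            + inner ℂ x (Polynomial.aeval A (α (p * q)) z)).re
          + ε * (‖x‖ + ‖y‖ + ‖z‖) ^ 2) := by
  obtain ⟨α, h3, h4, h5⟩ := S.exists_alpha hm hmh hη hA hε
  refine ⟨α, h3, h4, ?_⟩
  intro p q hp hq x y z
  have hpq : ∀ z ∈ body h, ‖(p * q).eval z‖ ≤ 1 := by
    intro z hz
    rw [Polynomial.eval_mul, norm_mul]
    exact mul_le_one₀ (hp z hz) (norm_nonneg _) (hq z hz)
  have key := S.sMap_three_pos hm hmh hη hA p q hp hq x y z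
  rw [sMap_re_eq, sMap_re_eq, sMap_re_eq] at key
  have b1 := bilin_le (h5 p hp) y x
  have b2 := bilin_le (h5 q hq) z y
  have b3 := bilin_le (h5 _ hpq) z x
  rw [_root_.sub_apply, inner_sub_right, Complex.sub_re] at b1 b2 b3
  have c1 := (abs_le.1 b1).2
  have c2 := (abs_le.1 b2).2
  have c3 := (abs_le.1 b3).2
  have h6 : ε * (2 * (‖y‖ * ‖x‖) + 2 * (‖z‖ * ‖y‖) + 2 * (‖z‖ * ‖x‖))
      ≤ ε * (‖x‖ + ‖y‖ + ‖z‖) ^ 2 := by
    apply mul_le_mul_of_nonneg_left _ hε.le
    nlinarith [sq_nonneg ‖x‖, sq_nonneg ‖y‖, sq_nonneg ‖z‖]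
  simp only [Complex.add_re]
  linarith

end Vale.Agent.P123
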