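import Vale.Agent.P123.Abstract

/-!
# P123: the three-vector argument

`Sys3` is the only information used about a convex domain containing the numerical range: a map
`α` that does not increase norms on `Om` (up to `ε`), and the positivity of
`S(u) = u(A) + (α u)(A)†` on three vectors.  The theorem `three_false` says that the best constant
of such a system cannot be larger than `2`.
-/

open Polynomial ComplexConjugate
open scoped InnerProductSpace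

namespace Vale.Agent.P123

variable {H : Type*} [NormedAddCommGroup H] [InnerProductSpace ℂ H]

/-- The approximate double layer potential structure, with three-vector positivity. -/
structure Sys3 (A : H →L[ℂ] H) (Om : Set ℂ) (ε : ℝ) (α : ℂ[X] → ℂ[X]) : Prop where
  bound : ∀ p : ℂ[X], Bdd Om 1 p → Bdd Om (1 + ε) (α p)
  cp : ∀ p q : ℂ[X], Bdd Om 1 p → Bdd Om 1 q → ∀ x y z : H,
    0 ≤ 2 * (‖x‖ ^ 2 + ‖y‖ ^ 2 + ‖z‖ ^ 2)
      + 2 * (⟪y, aeval A p x⟫_ℂ + ⟪x, aeval A (α p) y⟫_ℂ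
            + ⟪z, aeval A q y⟫_ℂ + ⟪y, aeval A (α q) z⟫_ℂ
            + ⟪z, aeval A (p * q) x⟫_ℂ + ⟪x, aeval A (α (p * q)) z⟫_ℂ).re
      + ε * (‖x‖ + ‖y‖ + ‖z‖) ^ 2

lemma Bdd.pow {Om : Set ℂ} {f : ℂ[X]} (hf : Bdd Om 1 f) (n : ℕ) : Bdd Om 1 (f ^ n) := by
  intro z hz
  rw [eval_pow, norm_pow]
  exact pow_le_one₀ (norm_nonneg _) (hf z hz)

lemma Bdd.mul {Om : Set ℂ} {B B' : ℝ} (hB : 0 ≤ B) {f g : ℂ[X]} (hf : Bdd Om B f)
    (hg : Bdd Om B' g) : Bdd Om (B * B') (f * g) := by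
  intro z hz
  rw [eval_mul, norm_mul]
  exact mul_le_mul (hf z hz) (hg z hz) (norm_nonneg _) hB

/-- A near-extremal vector is almost an eigenvector of `T†T`. -/
lemma near_vec [CompleteSpace H] {T : H →L[ℂ] H} {K δ : ℝ} (hK0 : 0 ≤ K) (hδ : 0 ≤ δ)
    (hT : ‖T‖ ≤ K) {x : H} (hx : ‖x‖ ≤ 1) (hTx : K ^ 2 - δ ≤ ‖T x‖ ^ 2) :
    ‖T.adjoint (T x) - ((K ^ 2 : ℝ) : ℂ) • x‖ ≤ K * √δ := by
  have hsq : ‖T.adjoint (T x) - ((K ^ 2 : ℝ) : ℂ) • x‖ ^ 2 ≤ (K * √δ) ^ 2 := by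
    have h1 : ‖T.adjoint (T x) - ((K ^ 2 : ℝ) : ℂ) • x‖ ^ 2 =
        ‖T.adjoint (T x)‖ ^ 2 - 2 * (⟪T.adjoint (T x), ((K ^ 2 : ℝ) : ℂ) • x⟫_ℂ).re
          + ‖((K ^ 2 : ℝ) : ℂ) • x‖ ^ 2 :=
      norm_sub_sq (𝕜 := ℂ) (T.adjoint (T x)) (((K ^ 2 : ℝ) : ℂ) • x)
    have h2 : (⟪T.adjoint (T x), ((K ^ 2 : ℝ) : ℂ) • x⟫_ℂ).re = K ^ 2 * ‖T x‖ ^ 2 := by
      rw [inner_smul_right, ContinuousLinearMap.adjoint_inner_left,
        inner_self_eq_norm_sq_to_K, Complex.re_ofReal_mul]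
      congr 1
      norm_cast
    have h3 : ‖T.adjoint (T x)‖ ≤ K * ‖T x‖ := by
      refine (ContinuousLinearMap.le_opNorm _ _).trans ?_
      rw [LinearIsometryEquiv.norm_map]
      exact mul_le_mul_of_nonneg_right hT (norm_nonneg _)
    have h4 : ‖((K ^ 2 : ℝ) : ℂ) • x‖ ≤ K ^ 2 := by
      rw [norm_smul, Complex.norm_real, Real.norm_of_nonneg (by positivity)]
      nlinarith [norm_nonneg x, sq_nonneg K]
    have h5 : ‖T.adjoint (T x)‖ ^ 2 ≤ K ^ 2 * ‖T x‖ ^ 2 := by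
      rw [← mul_pow]; exact pow_le_pow_left₀ (norm_nonneg _) h3 2
    have h6 : ‖((K ^ 2 : ℝ) : ℂ) • x‖ ^ 2 ≤ (K ^ 2) ^ 2 := pow_le_pow_left₀ (norm_nonneg _) h4 2
    rw [h1, h2, mul_pow, Real.sq_sqrt hδ]
    nlinarith [mul_le_mul_of_nonneg_left hTx (sq_nonneg K)]
  exact le_of_sq_le_sq hsq (by positivity)

lemma near3_exists [CompleteSpace H] {A : H →L[ℂ] H} {Om : Set ℂ} {K δ : ℝ} (hK0 : 0 < K)
    (hδ : 0 < δ) (hne : ∀ r > 0, ∃ p : ℂ[X], Bdd Om 1 p ∧ K - r ≤ ‖aeval A p‖) :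
    ∃ (f : ℂ[X]) (x : H), Bdd Om 1 f ∧ ‖x‖ ≤ 1 ∧ K ^ 2 - δ ≤ ‖aeval A f x‖ ^ 2 := by
  obtain ⟨r, hr0, hrK, hr⟩ : ∃ r : ℝ, 0 < r ∧ r ≤ K / 2 ∧ 4 * K * r ≤ δ := by
    refine ⟨min (K / 2) (δ / (4 * K)), by positivity, min_le_left _ _, ?_⟩
    calc 4 * K * min (K / 2) (δ / (4 * K)) ≤ 4 * K * (δ / (4 * K)) :=
          mul_le_mul_of_nonneg_left (min_le_right _ _) (by positivity)
      _ = δ := by field_simp
  obtain ⟨f, hf, hfK⟩ := hne r hr0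
  obtain ⟨x, hx1, hx2⟩ := ContinuousLinearMap.exists_lt_apply_of_lt_opNorm (aeval A f)
    (r := K - 2 * r) (by linarith)
  refine ⟨f, x, hf, hx1.le, ?_⟩
  have h1 : (K - 2 * r) ^ 2 ≤ ‖aeval A f x‖ ^ 2 := pow_le_pow_left₀ (by linarith) hx2.le 2
  nlinarith

/-- The quantity `⟪x, w_n(A) x⟫` with `w_n = f ^ n * α (f ^ n)`, up to sign. -/
noncomputable def bq (A : H →L[ℂ] H) (α : ℂ[X] → ℂ[X]) (f : ℂ[X]) (x : H) (n : ℕ) : ℝ :=
  -(⟪x, aeval A (f ^ n * α (f ^ n)) x⟫_ℂ).re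

lemma aeval_mul_app (A : H →L[ℂ] H) (p q : ℂ[X]) (x : H) :
    aeval A (p * q) x = aeval A p (aeval A q x) := by
  rw [map_mul]; rfl

lemma aeval_comm_app (A : H →L[ℂ] H) (p q : ℂ[X]) (x : H) :
    aeval A p (aeval A q x) = aeval A q (aeval A p x) := by
  rw [← aeval_mul_app, mul_comm, aeval_mul_app]

/-- The exchange relation. -/
lemma exchange [CompleteSpace H] {A : H →L[ℂ] H} {f v : ℂ[X]} {x : H} {K δ B : ℝ} (hK0 : 0 ≤ K)
    (hδ : 0 ≤ δ) (hT : ‖aeval A f‖ ≤ K) (hx : ‖x‖ ≤ 1) (hTx : K ^ 2 - δ ≤ ‖aeval A f x‖ ^ 2)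
    (hv : ‖aeval A v‖ ≤ B) :
    |(⟪aeval A f x, aeval A v (aeval A f x)⟫_ℂ).re - K ^ 2 * (⟪x, aeval A v x⟫_ℂ).re|
      ≤ K * √δ * B := by
  have h1 := near_vec hK0 hδ hT hx hTx
  have h2 : (⟪aeval A f x, aeval A v (aeval A f x)⟫_ℂ).re - K ^ 2 * (⟪x, aeval A v x⟫_ℂ).re
      = (⟪(aeval A f).adjoint (aeval A f x) - ((K ^ 2 : ℝ) : ℂ) • x, aeval A v x⟫_ℂ).re := by
    rw [aeval_comm_app, inner_sub_left, inner_smul_left, ContinuousLinearMap.adjoint_inner_left,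
      Complex.conj_ofReal, Complex.sub_re, Complex.re_ofReal_mul]
  rw [h2]
  refine (Complex.abs_re_le_norm _).trans ((norm_inner_le_norm _ _).trans ?_)
  have h3 : ‖aeval A v x‖ ≤ B := by
    refine (ContinuousLinearMap.le_opNorm _ _).trans ?_
    calc ‖aeval A v‖ * ‖x‖ ≤ ‖aeval A v‖ * 1 := mul_le_mul_of_nonneg_left hx (norm_nonneg _)
      _ ≤ B := by rw [mul_one]; exact hv
  exact mul_le_mul h1 h3 (norm_nonneg _) (by positivity)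

/-- The three-vector inequality, written out. -/
lemma three_raw {A : H →L[ℂ] H} {Om : Set ℂ} {ε : ℝ} {α : ℂ[X] → ℂ[X]} (S : Sys3 A Om ε α)
    {f : ℂ[X]} (hf : Bdd Om 1 f) (x : H) (n : ℕ) :
    0 ≤ 2 * ‖x‖ ^ 2 - 1 / 2 * ‖aeval A f x‖ ^ 2 + bq A α f x 1 + bq A α f x (n + 1)
      + 1 / 2 * (⟪aeval A f x, aeval A (f ^ n * α (f ^ n)) (aeval A f x)⟫_ℂ).re
      + ε * (‖x‖ + 1 / 2 * ‖aeval A f x‖ + 1 / 2 * ‖aeval A (f ^ (n + 1)) x‖) ^ 2 := by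
  have key := S.cp f (f ^ n) hf (hf.pow n) x ((-(1 / 2 : ℝ) : ℂ) • aeval A f x)
    ((-(1 / 2 : ℝ) : ℂ) • aeval A (f ^ (n + 1)) x)
  have hc : ‖(-(1 / 2 : ℝ) : ℂ)‖ = 1 / 2 := by
    rw [norm_neg, Complex.norm_real]; norm_num
  have hcc : conj (-(1 / 2 : ℝ) : ℂ) = (-(1 / 2 : ℝ) : ℂ) := by
    rw [map_neg, Complex.conj_ofReal]
  have hpow : f * f ^ n = f ^ (n + 1) := by ring
  rw [hpow] at key
  have e1 : (⟪aeval A f x, aeval A f x⟫_ℂ).re = ‖aeval A f x‖ ^ 2 := by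
    rw [inner_self_eq_norm_sq_to_K]; norm_cast
  have e2 : (⟪aeval A (f ^ (n + 1)) x, aeval A (f ^ (n + 1)) x⟫_ℂ).re
      = ‖aeval A (f ^ (n + 1)) x‖ ^ 2 := by
    rw [inner_self_eq_norm_sq_to_K]; norm_cast
  have e3 : aeval A (f ^ n) (aeval A f x) = aeval A (f ^ (n + 1)) x := by
    rw [← aeval_mul_app, pow_succ]
  have e4 : aeval A (α f) (aeval A f x) = aeval A (f ^ 1 * α (f ^ 1)) x := by
    rw [← aeval_mul_app, pow_one, mul_comm]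
  have e5 : aeval A (α (f ^ n)) (aeval A (f ^ (n + 1)) x)
      = aeval A (f ^ n * α (f ^ n)) (aeval A f x) := by
    rw [← e3, ← aeval_mul_app, mul_comm]
  have e6 : aeval A (α (f ^ (n + 1))) (aeval A (f ^ (n + 1)) x)
      = aeval A (f ^ (n + 1) * α (f ^ (n + 1))) x := by
    rw [← aeval_mul_app, mul_comm]
  simp only [norm_smul, hc, inner_smul_left, inner_smul_right, hcc, map_smul, e3, e4, e5, e6,
    Complex.add_re] at key
  have hr : ∀ z : ℂ, ((-(1 / 2 : ℝ) : ℂ) * z).re = -(1 / 2) * z.re := by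
    intro z
    rw [← Complex.ofReal_neg, Complex.re_ofReal_mul]
  simp only [hr, e1, e2] at key
  unfold bq
  nlinarith [key]

/-- The two-vector inequality, written out. -/
lemma two_raw {A : H →L[ℂ] H} {Om : Set ℂ} {ε : ℝ} {α : ℂ[X] → ℂ[X]} (S : Sys3 A Om ε α)
    {f : ℂ[X]} (hf : Bdd Om 1 f) (x : H) :
    0 ≤ 2 * ‖x‖ ^ 2 - 1 / 2 * ‖aeval A f x‖ ^ 2 + bq A α f x 1
      + ε * (‖x‖ + 1 / 2 * ‖aeval A f x‖) ^ 2 := by
  have key := S.cp f f hf hf x ((-(1 / 2 : ℝ) : ℂ) • aeval A f x) 0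
  have hc : ‖(-(1 / 2 : ℝ) : ℂ)‖ = 1 / 2 := by
    rw [norm_neg, Complex.norm_real]; norm_num
  have hcc : conj (-(1 / 2 : ℝ) : ℂ) = (-(1 / 2 : ℝ) : ℂ) := by
    rw [map_neg, Complex.conj_ofReal]
  have e1 : (⟪aeval A f x, aeval A f x⟫_ℂ).re = ‖aeval A f x‖ ^ 2 := by
    rw [inner_self_eq_norm_sq_to_K]; norm_cast
  have e4 : aeval A (α f) (aeval A f x) = aeval A (f ^ 1 * α (f ^ 1)) x := by
    rw [← aeval_mul_app, pow_one, mul_comm]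
  simp only [norm_smul, hc, inner_smul_left, inner_smul_right, hcc, map_smul, e4, map_zero,
    inner_zero_left, inner_zero_right, Complex.add_re, Complex.zero_re, norm_zero] at key
  have hr : ∀ z : ℂ, ((-(1 / 2 : ℝ) : ℂ) * z).re = -(1 / 2) * z.re := by
    intro z
    rw [← Complex.ofReal_neg, Complex.re_ofReal_mul]
  simp only [hr, e1, Complex.zero_re, mul_zero, add_zero] at key
  unfold bq
  nlinarith [key]

/-- The numbers `b_n` are bounded. -/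
lemma bq_abs_le [CompleteSpace H] {A : H →L[ℂ] H} {Om : Set ℂ} {K ε δ : ℝ}
    {α : ℂ[X] → ℂ[X]} (S : Sys3 A Om ε α) (hK0 : 0 < K) (hK : SpecBd A Om K) (hε : 0 ≤ ε)
    (hε1 : ε ≤ 1) (hδ : 0 ≤ δ) (hδ1 : δ ≤ 1) {f : ℂ[X]} (hf : Bdd Om 1 f) {x : H} (hx : ‖x‖ ≤ 1)
    (hTx : K ^ 2 - δ ≤ ‖aeval A f x‖ ^ 2) (n : ℕ) : |bq A α f x n| ≤ 4 := by
  set w : ℂ[X] := f ^ n * α (f ^ n) with hw
  have hwB : Bdd Om (1 + ε) w := by
    have := (hf.pow n).mul zero_le_one (S.bound _ (hf.pow n))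
    rwa [one_mul] at this
  have hwK : ‖aeval A w‖ ≤ K * (1 + ε) := hK.scaled hK0.le (by linarith) hwB
  have hex := exchange hK0.le hδ (hK f hf) hx hTx hwK
  have hTxK : ‖aeval A f x‖ ≤ K := by
    refine (ContinuousLinearMap.le_opNorm _ _).trans ?_
    calc ‖aeval A f‖ * ‖x‖ ≤ K * 1 := mul_le_mul (hK f hf) hx (norm_nonneg _) hK0.le
      _ = K := mul_one K
  have hfw : ‖aeval A (w * f)‖ ≤ K * (1 + ε) := by
    refine hK.scaled hK0.le (by linarith) ?_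
    have := hwB.mul (by linarith) hf
    rwa [mul_one] at this
  have h1 : |(⟪aeval A f x, aeval A w (aeval A f x)⟫_ℂ).re| ≤ K * (K * (1 + ε)) := by
    rw [← aeval_mul_app]
    refine (Complex.abs_re_le_norm _).trans ((norm_inner_le_norm _ _).trans ?_)
    have h3 : ‖aeval A (w * f) x‖ ≤ K * (1 + ε) := by
      refine (ContinuousLinearMap.le_opNorm _ _).trans ?_
      calc ‖aeval A (w * f)‖ * ‖x‖ ≤ ‖aeval A (w * f)‖ * 1 :=
            mul_le_mul_of_nonneg_left hx (norm_nonneg _)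
        _ ≤ K * (1 + ε) := by rw [mul_one]; exact hfw
    exact mul_le_mul hTxK h3 (norm_nonneg _) hK0.le
  have hs1 : √δ ≤ 1 := Real.sqrt_le_iff.2 ⟨zero_le_one, by simpa using hδ1⟩
  have h4 : K * √δ * (K * (1 + ε)) ≤ K ^ 2 * 2 := by
    have : √δ * (1 + ε) ≤ 1 * 2 := mul_le_mul hs1 (by linarith) (by linarith) zero_le_one
    nlinarith [mul_le_mul_of_nonneg_left this (sq_nonneg K)]
  have h5 : K * (K * (1 + ε)) ≤ K ^ 2 * 2 := by nlinarith [sq_nonneg K]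
  have h6 : K ^ 2 * |(⟪x, aeval A w x⟫_ℂ).re| ≤ K ^ 2 * 4 := by
    have h7 := abs_sub_abs_le_abs_sub (K ^ 2 * (⟪x, aeval A w x⟫_ℂ).re)
      ((⟪aeval A f x, aeval A w (aeval A f x)⟫_ℂ).re)
    rw [abs_sub_comm, abs_mul, abs_of_nonneg (sq_nonneg K)] at h7
    linarith
  have h7 : |(⟪x, aeval A w x⟫_ℂ).re| ≤ 4 := le_of_mul_le_mul_left h6 (by positivity)
  unfold bq
  rw [abs_neg]
  exact h7

/-- The recursion. -/
lemma bq_rec [CompleteSpace H] {A : H →L[ℂ] H} {Om : Set ℂ} {K ε δ : ℝ}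
    {α : ℂ[X] → ℂ[X]} (S : Sys3 A Om ε α) (hK0 : 0 < K) (hK : SpecBd A Om K) (hε : 0 ≤ ε)
    (hε1 : ε ≤ 1) (hδ : 0 ≤ δ) {f : ℂ[X]} (hf : Bdd Om 1 f) {x : H} (hx : ‖x‖ ≤ 1)
    (hTx : K ^ 2 - δ ≤ ‖aeval A f x‖ ^ 2) (n : ℕ) :
    K ^ 2 / 2 * bq A α f x n - bq A α f x 1 + (K ^ 2 / 2 - 2)
      - (δ / 2 + K ^ 2 * √δ + ε * (1 + K) ^ 2) ≤ bq A α f x (n + 1) := by
  have key := three_raw S hf x n
  set w : ℂ[X] := f ^ n * α (f ^ n) with hw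
  have hwB : Bdd Om (1 + ε) w := by
    have := (hf.pow n).mul zero_le_one (S.bound _ (hf.pow n))
    rwa [one_mul] at this
  have hwK : ‖aeval A w‖ ≤ K * (1 + ε) := hK.scaled hK0.le (by linarith) hwB
  have hex := (abs_le.1 (exchange hK0.le hδ (hK f hf) hx hTx hwK)).2
  have hb : bq A α f x n = -(⟪x, aeval A w x⟫_ℂ).re := rfl
  have happ : ∀ g : ℂ[X], Bdd Om 1 g → ‖aeval A g x‖ ≤ K := by
    intro g hg
    refine (ContinuousLinearMap.le_opNorm _ _).trans ?_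
    calc ‖aeval A g‖ * ‖x‖ ≤ K * 1 := mul_le_mul (hK g hg) hx (norm_nonneg _) hK0.le
      _ = K := mul_one K
  have h1 := happ f hf
  have h2 := happ _ (hf.pow (n + 1))
  have h3 : (‖x‖ + 1 / 2 * ‖aeval A f x‖ + 1 / 2 * ‖aeval A (f ^ (n + 1)) x‖) ^ 2
      ≤ (1 + K) ^ 2 := by
    apply pow_le_pow_left₀ (by positivity)
    linarith
  have h4 := mul_le_mul_of_nonneg_left h3 hε
  have h5 : K * √δ * (K * (1 + ε)) ≤ 2 * (K ^ 2 * √δ) := by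
    have : √δ * (1 + ε) ≤ √δ * 2 := mul_le_mul_of_nonneg_left (by linarith) (Real.sqrt_nonneg _)
    nlinarith [mul_le_mul_of_nonneg_left this (sq_nonneg K)]
  have h6 : ‖x‖ ^ 2 ≤ 1 := pow_le_one₀ (norm_nonneg _) hx
  have h7 : K ^ 2 * (⟪x, aeval A w x⟫_ℂ).re = -(K ^ 2 * bq A α f x n) := by rw [hb]; ring
  rw [h7] at hex
  linarith

/-- The initial inequality. -/
lemma bq_one [CompleteSpace H] {A : H →L[ℂ] H} {Om : Set ℂ} {K ε δ : ℝ}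
    {α : ℂ[X] → ℂ[X]} (S : Sys3 A Om ε α) (hK0 : 0 < K) (hK : SpecBd A Om K) (hε : 0 ≤ ε)
    {f : ℂ[X]} (hf : Bdd Om 1 f) {x : H} (hx : ‖x‖ ≤ 1)
    (hTx : K ^ 2 - δ ≤ ‖aeval A f x‖ ^ 2) :
    (K ^ 2 / 2 - 2) - (δ / 2 + ε * (1 + K) ^ 2) ≤ bq A α f x 1 := by
  have key := two_raw S hf x
  have h1 : ‖aeval A f x‖ ≤ K := by
    refine (ContinuousLinearMap.le_opNorm _ _).trans ?_
    calc ‖aeval A f‖ * ‖x‖ ≤ K * 1 := mul_le_mul (hK f hf) hx (norm_nonneg _) hK0.le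
      _ = K := mul_one K
  have h3 : (‖x‖ + 1 / 2 * ‖aeval A f x‖) ^ 2 ≤ (1 + K) ^ 2 := by
    apply pow_le_pow_left₀ (by positivity)
    linarith
  have h4 := mul_le_mul_of_nonneg_left h3 hε
  have h6 : ‖x‖ ^ 2 ≤ 1 := pow_le_one₀ (norm_nonneg _) hx
  linarith

/-- **The best constant of a system with three-vector positivity is at most two.** -/
theorem three_false [CompleteSpace H] {A : H →L[ℂ] H} {Om : Set ℂ} {K : ℝ} (hK2 : 2 < K)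
    (hK : SpecBd A Om K) (hne : ∀ r > 0, ∃ p : ℂ[X], Bdd Om 1 p ∧ K - r ≤ ‖aeval A p‖)
    (hsys : ∀ ε > 0, ∃ α : ℂ[X] → ℂ[X], Sys3 A Om ε α) : False := by
  have hK0 : 0 < K := by linarith
  obtain ⟨d, hd⟩ : ∃ d : ℝ, d = K ^ 2 / 2 - 2 := ⟨_, rfl⟩
  have hd0 : 0 < d := by rw [hd]; nlinarith
  -- choice of the errors
  obtain ⟨s, hs0, hs1, hsE⟩ : ∃ s : ℝ, 0 < s ∧ s ≤ 1 ∧ s * (1 / 2 + K ^ 2) ≤ d / 4 := by
    refine ⟨min 1 (d / 4 / (1 / 2 + K ^ 2)), by positivity, min_le_left _ _, ?_⟩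
    calc min 1 (d / 4 / (1 / 2 + K ^ 2)) * (1 / 2 + K ^ 2)
        ≤ d / 4 / (1 / 2 + K ^ 2) * (1 / 2 + K ^ 2) :=
          mul_le_mul_of_nonneg_right (min_le_right _ _) (by positivity)
      _ = d / 4 := by field_simp
  obtain ⟨ε, hε0, hε1, hεE⟩ : ∃ ε : ℝ, 0 < ε ∧ ε ≤ 1 ∧ ε * (1 + K) ^ 2 ≤ d / 4 := by
    refine ⟨min 1 (d / 4 / (1 + K) ^ 2), by positivity, min_le_left _ _, ?_⟩
    calc min 1 (d / 4 / (1 + K) ^ 2) * (1 + K) ^ 2
        ≤ d / 4 / (1 + K) ^ 2 * (1 + K) ^ 2 :=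
          mul_le_mul_of_nonneg_right (min_le_right _ _) (by positivity)
      _ = d / 4 := by field_simp
  obtain ⟨f, x, hf, hx, hTx⟩ := near3_exists hK0 (show 0 < s ^ 2 by positivity) hne
  obtain ⟨α, S⟩ := hsys ε hε0
  have hss : √(s ^ 2) = s := Real.sqrt_sq hs0.le
  have hs2 : s ^ 2 ≤ s := by nlinarith
  have hs21 : s ^ 2 ≤ 1 := hs2.trans hs1
  have hone := bq_one S hK0 hK hε0.le hf hx hTx
  have hrec : ∀ n, K ^ 2 / 2 * bq A α f x n - bq A α f x 1 + d / 2 ≤ bq A α f x (n + 1) := by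
    intro n
    have := bq_rec S hK0 hK hε0.le hε1 (sq_nonneg s) hf hx hTx n
    rw [hss, ← hd] at this
    have h8 : s ^ 2 / 2 + K ^ 2 * s ≤ s * (1 / 2 + K ^ 2) := by nlinarith
    linarith
  have hb1 : d / 2 ≤ bq A α f x 1 := by
    rw [← hd] at hone
    have h8 : s ^ 2 / 2 ≤ s * (1 / 2 + K ^ 2) := by nlinarith [mul_nonneg hs0.le (sq_nonneg K)]
    linarith
  have hind : ∀ n : ℕ, bq A α f x 1 + n * (d / 2) ≤ bq A α f x (n + 1) := by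
    intro n
    induction n with
    | zero => simp
    | succ n ih =>
      have h9 := hrec (n + 1)
      have h15 : (0 : ℝ) ≤ n * (d / 2) := by positivity
      have h10 : 0 ≤ bq A α f x 1 + n * (d / 2) := by linarith
      have h11 : 0 ≤ bq A α f x (n + 1) := h10.trans ih
      have h12 : 2 * bq A α f x (n + 1) ≤ K ^ 2 / 2 * bq A α f x (n + 1) :=
        mul_le_mul_of_nonneg_right (by nlinarith) h11
      push_cast
      linarith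
  obtain ⟨n, hn⟩ := exists_nat_gt (4 / (d / 2))
  have h13 := hind n
  have h14 := (abs_le.1 (bq_abs_le S hK0 hK hε0.le hε1 (sq_nonneg s) hs21 hf hx hTx (n + 1))).2
  rw [div_lt_iff₀ (by positivity)] at hn
  linarith

end Vale.Agent.P123
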