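import Vale.Agent.P123.Assembly
import Vale.Agent.P123.SysThree
import Vale.Agent.P123.Three

/-!
# P123: Crouzeix's conjecture
-/

open Complex Set
open scoped Real ComplexConjugate Polynomial

namespace Vale.Agent.P123

variable {H : Type*} [NormedAddCommGroup H] [InnerProductSpace ℂ H]

/-- A rotation turns the bound of real parts into a bound of the norm. -/
lemma bound_of_pos {Om : Set ℂ} {ε : ℝ} {α : ℂ[X] → ℂ[X]} (hε : 0 ≤ ε)
    (hsmul : ∀ (c : ℂ) p, α (Polynomial.C c * p) = Polynomial.C (conj c) * α p)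
    (hpos : ∀ (p : ℂ[X]) (M : ℝ), (∀ z ∈ Om, ‖p.eval z‖ ≤ 1) →
        (∀ z ∈ Om, (p.eval z).re ≤ M) → ∀ z ∈ Om, ((α p).eval z).re ≤ M + ε)
    {p : ℂ[X]} (hp : Bdd Om 1 p) : Bdd Om (1 + ε) (α p) := by
  intro z hz
  by_cases h0 : (α p).eval z = 0
  · rw [h0, norm_zero]; linarith
  · set v := (α p).eval z with hv
    have hvn : 0 < ‖v‖ := norm_pos_iff.mpr h0
    set c : ℂ := v / ‖v‖ with hc
    have hc1 : ‖c‖ = 1 := by
      rw [hc, norm_div, Complex.norm_real, norm_norm, div_self hvn.ne']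
    have h1 := hpos (Polynomial.C c * p) 1 (by
      intro z hz
      rw [Polynomial.eval_mul, Polynomial.eval_C, norm_mul, hc1, one_mul]; exact hp z hz) (by
      intro z hz
      refine (Complex.re_le_norm _).trans ?_
      rw [Polynomial.eval_mul, Polynomial.eval_C, norm_mul, hc1, one_mul]; exact hp z hz) z hz
    rw [hsmul, Polynomial.eval_mul, Polynomial.eval_C, ← hv] at h1
    have h2 : (conj c * v) = (‖v‖ : ℂ) := by
      rw [hc, map_div₀, Complex.conj_ofReal, div_mul_eq_mul_div, ← Complex.normSq_eq_conj_mul_self,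
        Complex.normSq_eq_norm_sq]
      push_cast
      rw [sq, mul_div_assoc, div_self (by exact_mod_cast hvn.ne'), mul_one]
    rw [h2, Complex.ofReal_re] at h1
    exact h1

lemma SuppData.exists_sys3 [CompleteSpace H] {h h1 h2 : ℝ → ℝ} (S : SuppData h h1 h2) {m η : ℝ}
    (hm : 0 < m) (hmh : ∀ t, m ≤ h t) (hη : 0 < η) {A : H →L[ℂ] H} (hA : Gap h η A) {ε : ℝ}
    (hε : 0 < ε) : ∃ α : ℂ[X] → ℂ[X], Sys3 A (body h) ε α := by
  obtain ⟨α, hsmul, hpos, hcp⟩ := S.sys3 hm hmh hη hA hε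
  exact ⟨α, fun p hp => bound_of_pos hε.le hsmul hpos hp, hcp⟩

/-- The constant two for smooth convex bodies containing the numerical range at positive depth. -/
theorem SuppData.norm_aeval_le_two [CompleteSpace H] {h h1 h2 : ℝ → ℝ} (S : SuppData h h1 h2)
    {m η : ℝ} (hm : 0 < m) (hmh : ∀ t, m ≤ h t) (hη : 0 < η) {A : H →L[ℂ] H} (hA : Gap h η A)
    (p : ℂ[X]) (hp : ∀ z ∈ body h, ‖p.eval z‖ ≤ 1) : ‖Polynomial.aeval A p‖ ≤ 2 := by
  obtain ⟨K0, hK0⟩ := S.fin hm hmh hη hA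
  set T : Set ℝ := {r | ∃ p : ℂ[X], Bdd (body h) 1 p ∧ ‖Polynomial.aeval A p‖ = r} with hT
  have hbdd : BddAbove T := by
    refine ⟨K0, ?_⟩
    rintro r ⟨p, hp, rfl⟩
    exact hK0 p hp
  have hne : T.Nonempty := ⟨‖Polynomial.aeval A (0 : ℂ[X])‖, 0, by intro z _; simp, rfl⟩
  have hsp : SpecBd A (body h) (sSup T) := fun p hp => le_csSup hbdd ⟨p, hp, rfl⟩
  have hle : sSup T ≤ 2 := by
    by_contra hcon
    push Not at hcon
    refine three_false hcon hsp ?_ (fun ε hε => S.exists_sys3 hm hmh hη hA hε)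
    intro r hr
    obtain ⟨_, ⟨p, hp, rfl⟩, hlt⟩ := exists_lt_of_lt_csSup hne (sub_lt_self (sSup T) hr)
    exact ⟨p, hp, hlt.le⟩
  exact (hsp p hp).trans hle

/-- **Crouzeix's conjecture.** -/
theorem crouzeix [CompleteSpace H] [Nontrivial H] (A : H →L[ℂ] H) (p : ℂ[X]) (M : ℝ)
    (hM : ∀ x : H, ‖x‖ = 1 → ‖p.eval (inner ℂ x (A x))‖ ≤ M) :
    ‖Polynomial.aeval A p‖ ≤ 2 * M :=
  assemble (fun _ _ _ _ _ _ S hm hmh hη hA p hp => S.norm_aeval_le_two hm hmh hη hA p hp) A p M hM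

end Vale.Agent.P123
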