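import Vale.Agent.P123.Curve

/-!
# P123: Cauchy's formula for polynomials of an element of a Banach algebra
-/

open Complex MeasureTheory Set Filter Topology
open scoped Real ComplexConjugate

namespace Vale.Agent.P123

set_option linter.unusedSectionVars false

variable {R : Type*} [NormedRing R] [NormedAlgebra ℂ R] [CompleteSpace R]
variable {h h1 h2 : ℝ → ℝ}

/-- The resolvent along the curve. -/
noncomputable def res (h h1 : ℝ → ℝ) (a : R) (t : ℝ) : R :=
  Ring.inverse (algebraMap ℂ R (bd h h1 t) - a)

lemma hasDerivAt_ringInverse {f : ℝ → R} {f' : R} {t : ℝ} (hf : HasDerivAt f f' t)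
    (hu : IsUnit (f t)) :
    HasDerivAt (fun s => Ring.inverse (f s))
      (-(Ring.inverse (f t) * f' * Ring.inverse (f t))) t := by
  obtain ⟨u, hu'⟩ := hu
  have h0 : HasFDerivAt (𝕜 := ℝ) Ring.inverse
      (-ContinuousLinearMap.mulLeftRight ℝ R ↑u⁻¹ ↑u⁻¹) (f t) := by
    rw [← hu']; exact hasFDerivAt_ringInverse u
  have := h0.comp_hasDerivAt t hf
  refine this.congr_deriv ?_
  rw [← hu', Ring.inverse_unit]
  simp

lemma continuous_ringInverse_comp {X : Type*} [TopologicalSpace X] {f : X → R}
    (hf : Continuous f) (hu : ∀ x, IsUnit (f x)) : Continuous fun x => Ring.inverse (f x) := by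
  rw [continuous_iff_continuousAt]
  intro x
  obtain ⟨u, hu'⟩ := hu x
  have := NormedRing.inverse_continuousAt u
  rw [hu'] at this
  exact ContinuousAt.comp this hf.continuousAt

lemma commute_ringInverse {a b : R} (hab : Commute a b) : Commute a (Ring.inverse b) := by
  by_cases hb : IsUnit b
  · obtain ⟨u, rfl⟩ := hb
    rw [Ring.inverse_unit]
    exact Commute.units_inv_right hab
  · rw [Ring.inverse_non_unit _ hb]
    exact Commute.zero_right a

/-- The resolvent of `s • a` along the curve. -/
noncomputable def resS (h h1 : ℝ → ℝ) (a : R) (s t : ℝ) : R :=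
  Ring.inverse (algebraMap ℂ R (bd h h1 t) - s • a)

section
variable (S : SuppData h h1 h2) (a : R)
include S

lemma SuppData.hasDerivAt_alg (t : ℝ) (b : R) :
    HasDerivAt (fun t => algebraMap ℂ R (bd h h1 t) - b) ((I * tng h h2 t) • (1 : R)) t := by
  have h0 : HasDerivAt (fun t => (bd h h1 t) • (1 : R) - b) ((I * tng h h2 t) • (1 : R)) t :=
    ((S.hasDerivAt_bd t).smul_const (1 : R)).sub_const b
  simpa only [Algebra.algebraMap_eq_smul_one] using h0

lemma SuppData.hasDerivAt_resS_t {s t : ℝ}
    (hu : IsUnit (algebraMap ℂ R (bd h h1 t) - s • a)) :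
    HasDerivAt (fun t => resS h h1 a s t)
      (-((I * tng h h2 t) • (resS h h1 a s t * resS h h1 a s t))) t := by
  have := hasDerivAt_ringInverse (S.hasDerivAt_alg t (s • a)) hu
  refine this.congr_deriv ?_
  simp [resS]

omit S in
lemma hasDerivAt_resS_s {s t : ℝ} (hu : IsUnit (algebraMap ℂ R (bd h h1 t) - s • a)) :
    HasDerivAt (fun s => resS h h1 a s t) (resS h h1 a s t * a * resS h h1 a s t) s := by
  have h0 : HasDerivAt (fun s : ℝ => algebraMap ℂ R (bd h h1 t) - s • a) (-a) s := by
    have := ((hasDerivAt_id s).smul_const a).const_sub (algebraMap ℂ R (bd h h1 t))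
    simpa using this
  have := hasDerivAt_ringInverse h0 hu
  refine this.congr_deriv ?_
  simp [resS]

omit S in
lemma commute_resS (s t : ℝ) : Commute a (resS h h1 a s t) := by
  apply commute_ringInverse
  apply Commute.sub_right
  · exact (Algebra.commute_algebraMap_left _ _).symm
  · exact (Commute.refl a).smul_right s

lemma SuppData.continuousOn_resS
    (hu : ∀ s ∈ Icc (0 : ℝ) 1, ∀ t, IsUnit (algebraMap ℂ R (bd h h1 t) - s • a)) :
    ContinuousOn (fun p : ℝ × ℝ => resS h h1 a p.1 p.2) (Icc 0 1 ×ˢ univ) := by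
  intro p hp
  obtain ⟨u, hu'⟩ := hu p.1 hp.1 p.2
  have h0 := NormedRing.inverse_continuousAt u
  rw [hu'] at h0
  have hc : Continuous fun p : ℝ × ℝ => algebraMap ℂ R (bd h h1 p.2) - p.1 • a := by
    have := S.cont_bd
    have h2 : Continuous (algebraMap ℂ R) := continuous_algebraMap ℂ R
    fun_prop
  exact (ContinuousAt.comp (f := fun p : ℝ × ℝ => algebraMap ℂ R (bd h h1 p.2) - p.1 • a)
    h0 hc.continuousAt).continuousWithinAt

lemma SuppData.bd_two_pi : bd h h1 (2 * π) = bd h h1 0 := by
  have := S.bd_per 0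
  rwa [zero_add] at this

/-- Inner integral vanishes. -/
lemma SuppData.integral_resS_sq {s : ℝ}
    (hu : ∀ t, IsUnit (algebraMap ℂ R (bd h h1 t) - s • a)) :
    ∫ t in (0 : ℝ)..(2 * π), (I * tng h h2 t) • (resS h h1 a s t * resS h h1 a s t) = 0 := by
  have hc : Continuous (fun t => resS h h1 a s t) := by
    refine continuous_ringInverse_comp ?_ hu
    have := S.cont_bd
    have h2 : Continuous (algebraMap ℂ R) := continuous_algebraMap ℂ R
    fun_prop
  have h0 : ∫ t in (0 : ℝ)..(2 * π), -((I * tng h h2 t) • (resS h h1 a s t * resS h h1 a s t))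
      = resS h h1 a s (2 * π) - resS h h1 a s 0 := by
    apply intervalIntegral.integral_eq_sub_of_hasDerivAt
    · intro t _
      exact S.hasDerivAt_resS_t a (hu t)
    · apply Continuous.intervalIntegrable
      have := S.cont_tng
      fun_prop
  rw [intervalIntegral.integral_neg] at h0
  have h3 : resS h h1 a s (2 * π) = resS h h1 a s 0 := by
    simp only [resS, S.bd_two_pi]
  rw [h3, sub_self, neg_eq_zero] at h0
  exact h0

lemma SuppData.cauchy_one (hp : ∀ t, 0 < h t)
    (hu : ∀ s ∈ Icc (0 : ℝ) 1, ∀ t, IsUnit (algebraMap ℂ R (bd h h1 t) - s • a)) :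
    ∫ t in (0 : ℝ)..(2 * π), tng h h2 t • res h h1 a t = (2 * π : ℂ) • (1 : R) := by
  have hct := S.cont_tng
  -- fundamental theorem in the parameter `s`
  have hs : ∀ t, ∫ s in (0 : ℝ)..1, resS h h1 a s t * a * resS h h1 a s t
      = resS h h1 a 1 t - resS h h1 a 0 t := by
    intro t
    refine intervalIntegral.integral_eq_sub_of_hasDerivAt (f := fun s => resS h h1 a s t) ?_ ?_
    · intro s hs
      rw [uIcc_of_le zero_le_one] at hs
      exact hasDerivAt_resS_s a (hu s hs t)
    · apply ContinuousOn.intervalIntegrable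
      rw [uIcc_of_le zero_le_one]
      have : ContinuousOn (fun s => resS h h1 a s t) (Icc 0 1) := by
        have := S.continuousOn_resS a hu
        exact this.comp (f := fun s : ℝ => (s, t)) (by fun_prop) (fun s hs => ⟨hs, mem_univ _⟩)
      exact (this.mul continuousOn_const).mul this
  have hswap : ∫ t in (0 : ℝ)..(2 * π), ∫ s in (0 : ℝ)..1,
        (I * tng h h2 t) • (resS h h1 a s t * a * resS h h1 a s t)
      = ∫ s in (0 : ℝ)..1, ∫ t in (0 : ℝ)..(2 * π),
        (I * tng h h2 t) • (resS h h1 a s t * a * resS h h1 a s t) := by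
    symm
    apply MeasureTheory.intervalIntegral_intervalIntegral_swap
    have hco : ContinuousOn (Function.uncurry fun s t =>
        (I * tng h h2 t) • (resS h h1 a s t * a * resS h h1 a s t))
        (Icc (0 : ℝ) 1 ×ˢ Icc (0 : ℝ) (2 * π)) := by
      have hc1 : ContinuousOn (fun p : ℝ × ℝ => resS h h1 a p.1 p.2)
          (Icc (0 : ℝ) 1 ×ˢ Icc (0 : ℝ) (2 * π)) :=
        (S.continuousOn_resS a hu).mono (prod_mono (subset_refl _) (subset_univ _))
      have hc2 : ContinuousOn (fun p : ℝ × ℝ => I * tng h h2 p.2)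
          (Icc (0 : ℝ) 1 ×ˢ Icc (0 : ℝ) (2 * π)) := by fun_prop
      exact hc2.smul ((hc1.mul continuousOn_const).mul hc1)
    have := hco.integrableOn_compact (isCompact_Icc.prod isCompact_Icc) (μ := volume)
    refine this.mono_set ?_
    rw [uIoc_of_le zero_le_one, uIoc_of_le (by positivity)]
    exact prod_mono Ioc_subset_Icc_self Ioc_subset_Icc_self
  have hz : ∫ s in (0 : ℝ)..1, ∫ t in (0 : ℝ)..(2 * π),
        (I * tng h h2 t) • (resS h h1 a s t * a * resS h h1 a s t) = 0 := by
    rw [intervalIntegral.integral_congr (g := fun _ => (0 : R))]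
    · simp
    · intro s hs
      rw [uIcc_of_le zero_le_one] at hs
      simp only
      have e : ∀ t, (I * tng h h2 t) • (resS h h1 a s t * a * resS h h1 a s t)
          = a * ((I * tng h h2 t) • (resS h h1 a s t * resS h h1 a s t)) := by
        intro t
        rw [← (commute_resS (h := h) (h1 := h1) a s t).eq, mul_assoc, mul_smul_comm]
      simp only [e]
      have hc : Continuous (fun t => resS h h1 a s t) := by
        refine continuous_ringInverse_comp ?_ (hu s hs)
        have := S.cont_bd
        have h2 : Continuous (algebraMap ℂ R) := continuous_algebraMap ℂ R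
        fun_prop
      have hi : IntervalIntegrable
          (fun t => (I * tng h h2 t) • (resS h h1 a s t * resS h h1 a s t)) volume 0 (2 * π) := by
        apply Continuous.intervalIntegrable
        fun_prop
      have := ((ContinuousLinearMap.mul ℝ R) a).intervalIntegral_comp_comm hi
      simp only [ContinuousLinearMap.mul_apply'] at this
      rw [this, S.integral_resS_sq a (hu s hs), mul_zero]
  rw [hz] at hswap
  have h5 : ∫ t in (0 : ℝ)..(2 * π), (I * tng h h2 t) • (resS h h1 a 1 t - resS h h1 a 0 t) = 0 := by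
    rw [← hswap]
    apply intervalIntegral.integral_congr
    intro t _
    simp only
    rw [intervalIntegral.integral_smul, hs t]
  have hc1 : Continuous (fun t => resS h h1 a 1 t) := by
    refine continuous_ringInverse_comp ?_ (hu 1 ⟨zero_le_one, le_refl _⟩)
    have := S.cont_bd
    have h2 : Continuous (algebraMap ℂ R) := continuous_algebraMap ℂ R
    fun_prop
  have hc0 : Continuous (fun t => resS h h1 a 0 t) := by
    refine continuous_ringInverse_comp ?_ (hu 0 ⟨le_refl _, zero_le_one⟩)
    have := S.cont_bd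
    have h2 : Continuous (algebraMap ℂ R) := continuous_algebraMap ℂ R
    fun_prop
  have e0 : ∀ t, tng h h2 t • resS h h1 a 0 t = (tng h h2 t / bd h h1 t) • (1 : R) := by
    intro t
    have hne := bd_ne_zero (h1 := h1) (hp t)
    have : resS h h1 a 0 t = (bd h h1 t)⁻¹ • (1 : R) := by
      unfold resS
      rw [zero_smul, sub_zero]
      have : algebraMap ℂ R (bd h h1 t) * ((bd h h1 t)⁻¹ • (1 : R)) = 1 := by
        rw [Algebra.algebraMap_eq_smul_one, smul_mul_smul_comm, mul_inv_cancel₀ hne, mul_one,
          one_smul]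
      have h6 : IsUnit (algebraMap ℂ R (bd h h1 t)) := (IsUnit.mk0 _ hne).map (algebraMap ℂ R)
      calc Ring.inverse (algebraMap ℂ R (bd h h1 t))
          = Ring.inverse (algebraMap ℂ R (bd h h1 t)) *
            (algebraMap ℂ R (bd h h1 t) * ((bd h h1 t)⁻¹ • (1 : R))) := by rw [this, mul_one]
        _ = _ := by rw [← mul_assoc, Ring.inverse_mul_cancel _ h6, one_mul]
    rw [this, smul_smul, div_eq_mul_inv]
  have e1 : ∀ t, tng h h2 t • res h h1 a t
      = (-I) • ((I * tng h h2 t) • (resS h h1 a 1 t - resS h h1 a 0 t))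
        + (tng h h2 t / bd h h1 t) • (1 : R) := by
    intro t
    have : resS h h1 a 1 t = res h h1 a t := by simp [resS, res]
    rw [← e0 t, this, smul_smul, ← mul_assoc, neg_mul, Complex.I_mul_I, neg_neg, one_mul,
      ← smul_add]
    congr 1
    abel
  simp only [e1]
  rw [intervalIntegral.integral_add, intervalIntegral.integral_smul, h5, smul_zero, zero_add,
    intervalIntegral.integral_smul_const, S.winding hp]
  · apply Continuous.intervalIntegrable
    fun_prop
  · apply Continuous.intervalIntegrable
    exact (S.cont_tng.div S.cont_bd fun t => bd_ne_zero (hp t)).smul continuous_const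

lemma SuppData.integral_pow_tng (n : ℕ) :
    ∫ t in (0 : ℝ)..(2 * π), tng h h2 t * bd h h1 t ^ n = 0 := by
  have hd : ∀ t, HasDerivAt (fun t => (-I / (n + 1)) * bd h h1 t ^ (n + 1))
      (tng h h2 t * bd h h1 t ^ n) t := by
    intro t
    have := ((S.hasDerivAt_bd t).pow (n + 1)).const_mul (-I / ((n : ℂ) + 1))
    refine this.congr_deriv ?_
    have hn : (n : ℂ) + 1 ≠ 0 := Nat.cast_add_one_ne_zero n
    push_cast
    field_simp
    linear_combination (-(tng h h2 t * bd h h1 t ^ n)) * Complex.I_sq
  rw [intervalIntegral.integral_eq_sub_of_hasDerivAt (fun t _ => hd t)]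
  · rw [S.bd_two_pi, sub_self]
  · apply Continuous.intervalIntegrable
    exact S.cont_tng.mul (S.cont_bd.pow n)

/-- The element `a` is such that the whole segment `[0,1] • a` avoids the curve. -/
lemma SuppData.continuous_res
    (hu : ∀ t, IsUnit (algebraMap ℂ R (bd h h1 t) - a)) : Continuous (res h h1 a) := by
  refine continuous_ringInverse_comp ?_ hu
  have := S.cont_bd
  have h2 : Continuous (algebraMap ℂ R) := continuous_algebraMap ℂ R
  fun_prop

lemma SuppData.cauchy_pow (hp : ∀ t, 0 < h t)
    (hu : ∀ s ∈ Icc (0 : ℝ) 1, ∀ t, IsUnit (algebraMap ℂ R (bd h h1 t) - s • a)) (n : ℕ) :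
    ∫ t in (0 : ℝ)..(2 * π), (tng h h2 t * bd h h1 t ^ n) • res h h1 a t
      = (2 * π : ℂ) • a ^ n := by
  have hu1 : ∀ t, IsUnit (algebraMap ℂ R (bd h h1 t) - a) := by
    intro t
    have := hu 1 ⟨zero_le_one, le_refl _⟩ t
    rwa [one_smul] at this
  have hcr := S.continuous_res a hu1
  have hct := S.cont_tng
  have hcb := S.cont_bd
  induction n with
  | zero => simpa using S.cauchy_one a hp hu
  | succ n ih =>
    have e : ∀ t, (tng h h2 t * bd h h1 t ^ (n + 1)) • res h h1 a t
        = (tng h h2 t * bd h h1 t ^ n) • (1 : R)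
          + a * ((tng h h2 t * bd h h1 t ^ n) • res h h1 a t) := by
      intro t
      have h6 : (algebraMap ℂ R (bd h h1 t) - a) * res h h1 a t = 1 :=
        Ring.mul_inverse_cancel _ (hu1 t)
      have h7 : (bd h h1 t) • res h h1 a t = 1 + a * res h h1 a t := by
        rw [sub_mul, ← Algebra.smul_def] at h6
        rw [← h6]; abel
      rw [pow_succ, ← mul_assoc, mul_smul, h7, smul_add, mul_smul_comm]
    have hi : IntervalIntegrable
        (fun t => (tng h h2 t * bd h h1 t ^ n) • res h h1 a t) volume 0 (2 * π) := by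
      apply Continuous.intervalIntegrable
      fun_prop
    have hm := ((ContinuousLinearMap.mul ℝ R) a).intervalIntegral_comp_comm hi
    simp only [ContinuousLinearMap.mul_apply'] at hm
    simp only [e]
    rw [intervalIntegral.integral_add, hm, ih, intervalIntegral.integral_smul_const,
      S.integral_pow_tng, zero_smul, zero_add, pow_succ', mul_smul_comm]
    · apply Continuous.intervalIntegrable
      fun_prop
    · apply Continuous.intervalIntegrable
      fun_prop

/-- Cauchy's formula for polynomials of an element of a Banach algebra. -/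
lemma SuppData.cauchy_poly (hp : ∀ t, 0 < h t)
    (hu : ∀ s ∈ Icc (0 : ℝ) 1, ∀ t, IsUnit (algebraMap ℂ R (bd h h1 t) - s • a))
    (F : Polynomial ℂ) :
    ∫ t in (0 : ℝ)..(2 * π), (tng h h2 t * F.eval (bd h h1 t)) • res h h1 a t
      = (2 * π : ℂ) • Polynomial.aeval a F := by
  have hu1 : ∀ t, IsUnit (algebraMap ℂ R (bd h h1 t) - a) := by
    intro t
    have := hu 1 ⟨zero_le_one, le_refl _⟩ t
    rwa [one_smul] at this
  have hcr := S.continuous_res a hu1
  have hct := S.cont_tng
  have hcb := S.cont_bd
  induction F using Polynomial.induction_on' with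
  | add p q hp hq =>
    simp only [Polynomial.eval_add, mul_add, add_smul]
    rw [intervalIntegral.integral_add, hp, hq, map_add, smul_add]
    · apply Continuous.intervalIntegrable
      exact (hct.mul (p.continuous.comp hcb)).smul hcr
    · apply Continuous.intervalIntegrable
      exact (hct.mul (q.continuous.comp hcb)).smul hcr
  | monomial n c =>
    simp only [Polynomial.eval_monomial, Polynomial.aeval_monomial]
    have e : ∀ t, (tng h h2 t * (c * bd h h1 t ^ n)) • res h h1 a t
        = c • ((tng h h2 t * bd h h1 t ^ n) • res h h1 a t) := by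
      intro t
      rw [smul_smul]; ring_nf
    simp only [e]
    rw [intervalIntegral.integral_smul, S.cauchy_pow a hp hu, ← Algebra.smul_def, smul_comm]

end

end Vale.Agent.P123
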