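import Vale.Agent.P123.Abstract

/-!
# P123: a first numerical certificate (every `K > 2.35` is excluded)
-/

open Polynomial ComplexConjugate

namespace Vale.Agent.P123

lemma re_le_amgm {κ : ℝ} (hκ : 0 < κ) (z : ℂ) :
    z.re ≤ (κ ^ 2 + Complex.normSq z) / (2 * κ) := by
  rw [le_div_iff₀ (by positivity), Complex.normSq_apply]
  nlinarith [sq_nonneg (z.re - κ), mul_self_nonneg z.im]

lemma normSq_sub_le {ξ η : ℂ} (hξ : ‖ξ‖ ≤ 1) (hη : ‖η‖ ≤ 1) (B : ℂ) (m : ℝ) :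
    Complex.normSq (ξ * B - m * conj η) ≤ Complex.normSq B + m ^ 2 - 2 * m * (ξ * η * B).re := by
  have h1 : Complex.normSq (ξ * B - m * conj η) =
      Complex.normSq ξ * Complex.normSq B + m ^ 2 * Complex.normSq η - 2 * m * (ξ * η * B).re := by
    simp only [Complex.normSq_apply, Complex.sub_re, Complex.sub_im, Complex.mul_re,
      Complex.mul_im, Complex.ofReal_re, Complex.ofReal_im, Complex.conj_re, Complex.conj_im]
    ring
  have h2 : Complex.normSq ξ ≤ 1 := by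
    rw [Complex.normSq_eq_norm_sq]; nlinarith [norm_nonneg ξ]
  have h3 : Complex.normSq η ≤ 1 := by
    rw [Complex.normSq_eq_norm_sq]; nlinarith [norm_nonneg η]
  have h4 := mul_le_mul_of_nonneg_right h2 (Complex.normSq_nonneg B)
  have h5 := mul_le_mul_of_nonneg_left h3 (sq_nonneg m)
  rw [h1]; linarith

lemma norm_mul_le_one' {ξ η : ℂ} (hξ : ‖ξ‖ ≤ 1) (hη : ‖η‖ ≤ 1) : ‖ξ * η‖ ≤ 1 := by
  rw [norm_mul]
  calc ‖ξ‖ * ‖η‖ ≤ 1 * 1 := mul_le_mul hξ hη (norm_nonneg _) (by norm_num)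
    _ = 1 := one_mul 1

/-- (n1) for the two-parameter family. -/
lemma cert_n1 (b c : ℝ) {ξ η : ℂ} (hξ : ‖ξ‖ ≤ 1) (hη : ‖η‖ ≤ 1) :
    ‖ξ * (1 + b * (ξ * η)) + conj (η * (c : ℂ))‖ ≤
      1 + (b ^ 2 + c ^ 2) / 2 + (b + c) * (ξ * η).re + b * c * ((ξ * η) ^ 2).re := by
  set w := ξ * η with hw
  have hw1 : Complex.normSq w ≤ 1 := by
    rw [Complex.normSq_eq_norm_sq]
    have := norm_mul_le_one' hξ hη
    nlinarith [norm_nonneg w]
  have h1 := normSq_sub_le hξ hη (1 + b * w) (-c)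
  have h2 : ξ * (1 + b * w) - ((-c : ℝ) : ℂ) * conj η = ξ * (1 + b * w) + conj (η * (c : ℂ)) := by
    rw [map_mul, Complex.conj_ofReal]; push_cast; ring
  rw [h2, ← hw] at h1
  have h3 : Complex.normSq (1 + b * w) = 1 + 2 * b * w.re + b ^ 2 * Complex.normSq w := by
    simp only [Complex.normSq_apply, Complex.add_re, Complex.add_im, Complex.mul_re,
      Complex.mul_im, Complex.ofReal_re, Complex.ofReal_im, Complex.one_re, Complex.one_im]
    ring
  have h4 : (w * (1 + b * w)).re = w.re + b * (w ^ 2).re := by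
    rw [sq]
    simp only [Complex.add_re, Complex.add_im, Complex.mul_re,
      Complex.mul_im, Complex.ofReal_re, Complex.ofReal_im, Complex.one_re, Complex.one_im]
    ring
  rw [h3, h4] at h1
  have h5 : ‖ξ * (1 + b * w) + conj (η * (c : ℂ))‖ ≤
      (1 + Complex.normSq (ξ * (1 + b * w) + conj (η * (c : ℂ)))) / 2 := by
    rw [Complex.normSq_eq_norm_sq]
    nlinarith [sq_nonneg (‖ξ * (1 + b * w) + conj (η * (c : ℂ))‖ - 1)]
  have h6 := mul_le_mul_of_nonneg_left hw1 (sq_nonneg b)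
  linarith

/-- (n2), the part over `ξ, η`, for the two-parameter family. -/
lemma cert_n2a {b c K k κ τ : ℝ} (hKk : K * k = 1) (hκ : 0 < κ) (hτ : 0 < τ) (hbc : b * c ≤ 0)
    {ξ η : ℂ} (w₀ : ℂ) (hξ : ‖ξ‖ ≤ 1) (hη : ‖η‖ ≤ 1) :
    (b + c) * (ξ * η).re + b * c * ((ξ * η) ^ 2).re
      + (ξ * (κ * w₀ - k * b * (ξ * η)) - ((K * c : ℝ) : ℂ) * conj η).re ≤
    κ / 2 + κ / 2 * Complex.normSq w₀ + (k ^ 2 * b ^ 2 + K ^ 2 * c ^ 2) / (2 * κ)
      - b * c * (1 + 1 / κ) + τ / 2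
      + ((b + c - (k * b + K * c) * w₀.re) ^ 2 + ((k * b - K * c) * w₀.im) ^ 2) / (2 * τ) := by
  set w := ξ * η with hw
  have hw1 : Complex.normSq w ≤ 1 := by
    rw [Complex.normSq_eq_norm_sq]
    have := norm_mul_le_one' hξ hη
    nlinarith [norm_nonneg w]
  have h1 := re_le_amgm hκ (ξ * (κ * w₀ - k * b * w) - ((K * c : ℝ) : ℂ) * conj η)
  have h2 := normSq_sub_le hξ hη (κ * w₀ - k * b * w) (K * c)
  rw [← hw] at h2
  have h3 : Complex.normSq (κ * w₀ - k * b * w) = κ ^ 2 * Complex.normSq w₀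
      + k ^ 2 * b ^ 2 * Complex.normSq w - 2 * κ * k * b * (w₀.re * w.re + w₀.im * w.im) := by
    simp only [Complex.normSq_apply, Complex.sub_re, Complex.sub_im, Complex.mul_re,
      Complex.mul_im, Complex.ofReal_re, Complex.ofReal_im]
    ring
  have h4 : (w * (κ * w₀ - k * b * w)).re = κ * (w₀.re * w.re - w₀.im * w.im)
      - k * b * (w ^ 2).re := by
    rw [sq]
    simp only [Complex.sub_re, Complex.sub_im, Complex.mul_re,
      Complex.mul_im, Complex.ofReal_re, Complex.ofReal_im]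
    ring
  rw [h3, h4] at h2
  have h5 : (κ ^ 2 + Complex.normSq (ξ * (κ * w₀ - k * b * w) - ((K * c : ℝ) : ℂ) * conj η)) / (2 * κ)
      ≤ (κ ^ 2 + (κ ^ 2 * Complex.normSq w₀ + k ^ 2 * b ^ 2
        - 2 * κ * k * b * (w₀.re * w.re + w₀.im * w.im) + (K * c) ^ 2
        - 2 * (K * c) * (κ * (w₀.re * w.re - w₀.im * w.im) - k * b * (w ^ 2).re))) / (2 * κ) := by
    apply div_le_div_of_nonneg_right _ (by positivity)
    have : k ^ 2 * b ^ 2 * Complex.normSq w ≤ k ^ 2 * b ^ 2 * 1 :=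
      mul_le_mul_of_nonneg_left hw1 (by positivity)
    linarith
  have h6 : (κ ^ 2 + (κ ^ 2 * Complex.normSq w₀ + k ^ 2 * b ^ 2
        - 2 * κ * k * b * (w₀.re * w.re + w₀.im * w.im) + (K * c) ^ 2
        - 2 * (K * c) * (κ * (w₀.re * w.re - w₀.im * w.im) - k * b * (w ^ 2).re))) / (2 * κ)
      = κ / 2 + κ / 2 * Complex.normSq w₀ + (k ^ 2 * b ^ 2 + K ^ 2 * c ^ 2) / (2 * κ)
        - k * b * (w₀.re * w.re + w₀.im * w.im) - (K * c) * (w₀.re * w.re - w₀.im * w.im)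
        + (K * k) * (b * c) * (1 / κ) * (w ^ 2).re := by
    field_simp
    ring
  rw [h6, hKk] at h5
  -- the linear term in `w`
  have hlin : (b + c) * w.re - k * b * (w₀.re * w.re + w₀.im * w.im)
      - (K * c) * (w₀.re * w.re - w₀.im * w.im) ≤
      τ / 2 + ((b + c - (k * b + K * c) * w₀.re) ^ 2 + ((k * b - K * c) * w₀.im) ^ 2) / (2 * τ) := by
    have e1 : (b + c) * w.re - k * b * (w₀.re * w.re + w₀.im * w.im)
      - (K * c) * (w₀.re * w.re - w₀.im * w.im) =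
      (b + c - (k * b + K * c) * w₀.re) * w.re - ((k * b - K * c) * w₀.im) * w.im := by ring
    rw [e1]
    have e2 : w.re ^ 2 + w.im ^ 2 ≤ 1 := by
      rw [Complex.normSq_apply] at hw1; linarith
    set p := b + c - (k * b + K * c) * w₀.re
    set q := (k * b - K * c) * w₀.im
    have e3 : p * w.re - q * w.im - (p ^ 2 + q ^ 2) / (2 * τ) ≤ τ / 2 := by
      rw [sub_le_iff_le_add, ← sub_le_iff_le_add', le_div_iff₀ (by positivity)]
      nlinarith [sq_nonneg (p - τ * w.re), sq_nonneg (q + τ * w.im), mul_le_mul_of_nonneg_left e2 (sq_nonneg τ)]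
    linarith
  -- the quadratic term
  have hw2 : -1 ≤ (w ^ 2).re := by
    have h7 : |(w ^ 2).re| ≤ 1 := by
      refine (Complex.abs_re_le_norm _).trans ?_
      rw [norm_pow]
      exact pow_le_one₀ (norm_nonneg _) (norm_mul_le_one' hξ hη)
    exact (abs_le.mp h7).1
  have hquad : b * c * (w ^ 2).re + b * c * (1 / κ) * (w ^ 2).re ≤ - b * c * (1 + 1 / κ) := by
    have e1 : b * c * (1 + 1 / κ) ≤ 0 := mul_nonpos_of_nonpos_of_nonneg hbc (by positivity)
    nlinarith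
  linarith

/-- The auxiliary quadratic in `k` and `X`. -/
noncomputable def psi (k X : ℝ) : ℝ :=
  2 - 47 / 20 * (1 - 19 / 200 * X) + (19 / 200 : ℝ) ^ 2 + (21 / 250 * k) ^ 2
      + (k ^ 2 * (19 / 200 : ℝ) ^ 2 + (21 / 250 : ℝ) ^ 2) * (250 / 151)
      + 19 / 200 * (21 / 250 * k) * (651 / 151) + 21 / 800
      + 151 / 1000 * (1 - X ^ 2)
      + (- (19 / 200) + 21 / 250 * k - 21 / 250 * k * k - k) * X
      - 19 / 200 * (21 / 250 * k) * X ^ 2
      + (- (19 / 200) + 21 / 250 * k - (21 / 250 - 19 / 200 * k) * X) ^ 2 * (200 / 21)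

lemma psi_le {k X : ℝ} (hk1 : 413 / 1000 ≤ k) (hk2 : k ≤ 4256 / 10000)
    (hX1 : -1 ≤ X) (hX2 : X ≤ 1) : psi k X ≤ - (1 / 250) := by
  have h0 : psi (4256 / 10000) X ≤ - (1 / 250) := by
    unfold psi; nlinarith [sq_nonneg (X + 835 / 1000)]
  have h1 : psi (413 / 1000) X ≤ - (1 / 250) := by
    unfold psi; nlinarith [sq_nonneg (X + 787 / 1000)]
  have hkk : 0 ≤ (k - 413 / 1000) * (4256 / 10000 - k) :=
    mul_nonneg (by linarith) (by linarith)
  have hα : 0 ≤ (21 / 250 : ℝ) ^ 2 + (19 / 200) ^ 2 * (250 / 151) - 21 / 250 * X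
      + (21 / 250 + 19 / 200 * X) ^ 2 * (200 / 21) := by
    nlinarith [sq_nonneg (X + 396 / 1000)]
  have hid : (k - 413 / 1000) * psi (4256 / 10000) X + (4256 / 10000 - k) * psi (413 / 1000) X
      - (4256 / 10000 - 413 / 1000) * psi k X =
      ((21 / 250 : ℝ) ^ 2 + (19 / 200) ^ 2 * (250 / 151) - 21 / 250 * X
      + (21 / 250 + 19 / 200 * X) ^ 2 * (200 / 21)) * (4256 / 10000 - 413 / 1000)
      * ((k - 413 / 1000) * (4256 / 10000 - k)) := by
    unfold psi; ring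
  have h2 := mul_nonneg (mul_nonneg hα (by norm_num : (0:ℝ) ≤ 4256 / 10000 - 413 / 1000)) hkk
  have h3 := mul_le_mul_of_nonneg_left h0 (by linarith : 0 ≤ k - 413 / 1000)
  have h4 := mul_le_mul_of_nonneg_left h1 (by linarith : 0 ≤ 4256 / 10000 - k)
  linarith

/-- The final polynomial inequality. -/
lemma poly_ineq {K k X Y : ℝ} (hK : 47 / 20 ≤ K) (hk1 : 413 / 1000 ≤ k) (hk2 : k ≤ 4256 / 10000)
    (hXY : X ^ 2 + Y ^ 2 ≤ 1) :
    2 - K + (19 / 200 : ℝ) ^ 2 + (21 / 250 * k) ^ 2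
      + (k ^ 2 * (19 / 200 : ℝ) ^ 2 + (21 / 250 : ℝ) ^ 2) * (250 / 151)
      + 19 / 200 * (21 / 250 * k) * (651 / 151) + 21 / 800
      + 151 / 1000 * (1 - X ^ 2 - Y ^ 2)
      + (- (19 / 200) + 21 / 250 * k + 19 / 200 * K - 21 / 250 * k * k - k) * X
      - 19 / 200 * (21 / 250 * k) * (X ^ 2 - Y ^ 2)
      + ((- (19 / 200) + 21 / 250 * k - (21 / 250 - 19 / 200 * k) * X) ^ 2
          + ((19 / 200 * k + 21 / 250) * Y) ^ 2) * (200 / 21) ≤ - (1 / 250) := by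
  have hX1 : -1 ≤ X := by nlinarith [sq_nonneg Y]
  have hX2 : X ≤ 1 := by nlinarith [sq_nonneg Y]
  have hKX : 0 ≤ (K - 47 / 20) * (1 - 19 / 200 * X) := mul_nonneg (by linarith) (by linarith)
  have hpsi := psi_le hk1 hk2 hX1 hX2
  have hcoef : - (151 / 1000 : ℝ) + 19 / 200 * (21 / 250 * k)
      + (19 / 200 * k + 21 / 250) ^ 2 * (200 / 21) ≤ 0 := by
    have : (19 / 200 * k + 21 / 250) ^ 2 ≤ (19 / 200 * (4256 / 10000) + 21 / 250) ^ 2 := by
      apply pow_le_pow_left₀ (by positivity)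
      linarith
    norm_num at this ⊢
    linarith
  have hY := mul_nonneg (neg_nonneg.mpr hcoef) (sq_nonneg Y)
  unfold psi at hpsi
  linarith

/-- The certificate for `47/20 ≤ K ≤ 121/50`. -/
lemma cert_one {K b c : ℝ} (h1 : 47 / 20 ≤ K) (h2 : K ≤ 121 / 50) (hb : b = -(19 / 200))
    (hc : c = 21 / 250 * K⁻¹) :
    Cert K (1 + C (b : ℂ) * X) (C (c : ℂ))
      (C ((1 + (b ^ 2 + c ^ 2) / 2 : ℝ) : ℂ) + C ((b + c : ℝ) : ℂ) * X
        + C ((b * c : ℝ) : ℂ) * X ^ 2) (1 / 250) 2 := by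
  have hK0 : 0 < K := by linarith
  obtain ⟨k, hk⟩ : ∃ k : ℝ, k = K⁻¹ := ⟨_, rfl⟩
  have hKk : K * k = 1 := by rw [hk]; exact mul_inv_cancel₀ hK0.ne'
  have hk0 : 0 < k := by rw [hk]; positivity
  have hk1 : 413 / 1000 ≤ k := by nlinarith
  have hk2 : k ≤ 4256 / 10000 := by nlinarith
  rw [← hk] at hc
  have hbc : b * c ≤ 0 := by rw [hb, hc]; nlinarith
  have hKc : (K : ℂ)⁻¹ = (k : ℂ) := by rw [hk]; push_cast; rfl
  constructor
  · intro ξ η hξ hη
    have := cert_n1 b c hξ hη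
    simp only [eval_add, eval_mul, eval_C, eval_X, eval_pow, eval_one]
    refine this.trans (le_of_eq ?_)
    simp only [Complex.add_re, Complex.re_ofReal_mul, Complex.ofReal_re]
  · intro w₀ hw₀
    refine ⟨-((302 / 1000 : ℝ) : ℂ) * w₀ - (k : ℂ), ?_, ?_⟩
    · refine (norm_sub_le _ _).trans ?_
      rw [norm_mul, norm_neg, Complex.norm_real, Complex.norm_real,
        Real.norm_of_nonneg (by norm_num), Real.norm_of_nonneg hk0.le]
      nlinarith
    · intro ξ η hξ hη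
      rw [hKc]
      have h3 := cert_n2a (b := b) (c := c) (K := K) (k := k) (κ := 302 / 1000) (τ := 21 / 400)
        hKk (by norm_num) (by norm_num) hbc w₀ hξ hη
      have hN : w₀.re ^ 2 + w₀.im ^ 2 ≤ 1 := by
        have h4 : Complex.normSq w₀ ≤ 1 := by
          rw [Complex.normSq_eq_norm_sq]; nlinarith [norm_nonneg w₀]
        rw [Complex.normSq_apply] at h4; linarith
      have h5 := poly_ineq (X := w₀.re) (Y := w₀.im) h1 hk1 hk2 hN
      simp only [eval_add, eval_mul, eval_C, eval_X, eval_pow, eval_one]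
      have e1 : ((((1 + (b ^ 2 + c ^ 2) / 2 : ℝ) : ℂ) + ((b + c : ℝ) : ℂ) * (ξ * η)
          + ((b * c : ℝ) : ℂ) * (ξ * η) ^ 2) - (k : ℂ) * (ξ * (1 + (b : ℂ) * (ξ * η)))
          - (K : ℂ) * (η * (c : ℂ)) - (-((302 / 1000 : ℝ) : ℂ) * w₀ - (k : ℂ)) * ξ).re
          = 1 + (b ^ 2 + c ^ 2) / 2 + ((b + c) * (ξ * η).re + b * c * ((ξ * η) ^ 2).re
            + (ξ * (((302 / 1000 : ℝ) : ℂ) * w₀ - k * b * (ξ * η))
              - ((K * c : ℝ) : ℂ) * conj η).re) := by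
        have e2 : (((1 + (b ^ 2 + c ^ 2) / 2 : ℝ) : ℂ) + ((b + c : ℝ) : ℂ) * (ξ * η)
          + ((b * c : ℝ) : ℂ) * (ξ * η) ^ 2) - (k : ℂ) * (ξ * (1 + (b : ℂ) * (ξ * η)))
          - (K : ℂ) * (η * (c : ℂ)) - (-((302 / 1000 : ℝ) : ℂ) * w₀ - (k : ℂ)) * ξ
          = ((1 + (b ^ 2 + c ^ 2) / 2 : ℝ) : ℂ) + ((b + c : ℝ) : ℂ) * (ξ * η)
          + ((b * c : ℝ) : ℂ) * (ξ * η) ^ 2
          + ξ * (((302 / 1000 : ℝ) : ℂ) * w₀ - k * b * (ξ * η)) - ((K * c : ℝ) : ℂ) * η := by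
          push_cast; ring
        rw [e2]
        simp only [Complex.add_re, Complex.sub_re, Complex.re_ofReal_mul, Complex.ofReal_re,
          Complex.conj_re]
        ring
      rw [e1]
      have e3 : (conj (-((302 / 1000 : ℝ) : ℂ) * w₀ - (k : ℂ)) * w₀).re =
          -(302 / 1000) * Complex.normSq w₀ - k * w₀.re := by
        simp only [map_sub, map_mul, map_neg, Complex.conj_ofReal, Complex.normSq_apply,
          Complex.sub_re, Complex.mul_re, Complex.neg_re, Complex.neg_im, Complex.ofReal_re,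
          Complex.ofReal_im, Complex.conj_re, Complex.conj_im, Complex.sub_im, Complex.mul_im]
        ring
      rw [e3]
      have e4 : ((((1 + (b ^ 2 + c ^ 2) / 2 : ℝ) : ℂ) + ((b + c : ℝ) : ℂ) * w₀
          + ((b * c : ℝ) : ℂ) * w₀ ^ 2) - (K : ℂ) * (1 + (b : ℂ) * w₀)
          - (k : ℂ) * (w₀ * (c : ℂ))).re = 1 + (b ^ 2 + c ^ 2) / 2 + (b + c) * w₀.re
          + b * c * (w₀.re ^ 2 - w₀.im ^ 2) - K * (1 + b * w₀.re) - k * c * w₀.re := by
        rw [sq w₀]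
        simp only [Complex.add_re, Complex.sub_re, Complex.mul_re, Complex.ofReal_re,
          Complex.ofReal_im, Complex.mul_im, Complex.add_im, Complex.one_re, Complex.one_im]
        ring
      rw [e4]
      have hNs : Complex.normSq w₀ = w₀.re ^ 2 + w₀.im ^ 2 := by
        rw [Complex.normSq_apply]; ring
      rw [hNs] at h3 ⊢
      have hKcc : K * c = 21 / 250 := by rw [hc]; linear_combination (21 / 250) * hKk
      have hK2 : K ^ 2 * c ^ 2 = (21 / 250) ^ 2 := by rw [← mul_pow, hKcc]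
      rw [hK2, hKcc] at h3
      rw [hKcc]
      have hfin : 1 + (b ^ 2 + c ^ 2) / 2 + (302 / 1000 / 2 + 302 / 1000 / 2 * (w₀.re ^ 2 + w₀.im ^ 2)
          + (k ^ 2 * b ^ 2 + (21 / 250) ^ 2) / (2 * (302 / 1000)) - b * c * (1 + 1 / (302 / 1000))
          + 21 / 400 / 2 + ((b + c - (k * b + 21 / 250) * w₀.re) ^ 2
            + ((k * b - 21 / 250) * w₀.im) ^ 2) / (2 * (21 / 400)))
          + (-(302 / 1000) * (w₀.re ^ 2 + w₀.im ^ 2) - k * w₀.re)
          + (1 + (b ^ 2 + c ^ 2) / 2 + (b + c) * w₀.re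
          + b * c * (w₀.re ^ 2 - w₀.im ^ 2) - K * (1 + b * w₀.re) - k * c * w₀.re)
          = 2 - K + (19 / 200 : ℝ) ^ 2 + (21 / 250 * k) ^ 2
      + (k ^ 2 * (19 / 200 : ℝ) ^ 2 + (21 / 250 : ℝ) ^ 2) * (250 / 151)
      + 19 / 200 * (21 / 250 * k) * (651 / 151) + 21 / 800
      + 151 / 1000 * (1 - w₀.re ^ 2 - w₀.im ^ 2)
      + (- (19 / 200) + 21 / 250 * k + 19 / 200 * K - 21 / 250 * k * k - k) * w₀.re
      - 19 / 200 * (21 / 250 * k) * (w₀.re ^ 2 - w₀.im ^ 2)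
      + ((- (19 / 200) + 21 / 250 * k - (21 / 250 - 19 / 200 * k) * w₀.re) ^ 2
          + ((19 / 200 * k + 21 / 250) * w₀.im) ^ 2) * (200 / 21) := by
        rw [hb, hc]; ring
      linarith

/-- The trivial certificate for `K ≥ 121/50`. -/
lemma cert_zero {K : ℝ} (h1 : 121 / 50 ≤ K) : Cert K 1 0 1 (1 / 250) 2 := by
  have hK0 : 0 < K := by linarith
  obtain ⟨k, hk⟩ : ∃ k : ℝ, k = K⁻¹ := ⟨_, rfl⟩
  have hKk : K * k = 1 := by rw [hk]; exact mul_inv_cancel₀ hK0.ne'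
  have hk0 : 0 < k := by rw [hk]; positivity
  have hk2 : k ≤ 4133 / 10000 := by nlinarith
  have hKc : (K : ℂ)⁻¹ = (k : ℂ) := by rw [hk]; push_cast; rfl
  constructor
  · intro ξ η hξ hη
    simpa using hξ
  · intro w₀ hw₀
    refine ⟨-(k : ℂ), ?_, ?_⟩
    · rw [norm_neg, Complex.norm_real, Real.norm_of_nonneg hk0.le]; linarith
    · intro ξ η hξ hη
      rw [hKc]
      simp only [eval_one, eval_zero, mul_zero, sub_zero, mul_one, map_neg, Complex.conj_ofReal]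
      have e1 : (1 - (k : ℂ) * ξ - -(k : ℂ) * ξ).re = 1 := by
        have : (1 - (k : ℂ) * ξ - -(k : ℂ) * ξ) = 1 := by ring
        rw [this, Complex.one_re]
      have e2 : (-(k : ℂ) * w₀).re = - (k * w₀.re) := by
        rw [neg_mul, Complex.neg_re, Complex.re_ofReal_mul]
      have e3 : (1 - (K : ℂ)).re = 1 - K := by
        rw [Complex.sub_re, Complex.one_re, Complex.ofReal_re]
      rw [e1, e2, e3]
      have h2 : -1 ≤ w₀.re := (abs_le.mp ((Complex.abs_re_le_norm w₀).trans hw₀)).1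
      nlinarith

end Vale.Agent.P123
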