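import Vale.Agent.P123.Torus

/-!
# P123: a sharper numerical certificate (every `K ≥ 2.28` is excluded)
-/

open Polynomial ComplexConjugate

namespace Vale.Agent.P123

lemma posM_0 {c : ℝ} (h1 : (-1) ≤ c) (h2 : c ≤ (0)) :
    0 ≤ (247943/100000000) * c ^ 0 + (-140153/50000000) * c ^ 1 + (-139313/25000000) * c ^ 2 + (26101/3125000) * c ^ 3 + (284521/25000000) * c ^ 4 + (101/312500) * c ^ 5 + (1/15625) * c ^ 6 := by
  have u : 0 ≤ c - (-1) := by linarith
  have v : 0 ≤ (0) - c := by linarith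
  have key : (247943/100000000) * c ^ 0 + (-140153/50000000) * c ^ 1 + (-139313/25000000) * c ^ 2 + (26101/3125000) * c ^ 3 + (284521/25000000) * c ^ 4 + (101/312500) * c ^ 5 + (1/15625) * c ^ 6
      = (247929/100000000) * ((c - (-1)) ^ 0 * ((0) - c) ^ 6) + (99583/25000000) * ((c - (-1)) ^ 1 * ((0) - c) ^ 5) + (1811081/100000000) * ((c - (-1)) ^ 2 * ((0) - c) ^ 4) + (58721/1250000) * ((c - (-1)) ^ 3 * ((0) - c) ^ 3) + (4563423/100000000) * ((c - (-1)) ^ 4 * ((0) - c) ^ 2) + (441991/25000000) * ((c - (-1)) ^ 5 * ((0) - c) ^ 1) + (247943/100000000) * ((c - (-1)) ^ 6 * ((0) - c) ^ 0) := by ring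
  rw [key]
  positivity

lemma posM_1 {c : ℝ} (h1 : (0) ≤ c) (h2 : c ≤ (1)) :
    0 ≤ (247943/100000000) * c ^ 0 + (-140153/50000000) * c ^ 1 + (-139313/25000000) * c ^ 2 + (26101/3125000) * c ^ 3 + (284521/25000000) * c ^ 4 + (101/312500) * c ^ 5 + (1/15625) * c ^ 6 := by
  have u : 0 ≤ c - (0) := by linarith
  have v : 0 ≤ (1) - c := by linarith
  have key : (247943/100000000) * c ^ 0 + (-140153/50000000) * c ^ 1 + (-139313/25000000) * c ^ 2 + (26101/3125000) * c ^ 3 + (284521/25000000) * c ^ 4 + (101/312500) * c ^ 5 + (1/15625) * c ^ 6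
      = (247943/100000000) * ((c - (0)) ^ 0 * ((1) - c) ^ 6) + (150919/12500000) * ((c - (0)) ^ 1 * ((1) - c) ^ 5) + (1760363/100000000) * ((c - (0)) ^ 2 * ((1) - c) ^ 4) + (95253/12500000) * ((c - (0)) ^ 3 * ((1) - c) ^ 3) + (1216353/100000000) * ((c - (0)) ^ 4 * ((1) - c) ^ 2) + (333913/12500000) * ((c - (0)) ^ 5 * ((1) - c) ^ 1) + (1422421/100000000) * ((c - (0)) ^ 6 * ((1) - c) ^ 0) := by ring
  rw [key]
  positivity

lemma posM {c : ℝ} (h1 : -1 ≤ c) (h2 : c ≤ 1) :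
    0 ≤ (247943/100000000) * c ^ 0 + (-140153/50000000) * c ^ 1 + (-139313/25000000) * c ^ 2 + (26101/3125000) * c ^ 3 + (284521/25000000) * c ^ 4 + (101/312500) * c ^ 5 + (1/15625) * c ^ 6 := by
  rcases le_total c (0) with hc0 | hc0
  · exact posM_0 (by linarith) (by linarith)
  exact posM_1 (by linarith) (by linarith)

lemma posA_0 {c : ℝ} (h1 : (-1) ≤ c) (h2 : c ≤ (-1/2)) :
    0 ≤ (144393118129/101531250000000) * c ^ 0 + (-37051819429/11281250000000) * c ^ 1 + (-3793769/781250000) * c ^ 2 + (32261/3125000) * c ^ 3 + (284521/25000000) * c ^ 4 + (101/312500) * c ^ 5 + (1/15625) * c ^ 6 := by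
  have u : 0 ≤ c - (-1) := by linarith
  have v : 0 ≤ (-1/2) - c := by linarith
  have key : (144393118129/101531250000000) * c ^ 0 + (-37051819429/11281250000000) * c ^ 1 + (-3793769/781250000) * c ^ 2 + (32261/3125000) * c ^ 3 + (284521/25000000) * c ^ 4 + (101/312500) * c ^ 5 + (1/15625) * c ^ 6
      = (52684316/1269140625) * ((c - (-1)) ^ 0 * ((-1/2) - c) ^ 6) + (30132442873/1057617187500) * ((c - (-1)) ^ 1 * ((-1/2) - c) ^ 5) + (116787763/42304687500) * ((c - (-1)) ^ 2 * ((-1/2) - c) ^ 4) + (46067757698/158642578125) * ((c - (-1)) ^ 3 * ((-1/2) - c) ^ 3) + (473582854967/846093750000) * ((c - (-1)) ^ 4 * ((-1/2) - c) ^ 2) + (154764607657/423046875000) * ((c - (-1)) ^ 5 * ((-1/2) - c) ^ 1) + (1025138096621/12691406250000) * ((c - (-1)) ^ 6 * ((-1/2) - c) ^ 0) := by ring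
  rw [key]
  positivity

lemma posA_1 {c : ℝ} (h1 : (-1/2) ≤ c) (h2 : c ≤ (0)) :
    0 ≤ (144393118129/101531250000000) * c ^ 0 + (-37051819429/11281250000000) * c ^ 1 + (-3793769/781250000) * c ^ 2 + (32261/3125000) * c ^ 3 + (284521/25000000) * c ^ 4 + (101/312500) * c ^ 5 + (1/15625) * c ^ 6 := by
  have u : 0 ≤ c - (-1/2) := by linarith
  have v : 0 ≤ (0) - c := by linarith
  have key : (144393118129/101531250000000) * c ^ 0 + (-37051819429/11281250000000) * c ^ 1 + (-3793769/781250000) * c ^ 2 + (32261/3125000) * c ^ 3 + (284521/25000000) * c ^ 4 + (101/312500) * c ^ 5 + (1/15625) * c ^ 6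
      = (1025138096621/12691406250000) * ((c - (-1/2)) ^ 0 * ((0) - c) ^ 6) + (1276453154957/2115234375000) * ((c - (-1/2)) ^ 1 * ((0) - c) ^ 5) + (1478843088311/846093750000) * ((c - (-1/2)) ^ 2 * ((0) - c) ^ 4) + (786227206279/317285156250) * ((c - (-1/2)) ^ 3 * ((0) - c) ^ 3) + (383507087237/211523437500) * ((c - (-1/2)) ^ 4 * ((0) - c) ^ 2) + (688727930803/1057617187500) * ((c - (-1/2)) ^ 5 * ((0) - c) ^ 1) + (144393118129/1586425781250) * ((c - (-1/2)) ^ 6 * ((0) - c) ^ 0) := by ring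
  rw [key]
  positivity

lemma posA_2 {c : ℝ} (h1 : (0) ≤ c) (h2 : c ≤ (1/2)) :
    0 ≤ (144393118129/101531250000000) * c ^ 0 + (-37051819429/11281250000000) * c ^ 1 + (-3793769/781250000) * c ^ 2 + (32261/3125000) * c ^ 3 + (284521/25000000) * c ^ 4 + (101/312500) * c ^ 5 + (1/15625) * c ^ 6 := by
  have u : 0 ≤ c - (0) := by linarith
  have v : 0 ≤ (1/2) - c := by linarith
  have key : (144393118129/101531250000000) * c ^ 0 + (-37051819429/11281250000000) * c ^ 1 + (-3793769/781250000) * c ^ 2 + (32261/3125000) * c ^ 3 + (284521/25000000) * c ^ 4 + (101/312500) * c ^ 5 + (1/15625) * c ^ 6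
      = (144393118129/1586425781250) * ((c - (0)) ^ 0 * ((1/2) - c) ^ 6) + (466417014229/1057617187500) * ((c - (0)) ^ 1 * ((1/2) - c) ^ 5) + (161196170663/211523437500) * ((c - (0)) ^ 2 * ((1/2) - c) ^ 4) + (171702451057/317285156250) * ((c - (0)) ^ 3 * ((1/2) - c) ^ 3) + (6295774301/44531250000) * ((c - (0)) ^ 4 * ((1/2) - c) ^ 2) + (104238454217/2115234375000) * ((c - (0)) ^ 5 * ((1/2) - c) ^ 1) + (470134327733/12691406250000) * ((c - (0)) ^ 6 * ((1/2) - c) ^ 0) := by ring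
  rw [key]
  positivity

lemma posA_3 {c : ℝ} (h1 : (1/2) ≤ c) (h2 : c ≤ (1)) :
    0 ≤ (144393118129/101531250000000) * c ^ 0 + (-37051819429/11281250000000) * c ^ 1 + (-3793769/781250000) * c ^ 2 + (32261/3125000) * c ^ 3 + (284521/25000000) * c ^ 4 + (101/312500) * c ^ 5 + (1/15625) * c ^ 6 := by
  have u : 0 ≤ c - (1/2) := by linarith
  have v : 0 ≤ (1) - c := by linarith
  have key : (144393118129/101531250000000) * c ^ 0 + (-37051819429/11281250000000) * c ^ 1 + (-3793769/781250000) * c ^ 2 + (32261/3125000) * c ^ 3 + (284521/25000000) * c ^ 4 + (101/312500) * c ^ 5 + (1/15625) * c ^ 6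
      = (470134327733/12691406250000) * ((c - (1/2)) ^ 0 * ((1) - c) ^ 6) + (836030201249/2115234375000) * ((c - (1/2)) ^ 1 * ((1) - c) ^ 5) + (1583203205783/846093750000) * ((c - (1/2)) ^ 2 * ((1) - c) ^ 4) + (144226326973/31728515625) * ((c - (1/2)) ^ 3 * ((1) - c) ^ 3) + (247746862789/42304687500) * ((c - (1/2)) ^ 4 * ((1) - c) ^ 2) + (4026807900559/1057617187500) * ((c - (1/2)) ^ 5 * ((1) - c) ^ 1) + (780436112639/793212890625) * ((c - (1/2)) ^ 6 * ((1) - c) ^ 0) := by ring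
  rw [key]
  positivity

lemma posA {c : ℝ} (h1 : -1 ≤ c) (h2 : c ≤ 1) :
    0 ≤ (144393118129/101531250000000) * c ^ 0 + (-37051819429/11281250000000) * c ^ 1 + (-3793769/781250000) * c ^ 2 + (32261/3125000) * c ^ 3 + (284521/25000000) * c ^ 4 + (101/312500) * c ^ 5 + (1/15625) * c ^ 6 := by
  rcases le_total c (-1/2) with hc0 | hc0
  · exact posA_0 (by linarith) (by linarith)
  rcases le_total c (0) with hc1 | hc1
  · exact posA_1 (by linarith) (by linarith)
  rcases le_total c (1/2) with hc2 | hc2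
  · exact posA_2 (by linarith) (by linarith)
  exact posA_3 (by linarith) (by linarith)

lemma posB_0 {c : ℝ} (h1 : (-1) ≤ c) (h2 : c ≤ (1)) :
    0 ≤ (127/190000) * c ^ 0 + (-19/750000) * c ^ 1 + (3/47500) * c ^ 2 + (-1/9500) * c ^ 3 := by
  have u : 0 ≤ c - (-1) := by linarith
  have v : 0 ≤ (1) - c := by linarith
  have key : (127/190000) * c ^ 0 + (-19/750000) * c ^ 1 + (3/47500) * c ^ 2 + (-1/9500) * c ^ 3
      = (6143/57000000) * ((c - (-1)) ^ 0 * ((1) - c) ^ 3) + (1471/7125000) * ((c - (-1)) ^ 1 * ((1) - c) ^ 2) + (15907/57000000) * ((c - (-1)) ^ 2 * ((1) - c) ^ 1) + (2141/28500000) * ((c - (-1)) ^ 3 * ((1) - c) ^ 0) := by ring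
  rw [key]
  positivity

lemma posB {c : ℝ} (h1 : -1 ≤ c) (h2 : c ≤ 1) :
    0 ≤ (127/190000) * c ^ 0 + (-19/750000) * c ^ 1 + (3/47500) * c ^ 2 + (-1/9500) * c ^ 3 := by
  exact posB_0 (by linarith) (by linarith)

lemma norm_le_of_parts {z : ℂ} {a b F : ℝ} (hF : 0 ≤ F) (ha : z.re = a) (hb : z.im = b)
    (h : a ^ 2 + b ^ 2 ≤ F ^ 2) : ‖z‖ ≤ F := by
  apply le_of_sq_le_sq _ hF
  rw [← Complex.normSq_eq_norm_sq, Complex.normSq_apply, ha, hb]
  nlinarith

section
variable {w : ℂ} (hw : ‖w‖ = 1)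
include hw

lemma circ_sq : w.re ^ 2 + w.im ^ 2 = 1 := by
  have := Complex.normSq_eq_norm_sq w
  rw [hw, Complex.normSq_apply] at this
  linarith

lemma circ_le : -1 ≤ w.re ∧ w.re ≤ 1 := by
  have := circ_sq hw
  constructor <;> nlinarith [sq_nonneg w.im]

lemma circ_re2 : (w ^ 2).re = 2 * w.re ^ 2 - 1 := by
  have := circ_sq hw
  rw [sq w, Complex.mul_re]
  linear_combination (-1 : ℝ) * this

omit hw in
lemma circ_im2 : (w ^ 2).im = w.im * (2 * w.re) := by
  rw [sq w, Complex.mul_im]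
  ring

lemma circ_re3 : (w ^ 3).re = 4 * w.re ^ 3 - 3 * w.re := by
  have := circ_sq hw
  rw [pow_succ, Complex.mul_re, circ_re2 hw, circ_im2]
  linear_combination (-2 * w.re) * this

lemma circ_im3 : (w ^ 3).im = w.im * (4 * w.re ^ 2 - 1) := by
  rw [pow_succ, Complex.mul_im, circ_re2 hw, circ_im2]
  ring

end

/-- The polynomials of the certificate. -/
noncomputable def certP : ℂ[X] := C 1 + C (((-441 / 2500 : ℝ) : ℂ)) * X

/-- The polynomials of the certificate. -/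
noncomputable def certQ : ℂ[X] := C (((343 / 5000 : ℝ) : ℂ)) + C (((231 / 10000 : ℝ) : ℂ)) * X
  + C (((9 / 2000 : ℝ) : ℂ)) * X ^ 2

/-- The polynomials of the certificate. -/
noncomputable def certF : ℂ[X] := C (((5087 / 5000 : ℝ) : ℂ)) + C (((-51 / 500 : ℝ) : ℂ)) * X
  + C (((101 / 10000 : ℝ) : ℂ)) * X ^ 2 + C (((1 / 500 : ℝ) : ℂ)) * X ^ 3

lemma certP_re (w : ℂ) : (certP.eval w).re = 1 + (-441 / 2500) * w.re := by
  simp only [certP, eval_add, eval_mul, eval_C, eval_X, Complex.add_re, Complex.re_ofReal_mul,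
    Complex.one_re]

lemma certP_im (w : ℂ) : (certP.eval w).im = (-441 / 2500) * w.im := by
  simp only [certP, eval_add, eval_mul, eval_C, eval_X, Complex.add_im, Complex.im_ofReal_mul,
    Complex.one_im, zero_add]

lemma wcertQ (w : ℂ) : w * certQ.eval w = ((343 / 5000 : ℝ) : ℂ) * w + ((231 / 10000 : ℝ) : ℂ) * w ^ 2
    + ((9 / 2000 : ℝ) : ℂ) * w ^ 3 := by
  simp only [certQ, eval_add, eval_mul, eval_C, eval_X, eval_pow]
  ring

lemma wcertQ_re {w : ℂ} (hw : ‖w‖ = 1) : (w * certQ.eval w).re = 343 / 5000 * w.re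
    + 231 / 10000 * (2 * w.re ^ 2 - 1) + 9 / 2000 * (4 * w.re ^ 3 - 3 * w.re) := by
  rw [wcertQ, Complex.add_re, Complex.add_re, Complex.re_ofReal_mul, Complex.re_ofReal_mul,
    Complex.re_ofReal_mul, circ_re2 hw, circ_re3 hw]

lemma wcertQ_im {w : ℂ} (hw : ‖w‖ = 1) : (w * certQ.eval w).im = w.im * (343 / 5000
    + 231 / 10000 * (2 * w.re) + 9 / 2000 * (4 * w.re ^ 2 - 1)) := by
  rw [wcertQ, Complex.add_im, Complex.add_im, Complex.im_ofReal_mul, Complex.im_ofReal_mul,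
    Complex.im_ofReal_mul, circ_im2, circ_im3 hw]
  ring

lemma certF_re {w : ℂ} (hw : ‖w‖ = 1) : (certF.eval w).re = 5087 / 5000 + (-51 / 500) * w.re
    + 101 / 10000 * (2 * w.re ^ 2 - 1) + 1 / 500 * (4 * w.re ^ 3 - 3 * w.re) := by
  simp only [certF, eval_add, eval_mul, eval_C, eval_X, eval_pow]
  rw [Complex.add_re, Complex.add_re, Complex.add_re, Complex.re_ofReal_mul, Complex.re_ofReal_mul,
    Complex.re_ofReal_mul, circ_re2 hw, circ_re3 hw, Complex.ofReal_re]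

lemma certF_pos {w : ℂ} (hw : ‖w‖ = 1) : 0 ≤ (certF.eval w).re := by
  rw [certF_re hw]
  obtain ⟨h1, h2⟩ := circ_le hw
  nlinarith [sq_nonneg w.re, mul_nonneg (sub_nonneg.2 h2) (sq_nonneg w.re),
    mul_nonneg (sub_nonneg.2 h1) (sq_nonneg w.re)]

lemma certF_lt {w : ℂ} (hw : ‖w‖ = 1) : 0 ≤ 12619 / 10000 - (certF.eval w).re := by
  rw [certF_re hw]
  obtain ⟨h1, h2⟩ := circ_le hw
  nlinarith [sq_nonneg w.re, mul_nonneg (sub_nonneg.2 h2) (sq_nonneg w.re),
    mul_nonneg (sub_nonneg.2 h1) (sq_nonneg w.re)]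

lemma cert2_M {w : ℂ} (hw : ‖w‖ = 1) :
    ‖certP.eval w + conj (w * certQ.eval w)‖ ≤ (certF.eval w).re := by
  refine norm_le_of_parts (certF_pos hw)
    (a := 1 + (-441 / 2500) * w.re + (343 / 5000 * w.re
      + 231 / 10000 * (2 * w.re ^ 2 - 1) + 9 / 2000 * (4 * w.re ^ 3 - 3 * w.re)))
    (b := w.im * ((-441 / 2500) - (343 / 5000
      + 231 / 10000 * (2 * w.re) + 9 / 2000 * (4 * w.re ^ 2 - 1)))) ?_ ?_ ?_
  · rw [Complex.add_re, certP_re, Complex.conj_re, wcertQ_re hw]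
  · rw [Complex.add_im, certP_im, Complex.conj_im, wcertQ_im hw]; ring
  · obtain ⟨h1, h2⟩ := circ_le hw
    have h3 := posM h1 h2
    have h4 : w.im ^ 2 = 1 - w.re ^ 2 := by have := circ_sq hw; linarith
    rw [mul_pow, h4, certF_re hw]
    nlinarith [h3]

lemma cert2_A {w : ℂ} (hw : ‖w‖ = 1) : (certF.eval w).re
    + ‖((57 / 25 : ℝ) : ℂ)⁻¹ * certP.eval w + ((57 / 25 : ℝ) : ℂ) * conj (w * certQ.eval w)
      - ((27 / 100 : ℝ) : ℂ)‖ ≤ 12619 / 10000 := by
  have hi : (((57 / 25 : ℝ) : ℂ))⁻¹ = ((25 / 57 : ℝ) : ℂ) := by push_cast; norm_num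
  have h0 : ‖((57 / 25 : ℝ) : ℂ)⁻¹ * certP.eval w + ((57 / 25 : ℝ) : ℂ) * conj (w * certQ.eval w)
      - ((27 / 100 : ℝ) : ℂ)‖ ≤ 12619 / 10000 - (certF.eval w).re := by
    refine norm_le_of_parts (certF_lt hw)
      (a := 25 / 57 * (1 + (-441 / 2500) * w.re) + 57 / 25 * (343 / 5000 * w.re
        + 231 / 10000 * (2 * w.re ^ 2 - 1) + 9 / 2000 * (4 * w.re ^ 3 - 3 * w.re)) - 27 / 100)
      (b := w.im * (25 / 57 * (-441 / 2500) - 57 / 25 * (343 / 5000
        + 231 / 10000 * (2 * w.re) + 9 / 2000 * (4 * w.re ^ 2 - 1)))) ?_ ?_ ?_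
    · rw [hi, Complex.sub_re, Complex.add_re, Complex.re_ofReal_mul, Complex.re_ofReal_mul,
        certP_re, Complex.conj_re, wcertQ_re hw, Complex.ofReal_re]
    · rw [hi, Complex.sub_im, Complex.add_im, Complex.im_ofReal_mul, Complex.im_ofReal_mul,
        certP_im, Complex.conj_im, wcertQ_im hw, Complex.ofReal_im]; ring
    · obtain ⟨h1, h2⟩ := circ_le hw
      have h3 := posA h1 h2
      have h4 : w.im ^ 2 = 1 - w.re ^ 2 := by have := circ_sq hw; linarith
      rw [mul_pow, h4, certF_re hw]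
      nlinarith [h3]
  linarith

lemma cert2_B {w : ℂ} (hw : ‖w‖ = 1) : (certF.eval w - ((57 / 25 : ℝ) : ℂ) * certP.eval w
    - ((57 / 25 : ℝ) : ℂ)⁻¹ * (w * certQ.eval w) - ((27 / 100 : ℝ) : ℂ) * w).re
    ≤ - (12619 / 10000) - 1 / 2000 := by
  have hi : (((57 / 25 : ℝ) : ℂ))⁻¹ = ((25 / 57 : ℝ) : ℂ) := by push_cast; norm_num
  rw [hi, Complex.sub_re, Complex.sub_re, Complex.sub_re, Complex.re_ofReal_mul,
    Complex.re_ofReal_mul, Complex.re_ofReal_mul, certF_re hw, certP_re, wcertQ_re hw]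
  obtain ⟨h1, h2⟩ := circ_le hw
  have h3 := posB h1 h2
  nlinarith [h3]

/-- The sharper certificate. -/
theorem cert_two {K : ℝ} (hK : 57 / 25 ≤ K) : Cert K certP certQ certF (1 / 2000) |27 / 100| := by
  refine cert_mono (K0 := 57 / 25) (by norm_num) hK (p0 := 2059 / 2500) (p1 := 2941 / 2500)
    (q := 481 / 5000) (κ := 7 / 20) ?_ ?_ ?_ (by norm_num) (by norm_num)
    (fun w hw => cert2_M hw) (fun w hw => cert2_A hw) (fun w hw => cert2_B hw)
  · intro w hw
    rw [certP_re]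
    have := circ_le hw
    linarith
  · intro w hw
    simp only [certP, eval_add, eval_mul, eval_C, eval_X]
    refine (norm_add_le _ _).trans ?_
    rw [norm_mul, hw, Complex.norm_real, norm_one]
    norm_num
  · intro w hw
    rw [wcertQ]
    refine (norm_add_le _ _).trans ((add_le_add_left (norm_add_le _ _) _).trans ?_)
    simp only [norm_mul, norm_pow, hw, Complex.norm_real]
    norm_num

end Vale.Agent.P123
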