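import Mathlib

/-!
# P123: smooth convex curves given by a support function

`SuppData h h1 h2` says that `h` is a `2 * π`-periodic function of class `C²` with derivatives
`h1`, `h2` and with positive radius of curvature `h + h2`.
-/

open Complex MeasureTheory Set Filter Topology
open scoped Real ComplexConjugate

namespace Vale.Agent.P123

/-- Support function data of a smooth strictly convex planar domain. -/
structure SuppData (h h1 h2 : ℝ → ℝ) : Prop where
  d1 : ∀ t, HasDerivAt h (h1 t) t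
  d2 : ∀ t, HasDerivAt h1 (h2 t) t
  c2 : Continuous h2
  per : Function.Periodic h (2 * π)
  per1 : Function.Periodic h1 (2 * π)
  per2 : Function.Periodic h2 (2 * π)
  curv : ∀ t, 0 < h t + h2 t

/-- The boundary curve, parametrised by the angle of the outer normal. -/
noncomputable def bd (h h1 : ℝ → ℝ) (t : ℝ) : ℂ :=
  ((h t : ℂ) + (h1 t : ℂ) * I) * exp (t * I)

/-- The radius of curvature. -/
def rho (h h2 : ℝ → ℝ) (t : ℝ) : ℝ := h t + h2 t

/-- The closed convex body with support function `h`. -/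
def body (h : ℝ → ℝ) : Set ℂ := {z | ∀ t : ℝ, (exp (-(t * I)) * z).re ≤ h t}

/-- The interior of the convex body. -/
def intr (h : ℝ → ℝ) : Set ℂ := {z | ∀ t : ℝ, (exp (-(t * I)) * z).re < h t}

/-- The distance of the point `z` to the supporting line with outer normal `exp (t * I)`. -/
noncomputable def hz (h : ℝ → ℝ) (z : ℂ) (t : ℝ) : ℝ := h t - (exp (-(t * I)) * z).re

/-- The derivative of `hz`. -/
noncomputable def hz1 (h1 : ℝ → ℝ) (z : ℂ) (t : ℝ) : ℝ := h1 t - (exp (-(t * I)) * z).im

/-- The second derivative of `hz`. -/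
noncomputable def hz2 (h2 : ℝ → ℝ) (z : ℂ) (t : ℝ) : ℝ := h2 t + (exp (-(t * I)) * z).re

lemma exp_per (t : ℝ) : exp (((t + 2 * π : ℝ) : ℂ) * I) = exp (t * I) := by
  have : (((t + 2 * π : ℝ) : ℂ) * I) = t * I + 2 * π * I := by push_cast; ring
  rw [this, Complex.exp_add, Complex.exp_two_pi_mul_I, mul_one]

lemma exp_neg_per (t : ℝ) : exp (-(((t + 2 * π : ℝ) : ℂ) * I)) = exp (-(t * I)) := by
  rw [Complex.exp_neg, Complex.exp_neg, exp_per]

lemma hasDerivAt_exp (t : ℝ) : HasDerivAt (fun s : ℝ => exp (s * I)) (I * exp (t * I)) t := by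
  have h1 : HasDerivAt (fun s : ℝ => (s : ℂ) * I) I t := by
    simpa using (Complex.ofRealCLM.hasDerivAt (x := t)).mul_const I
  have := h1.cexp
  rwa [mul_comm] at this

lemma hasDerivAt_exp_neg (t : ℝ) :
    HasDerivAt (fun s : ℝ => exp (-(s * I))) (-I * exp (-(t * I))) t := by
  have h0 : HasDerivAt (fun s : ℝ => (s : ℂ) * I) I t := by
    simpa using (Complex.ofRealCLM.hasDerivAt (x := t)).mul_const I
  have h1 : HasDerivAt (fun s : ℝ => -((s : ℂ) * I)) (-I) t := h0.neg
  have := h1.cexp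
  rwa [mul_comm] at this

lemma hasDerivAt_re {f : ℝ → ℂ} {f' : ℂ} {t : ℝ} (hf : HasDerivAt f f' t) :
    HasDerivAt (fun s => (f s).re) f'.re t := by
  exact (Complex.reCLM.hasFDerivAt (x := f t)).comp_hasDerivAt t hf

lemma hasDerivAt_im {f : ℝ → ℂ} {f' : ℂ} {t : ℝ} (hf : HasDerivAt f f' t) :
    HasDerivAt (fun s => (f s).im) f'.im t := by
  exact (Complex.imCLM.hasFDerivAt (x := f t)).comp_hasDerivAt t hf

lemma hasDerivAt_ofReal {f : ℝ → ℝ} {f' : ℝ} {t : ℝ} (hf : HasDerivAt f f' t) :
    HasDerivAt (fun s => (f s : ℂ)) (f' : ℂ) t := by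
  exact (Complex.ofRealCLM.hasFDerivAt (x := f t)).comp_hasDerivAt t hf

lemma SuppData.translate {h h1 h2 : ℝ → ℝ} (S : SuppData h h1 h2) (z : ℂ) :
    SuppData (hz h z) (hz1 h1 z) (hz2 h2 z) where
  d1 t := by
    have := (S.d1 t).sub (hasDerivAt_re ((hasDerivAt_exp_neg t).mul_const z))
    refine this.congr_deriv ?_
    simp [hz1, mul_assoc]
  d2 t := by
    have := (S.d2 t).sub (hasDerivAt_im ((hasDerivAt_exp_neg t).mul_const z))
    refine this.congr_deriv ?_
    simp [hz2, mul_assoc]
    ring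
  c2 := by
    have := S.c2
    unfold hz2
    fun_prop
  per t := by simp only [hz, exp_neg_per, S.per t]
  per1 t := by simp only [hz1, exp_neg_per, S.per1 t]
  per2 t := by simp only [hz2, exp_neg_per, S.per2 t]
  curv t := by
    have := S.curv t
    simp only [hz, hz2]
    linarith

lemma rho_translate (h h2 : ℝ → ℝ) (z : ℂ) (t : ℝ) :
    rho (hz h z) (hz2 h2 z) t = rho h h2 t := by
  simp [rho, hz, hz2]

lemma exp_mul_exp_neg (t : ℝ) : exp (t * I) * exp (-(t * I)) = 1 := by
  rw [← Complex.exp_add]; simp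

lemma exp_neg_mul_exp (t : ℝ) : exp (-(t * I)) * exp (t * I) = 1 := by
  rw [← Complex.exp_add]; simp

lemma bd_translate (h h1 : ℝ → ℝ) (z : ℂ) (t : ℝ) :
    bd (hz h z) (hz1 h1 z) t = bd h h1 t - z := by
  unfold bd hz hz1
  have e : ((exp (-(t * I)) * z).re : ℂ) + ((exp (-(t * I)) * z).im : ℂ) * I
      = exp (-(t * I)) * z := Complex.re_add_im _
  push_cast
  calc ((h t : ℂ) - ((exp (-(t * I)) * z).re : ℂ) + ((h1 t : ℂ) - ((exp (-(t * I)) * z).im : ℂ)) * I)
        * exp (t * I)
      = ((h t : ℂ) + (h1 t : ℂ) * I) * exp (t * I)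
        - (((exp (-(t * I)) * z).re : ℂ) + ((exp (-(t * I)) * z).im : ℂ) * I) * exp (t * I) := by
        ring
    _ = ((h t : ℂ) + (h1 t : ℂ) * I) * exp (t * I) - (exp (t * I) * exp (-(t * I))) * z := by
        rw [e]; ring
    _ = _ := by rw [exp_mul_exp_neg, one_mul]

variable {h h1 h2 : ℝ → ℝ}

lemma SuppData.c0 (S : SuppData h h1 h2) : Continuous h :=
  continuous_iff_continuousAt.2 fun t => (S.d1 t).continuousAt

lemma SuppData.c1 (S : SuppData h h1 h2) : Continuous h1 :=
  continuous_iff_continuousAt.2 fun t => (S.d2 t).continuousAt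

lemma SuppData.cont_bd (S : SuppData h h1 h2) : Continuous (bd h h1) := by
  have := S.c0
  have := S.c1
  unfold bd
  fun_prop

lemma SuppData.cont_rho (S : SuppData h h1 h2) : Continuous (rho h h2) := by
  have := S.c0
  have := S.c2
  unfold rho
  fun_prop

lemma SuppData.rho_pos (S : SuppData h h1 h2) (t : ℝ) : 0 < rho h h2 t := S.curv t

lemma SuppData.bd_per (S : SuppData h h1 h2) : Function.Periodic (bd h h1) (2 * π) := by
  intro t
  simp only [bd, exp_per, S.per t, S.per1 t]

lemma SuppData.rho_per (S : SuppData h h1 h2) : Function.Periodic (rho h h2) (2 * π) := by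
  intro t
  simp only [rho, S.per t, S.per2 t]

/-- The complex tangent density divided by `I`. -/
noncomputable def tng (h h2 : ℝ → ℝ) (t : ℝ) : ℂ := (rho h h2 t : ℂ) * exp (t * I)

lemma SuppData.cont_tng (S : SuppData h h1 h2) : Continuous (tng h h2) := by
  have := S.cont_rho
  unfold tng
  fun_prop

lemma SuppData.hasDerivAt_bd (S : SuppData h h1 h2) (t : ℝ) :
    HasDerivAt (bd h h1) (I * tng h h2 t) t := by
  have h0 : HasDerivAt (fun s : ℝ => (h s : ℂ) + (h1 s : ℂ) * I) ((h1 t : ℂ) + (h2 t : ℂ) * I) t :=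
    (hasDerivAt_ofReal (S.d1 t)).add ((hasDerivAt_ofReal (S.d2 t)).mul_const I)
  have := h0.mul (hasDerivAt_exp t)
  refine this.congr_deriv ?_
  simp only [tng, rho]
  push_cast
  linear_combination (h1 t : ℂ) * exp (t * I) * Complex.I_sq

lemma re_exp_mul_bd (S : SuppData h h1 h2) (s t : ℝ) :
    HasDerivAt (fun t => (exp (-(s * I)) * bd h h1 t).re) (-(rho h h2 t * Real.sin (t - s))) t := by
  have := hasDerivAt_re ((S.hasDerivAt_bd t).const_mul (exp (-(s * I))))
  refine this.congr_deriv ?_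
  have e : exp (-(s * I)) * (I * tng h h2 t) = (rho h h2 t : ℂ) * (I * exp (((t - s : ℝ) : ℂ) * I)) := by
    have : exp (((t - s : ℝ) : ℂ) * I) = exp (t * I) * exp (-(s * I)) := by
      rw [← Complex.exp_add]; push_cast; ring_nf
    rw [this, tng]; ring
  rw [e, Complex.re_ofReal_mul]
  rw [Complex.exp_mul_I]
  simp only [Complex.mul_re, Complex.I_re, Complex.I_im, Complex.add_im, Complex.add_re,
    Complex.mul_im, Complex.cos_ofReal_im, Complex.sin_ofReal_re, Complex.sin_ofReal_im]
  ring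

lemma re_exp_mul_bd_self (h h1 : ℝ → ℝ) (s : ℝ) : (exp (-(s * I)) * bd h h1 s).re = h s := by
  unfold bd
  rw [show exp (-(s * I)) * (((h s : ℂ) + (h1 s : ℂ) * I) * exp (s * I))
    = (exp (-(s * I)) * exp (s * I)) * ((h s : ℂ) + (h1 s : ℂ) * I) by ring, exp_neg_mul_exp]
  simp

lemma SuppData.bd_mem_body (S : SuppData h h1 h2) (t : ℝ) : bd h h1 t ∈ body h := by
  intro s
  have hper : Function.Periodic (fun t => (exp (-(s * I)) * bd h h1 t).re) (2 * π) := by
    intro t
    simp only [S.bd_per t]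
  obtain ⟨y, hy, hyt⟩ := hper.exists_mem_Ico (by positivity) t (s - π)
  rw [hyt, ← re_exp_mul_bd_self h h1 s]
  have hd : ∀ t, HasDerivAt (fun t => (exp (-(s * I)) * bd h h1 t).re)
    (-(rho h h2 t * Real.sin (t - s))) t := re_exp_mul_bd S s
  have hc : Continuous (fun t => (exp (-(s * I)) * bd h h1 t).re) :=
    continuous_iff_continuousAt.2 fun t => (hd t).continuousAt
  have hy2 : y < s + π := by have := hy.2; linarith
  rcases le_total s y with hsy | hsy
  · have hanti : AntitoneOn (fun t => (exp (-(s * I)) * bd h h1 t).re) (Icc s (s + π)) := by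
      apply antitoneOn_of_deriv_nonpos (convex_Icc _ _) hc.continuousOn
      · intro x _; exact (hd x).differentiableAt.differentiableWithinAt
      · intro x hx
        rw [interior_Icc] at hx
        rw [(hd x).deriv]
        have h1 := S.rho_pos x
        have h2 : 0 ≤ Real.sin (x - s) :=
          Real.sin_nonneg_of_nonneg_of_le_pi (by linarith [hx.1]) (by linarith [hx.2])
        have := mul_nonneg h1.le h2
        linarith
    exact hanti ⟨le_refl _, by linarith [Real.pi_pos]⟩ ⟨hsy, hy2.le⟩ hsy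
  · have hmono : MonotoneOn (fun t => (exp (-(s * I)) * bd h h1 t).re) (Icc (s - π) s) := by
      apply monotoneOn_of_deriv_nonneg (convex_Icc _ _) hc.continuousOn
      · intro x _; exact (hd x).differentiableAt.differentiableWithinAt
      · intro x hx
        rw [interior_Icc] at hx
        rw [(hd x).deriv]
        have h1 := S.rho_pos x
        have h2 : Real.sin (x - s) ≤ 0 :=
          Real.sin_nonpos_of_nonpos_of_neg_pi_le (by linarith [hx.2]) (by linarith [hx.1])
        have := mul_nonneg h1.le (neg_nonneg.2 h2)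
        linarith
    exact hmono ⟨hy.1, hsy⟩ ⟨by linarith [Real.pi_pos], le_refl _⟩ hsy

/-- `bd` in terms of the moving frame. -/
lemma bd_eq (h h1 : ℝ → ℝ) (t : ℝ) : bd h h1 t = ((h t : ℂ) + (h1 t : ℂ) * I) * exp (t * I) := rfl

lemma bd_ne_zero {t : ℝ} (hp : 0 < h t) : bd h h1 t ≠ 0 := by
  rw [bd_eq]
  refine mul_ne_zero ?_ (Complex.exp_ne_zero _)
  intro hc
  have := congrArg Complex.re hc
  simp at this
  linarith

/-- The winding number of the curve around an interior point. -/
lemma SuppData.winding (S : SuppData h h1 h2) (hp : ∀ t, 0 < h t) :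
    ∫ t in (0 : ℝ)..(2 * π), tng h h2 t / bd h h1 t = 2 * π := by
  have hd : ∀ t, HasDerivAt (fun t : ℝ => (t : ℂ) + (-I) * log ((h t : ℂ) + (h1 t : ℂ) * I))
      (tng h h2 t / bd h h1 t) t := by
    intro t
    have h0 : HasDerivAt (fun s : ℝ => (h s : ℂ) + (h1 s : ℂ) * I)
        ((h1 t : ℂ) + (h2 t : ℂ) * I) t :=
      (hasDerivAt_ofReal (S.d1 t)).add ((hasDerivAt_ofReal (S.d2 t)).mul_const I)
    have hsl : (h t : ℂ) + (h1 t : ℂ) * I ∈ slitPlane := by
      left; simp [hp t]
    have hne : (h t : ℂ) + (h1 t : ℂ) * I ≠ 0 := Complex.slitPlane_ne_zero hsl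
    have h3 := (Complex.ofRealCLM.hasDerivAt (x := t)).add ((h0.clog_real hsl).const_mul (-I))
    refine h3.congr_deriv ?_
    rw [bd_eq, tng, rho]
    have := Complex.exp_ne_zero (t * I)
    rw [mul_div_mul_right _ _ this, eq_div_iff hne, add_mul, mul_assoc, div_mul_cancel₀ _ hne]
    simp only [Complex.ofRealCLM_apply]
    push_cast
    linear_combination (-(h2 t : ℂ)) * Complex.I_sq
  rw [intervalIntegral.integral_eq_sub_of_hasDerivAt (fun t _ => hd t)]
  · have e1 := S.per 0
    have e2 := S.per1 0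
    rw [zero_add] at e1 e2
    simp only [e1, e2]
    push_cast
    ring
  · apply Continuous.intervalIntegrable
    exact S.cont_tng.div S.cont_bd fun t => bd_ne_zero (hp t)

end Vale.Agent.P123
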