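import Vale.Agent.P123.Cauchy

/-!
# P123: positivity of the operator `α` near the boundary
-/

open Complex MeasureTheory Set Filter Topology
open scoped Real ComplexConjugate

namespace Vale.Agent.P123

variable {h h1 h2 : ℝ → ℝ}

lemma arctan_le_of_pos {x : ℝ} (hx : 0 ≤ x) : Real.arctan x ≤ x := by
  have h1 : 0 ≤ Real.arctan x := Real.arctan_nonneg.2 hx
  have := Real.le_tan h1 (Real.arctan_lt_pi_div_two x)
  rwa [Real.tan_arctan] at this

lemma arctan_ge {x : ℝ} (hx : 0 < x) : π / 2 - x⁻¹ ≤ Real.arctan x := by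
  have h1 := Real.arctan_inv_of_pos hx
  have h2 := arctan_le_of_pos (inv_nonneg.2 hx.le)
  linarith

/-- One-sided estimate near the point of a convex curve closest to the origin. -/
lemma one_sided {f f1 f2 : ℝ → ℝ} (hf : ∀ s, HasDerivAt f (f1 s) s)
    (hf1 : ∀ s, HasDerivAt f1 (f2 s) s) (pos : ∀ s, 0 < f s) {r0 r1 d τ : ℝ}
    (lo : ∀ s, r0 ≤ f s + f2 s) (hi : ∀ s, f s + f2 s ≤ r1) (hr0 : 0 < r0)
    (h0 : f 0 = d) (h10 : f1 0 = 0) (hτ : 0 < τ) (hτ2 : r1 * τ ^ 2 ≤ r0 / 2)
    (hd : d ≤ r1 * τ ^ 2 / 2) : r0 / (2 * r1 * τ) ≤ f1 τ / f τ := by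
  have hr1 : 0 < r1 := lt_of_lt_of_le hr0 ((lo 0).trans (hi 0))
  have c0 : Continuous f := continuous_iff_continuousAt.2 fun s => (hf s).continuousAt
  have c1 : Continuous f1 := continuous_iff_continuousAt.2 fun s => (hf1 s).continuousAt
  -- `f1 s ≤ r1 * s`
  have a1 : ∀ s, 0 ≤ s → f1 s ≤ r1 * s := by
    intro s hs
    have hm : MonotoneOn (fun s => r1 * s - f1 s) (Ici 0) := by
      apply monotoneOn_of_deriv_nonneg (convex_Ici 0) (by fun_prop)
      · intro x _
        exact (((hasDerivAt_id x).const_mul r1).sub (hf1 x)).differentiableAt.differentiableWithinAt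
      · intro x _
        have : HasDerivAt (fun s => r1 * s - f1 s) (r1 * 1 - f2 x) x :=
          ((hasDerivAt_id x).const_mul r1).sub (hf1 x)
        rw [this.deriv]
        have := hi x
        have := pos x
        linarith
    have := hm (mem_Ici.2 (le_refl 0)) (mem_Ici.2 hs) hs
    simp only [h10] at this
    linarith
  -- `f s ≤ d + r1 * s ^ 2 / 2`
  have a0 : ∀ s, 0 ≤ s → f s ≤ d + r1 * s ^ 2 / 2 := by
    intro s hs
    have hm : MonotoneOn (fun s => r1 / 2 * s ^ 2 - f s) (Ici 0) := by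
      have hdv : ∀ x, HasDerivAt (fun s => r1 / 2 * s ^ 2 - f s) (r1 / 2 * (2 * x) - f1 x) x := by
        intro x
        have := ((hasDerivAt_pow 2 x).const_mul (r1 / 2)).sub (hf x)
        refine this.congr_deriv ?_
        norm_num
      apply monotoneOn_of_deriv_nonneg (convex_Ici 0) (by fun_prop)
      · intro x _
        exact (hdv x).differentiableAt.differentiableWithinAt
      · intro x hx
        rw [interior_Ici, mem_Ioi] at hx
        rw [(hdv x).deriv]
        have := a1 x hx.le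
        linarith
    have := hm (mem_Ici.2 (le_refl 0)) (mem_Ici.2 hs) hs
    simp only [h0] at this
    linarith
  have a2 : r0 * τ / 2 ≤ f1 τ := by
    have hm : MonotoneOn (fun s => f1 s - r0 / 2 * s) (Icc 0 τ) := by
      have hdv : ∀ x, HasDerivAt (fun s => f1 s - r0 / 2 * s) (f2 x - r0 / 2 * 1) x := by
        intro x
        exact (hf1 x).sub ((hasDerivAt_id x).const_mul (r0 / 2))
      apply monotoneOn_of_deriv_nonneg (convex_Icc 0 τ) (by fun_prop)
      · intro x _
        exact (hdv x).differentiableAt.differentiableWithinAt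
      · intro x hx
        rw [interior_Icc] at hx
        rw [(hdv x).deriv]
        have b1 := a0 x hx.1.le
        have b2 := lo x
        have b3 : r1 * x ^ 2 ≤ r1 * τ ^ 2 := by
          apply mul_le_mul_of_nonneg_left _ hr1.le
          exact pow_le_pow_left₀ hx.1.le hx.2.le 2
        linarith
    have := hm (left_mem_Icc.2 hτ.le) (right_mem_Icc.2 hτ.le) hτ.le
    simp only [h10] at this
    linarith
  have a3 : f τ ≤ r1 * τ ^ 2 := by
    have := a0 τ hτ.le
    linarith
  rw [div_le_div_iff₀ (by positivity) (pos τ)]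
  calc r0 * f τ ≤ r0 * (r1 * τ ^ 2) := mul_le_mul_of_nonneg_left a3 hr0.le
    _ = (r0 * τ / 2) * (2 * r1 * τ) := by ring
    _ ≤ f1 τ * (2 * r1 * τ) := mul_le_mul_of_nonneg_right a2 (by positivity)

/-- The kernel `π⁻¹ d arg(σ - z)` at the origin, up to normalisation. -/
noncomputable def pker (h h1 h2 : ℝ → ℝ) (t : ℝ) : ℝ :=
  2 * (rho h h2 t * h t / (h t ^ 2 + h1 t ^ 2))

lemma SuppData.hasDerivAt_arg (S : SuppData h h1 h2) (hp : ∀ t, 0 < h t) (t : ℝ) :
    HasDerivAt (fun t => 2 * (t + Real.arctan (h1 t / h t))) (pker h h1 h2 t) t := by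
  have h3 : HasDerivAt (fun t => h1 t / h t) ((h2 t * h t - h1 t * h1 t) / h t ^ 2) t :=
    (S.d2 t).div (S.d1 t) (hp t).ne'
  have h4 := ((hasDerivAt_id t).add h3.arctan).const_mul 2
  refine h4.congr_deriv ?_
  have := hp t
  have h5 : 0 < h t ^ 2 + h1 t ^ 2 := by positivity
  have h6 : 0 < 1 + (h1 t / h t) ^ 2 := by positivity
  unfold pker rho
  have h7 : 1 + (h1 t / h t) ^ 2 = (h t ^ 2 + h1 t ^ 2) / h t ^ 2 := by
    field_simp
  rw [h7]
  field_simp
  ring

lemma SuppData.pker_pos (S : SuppData h h1 h2) (hp : ∀ t, 0 < h t) (t : ℝ) :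
    0 < pker h h1 h2 t := by
  have := hp t
  have := S.rho_pos t
  unfold pker
  positivity

lemma SuppData.cont_pker (S : SuppData h h1 h2) (hp : ∀ t, 0 < h t) :
    Continuous (pker h h1 h2) := by
  have c0 := S.c0
  have c1 := S.c1
  have c2 := S.cont_rho
  unfold pker
  refine continuous_const.mul ((c2.mul c0).div ((c0.pow 2).add (c1.pow 2)) fun t => ?_)
  have := hp t
  positivity

lemma re_tng_div (t : ℝ) :
    2 * (tng h h2 t / bd h h1 t).re = pker h h1 h2 t := by
  have h3 : tng h h2 t / bd h h1 t = (rho h h2 t : ℂ) / ((h t : ℂ) + (h1 t : ℂ) * I) := by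
    rw [tng, bd_eq, mul_div_mul_right _ _ (Complex.exp_ne_zero _)]
  rw [h3, pker, Complex.div_re]
  simp [Complex.normSq_apply]
  ring

/-- The mass of the kernel near the closest boundary point. -/
lemma SuppData.near_mass (S : SuppData h h1 h2) (hp : ∀ t, 0 < h t) {r0 r1 d τ θ : ℝ}
    (lo : ∀ s, r0 ≤ rho h h2 s) (hi : ∀ s, rho h h2 s ≤ r1) (hr0 : 0 < r0)
    (h0 : h θ = d) (h10 : h1 θ = 0) (hτ : 0 < τ) (hτ2 : r1 * τ ^ 2 ≤ r0 / 2)
    (hd : d ≤ r1 * τ ^ 2 / 2) :
    2 * π - 8 * r1 / r0 * τ ≤ ∫ t in (θ - τ)..(θ + τ), pker h h1 h2 t := by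
  have hr1 : 0 < r1 := lt_of_lt_of_le hr0 ((lo 0).trans (hi 0))
  rw [intervalIntegral.integral_eq_sub_of_hasDerivAt (fun t _ => S.hasDerivAt_arg hp t)
    ((S.cont_pker hp).intervalIntegrable _ _)]
  have r : r0 / (2 * r1 * τ) ≤ h1 (θ + τ) / h (θ + τ) := by
    refine one_sided (f := fun s => h (θ + s)) (f1 := fun s => h1 (θ + s))
      (f2 := fun s => h2 (θ + s)) ?_ ?_ ?_ (r0 := r0) (r1 := r1) (d := d) ?_ ?_ hr0 ?_ ?_ hτ hτ2 hd
    · intro s; exact (S.d1 (θ + s)).comp_const_add θ s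
    · intro s; exact (S.d2 (θ + s)).comp_const_add θ s
    · intro s; exact hp _
    · intro s; exact lo (θ + s)
    · intro s; exact hi (θ + s)
    · simpa using h0
    · simpa using h10
  have l : r0 / (2 * r1 * τ) ≤ -(h1 (θ - τ)) / h (θ - τ) := by
    refine one_sided (f := fun s => h (θ - s)) (f1 := fun s => -h1 (θ - s))
      (f2 := fun s => h2 (θ - s)) ?_ ?_ ?_ (r0 := r0) (r1 := r1) (d := d) ?_ ?_ hr0 ?_ ?_ hτ hτ2 hd
    · intro s; exact (S.d1 (θ - s)).comp_const_sub θ s
    · intro s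
      have := ((S.d2 (θ - s)).comp_const_sub θ s).neg
      rwa [neg_neg] at this
    · intro s; exact hp _
    · intro s; exact lo (θ - s)
    · intro s; exact hi (θ - s)
    · simpa using h0
    · simpa using h10
  have hx : 0 < r0 / (2 * r1 * τ) := by positivity
  have e1 := arctan_ge hx
  have e2 := Real.arctan_strictMono.monotone r
  have e3 := Real.arctan_strictMono.monotone l
  rw [neg_div, Real.arctan_neg] at e3
  have e4 : (r0 / (2 * r1 * τ))⁻¹ = 2 * r1 / r0 * τ := by
    rw [inv_div]; ring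
  rw [e4] at e1
  have e5 : 8 * r1 / r0 * τ = 4 * (2 * r1 / r0 * τ) := by ring
  rw [e5]
  linarith

end Vale.Agent.P123
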