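import Vale.Agent.P123.Cauchy

/-!
# P123: operators with numerical range inside a smooth convex domain
-/

open Complex MeasureTheory Set Filter Topology
open scoped Real ComplexConjugate

namespace Vale.Agent.P123

set_option linter.unusedSectionVars false

variable {H : Type*} [NormedAddCommGroup H] [InnerProductSpace ℂ H] [CompleteSpace H]
variable {h h1 h2 : ℝ → ℝ}

lemma norm_sub_smul_sq (T : H →L[ℂ] H) (l : ℝ) (v : H) :
    ‖v - (l : ℂ) • T v‖ ^ 2
      = ‖v‖ ^ 2 - 2 * l * (inner ℂ v (T v)).re + l ^ 2 * ‖T v‖ ^ 2 := by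
  have h0 := @norm_sub_sq ℂ H _ _ _ v ((l : ℂ) • T v)
  rw [h0, inner_smul_right, norm_smul]
  simp only [RCLike.re_to_complex, Complex.re_ofReal_mul, Complex.norm_real, Real.norm_eq_abs,
    mul_pow, sq_abs]
  ring

/-- A strictly accretive operator is invertible. -/
lemma isUnit_of_accretive (T : H →L[ℂ] H) {c : ℝ} (hc : 0 < c)
    (hT : ∀ v, c * ‖v‖ ^ 2 ≤ (inner ℂ v (T v)).re) : IsUnit T := by
  set M : ℝ := ‖T‖ + c with hM
  have hM0 : 0 < M := by positivity
  have hcM : c ≤ M := by have := norm_nonneg T; linarith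
  set l : ℝ := c / M ^ 2 with hl
  have hl0 : 0 < l := by positivity
  set q : ℝ := Real.sqrt (1 - c ^ 2 / M ^ 2) with hq
  have hq1 : q < 1 := by
    rw [hq, Real.sqrt_lt' one_pos]
    have : 0 < c ^ 2 / M ^ 2 := by positivity
    linarith
  have hq2 : 0 ≤ 1 - c ^ 2 / M ^ 2 := by
    have : c ^ 2 / M ^ 2 ≤ 1 := by
      rw [div_le_one (by positivity)]
      exact pow_le_pow_left₀ hc.le hcM 2
    linarith
  have hB : ‖(1 : H →L[ℂ] H) - (l : ℂ) • T‖ ≤ q := by
    apply ContinuousLinearMap.opNorm_le_bound _ (Real.sqrt_nonneg _)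
    intro v
    have h1 : ‖((1 : H →L[ℂ] H) - (l : ℂ) • T) v‖ ^ 2 ≤ (q * ‖v‖) ^ 2 := by
      have : ((1 : H →L[ℂ] H) - (l : ℂ) • T) v = v - (l : ℂ) • T v := by simp
      rw [this, norm_sub_smul_sq, mul_pow, hq, Real.sq_sqrt hq2]
      have h2 : ‖T v‖ ^ 2 ≤ M ^ 2 * ‖v‖ ^ 2 := by
        rw [← mul_pow]
        apply pow_le_pow_left₀ (norm_nonneg _)
        refine (T.le_opNorm v).trans (mul_le_mul_of_nonneg_right ?_ (norm_nonneg _))
        linarith
      have h3 : 2 * l * (c * ‖v‖ ^ 2) ≤ 2 * l * (inner ℂ v (T v)).re :=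
        mul_le_mul_of_nonneg_left (hT v) (by positivity)
      have h4 : l ^ 2 * ‖T v‖ ^ 2 ≤ l ^ 2 * (M ^ 2 * ‖v‖ ^ 2) :=
        mul_le_mul_of_nonneg_left h2 (by positivity)
      have h5 : l ^ 2 * (M ^ 2 * ‖v‖ ^ 2) = c ^ 2 / M ^ 2 * ‖v‖ ^ 2 := by
        rw [hl]; field_simp
      have h6 : 2 * l * (c * ‖v‖ ^ 2) = 2 * (c ^ 2 / M ^ 2 * ‖v‖ ^ 2) := by
        rw [hl]; field_simp
      nlinarith
    exact le_of_sq_le_sq h1 (mul_nonneg (Real.sqrt_nonneg _) (norm_nonneg _))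
  have hu : IsUnit ((l : ℂ) • T) := by
    have := isUnit_one_sub_of_norm_lt_one (lt_of_le_of_lt hB hq1)
    rwa [sub_sub_cancel] at this
  have hlc : (l : ℂ) ≠ 0 := by exact_mod_cast hl0.ne'
  have h7 : T = (Units.mk0 (l : ℂ) hlc)⁻¹ • ((l : ℂ) • T) := by
    rw [Units.smul_def, smul_smul]
    simp [hlc]
  rw [h7]
  exact hu.smul _

/-- The numerical range of `A` lies at depth `η` in the convex body with support function `h`. -/
def Gap (h : ℝ → ℝ) (η : ℝ) (A : H →L[ℂ] H) : Prop :=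
  ∀ (t : ℝ) (v : H), (exp (-(t * I)) * inner ℂ v (A v)).re ≤ (h t - η) * ‖v‖ ^ 2

lemma inner_twist (A : H →L[ℂ] H) (s t : ℝ) (v : H) :
    (inner ℂ v ((exp (-(t * I)) • (algebraMap ℂ (H →L[ℂ] H) (bd h h1 t) - s • A)) v)).re
      = h t * ‖v‖ ^ 2 - s * (exp (-(t * I)) * inner ℂ v (A v)).re := by
  have e : (exp (-(t * I)) • (algebraMap ℂ (H →L[ℂ] H) (bd h h1 t) - s • A)) v
      = (exp (-(t * I)) * bd h h1 t) • v - (s : ℂ) • (exp (-(t * I)) • A v) := by
    have : (algebraMap ℂ (H →L[ℂ] H) (bd h h1 t)) v = bd h h1 t • v := rfl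
    rw [_root_.smul_apply, _root_.sub_apply, this, smul_sub, smul_smul,
      _root_.smul_apply, ← Complex.coe_smul, smul_comm (s : ℂ)]
  have e4 : inner ℂ v v = ((‖v‖ ^ 2 : ℝ) : ℂ) := by
    rw [inner_self_eq_norm_sq_to_K]; norm_cast
  rw [e, inner_sub_right, inner_smul_right, inner_smul_right, inner_smul_right, e4]
  rw [Complex.sub_re, Complex.re_ofReal_mul]
  congr 1
  rw [Complex.re_mul_ofReal, re_exp_mul_bd_self]

lemma isUnit_of_gap {m η : ℝ} (hm : 0 < m) (hmh : ∀ t, m ≤ h t) (hη : 0 < η) {A : H →L[ℂ] H}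
    (hA : Gap h η A) {s : ℝ} (hs : s ∈ Icc (0 : ℝ) 1) (t : ℝ) :
    IsUnit (algebraMap ℂ (H →L[ℂ] H) (bd h h1 t) - s • A) := by
  have hu : IsUnit (exp (-(t * I)) • (algebraMap ℂ (H →L[ℂ] H) (bd h h1 t) - s • A)) := by
    apply isUnit_of_accretive _ (lt_min hm hη)
    intro v
    rw [inner_twist]
    have h3 := mul_le_mul_of_nonneg_left (hA t v) hs.1
    have h4 : min m η ≤ (1 - s) * h t + s * η := by
      have h5 : (1 - s) * min m η ≤ (1 - s) * h t :=
        mul_le_mul_of_nonneg_left ((min_le_left _ _).trans (hmh t)) (by linarith [hs.2])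
      have h6 : s * min m η ≤ s * η := mul_le_mul_of_nonneg_left (min_le_right _ _) hs.1
      linarith
    have h7 := mul_le_mul_of_nonneg_right h4 (sq_nonneg ‖v‖)
    nlinarith
  have hne : exp (-(t * I)) ≠ 0 := Complex.exp_ne_zero _
  have h7 : (algebraMap ℂ (H →L[ℂ] H) (bd h h1 t) - s • A) = (Units.mk0 _ hne)⁻¹ •
      (exp (-(t * I)) • (algebraMap ℂ (H →L[ℂ] H) (bd h h1 t) - s • A)) := by
    rw [Units.smul_def, smul_smul]
    simp
  rw [h7]
  exact hu.smul _

/-- The weighted resolvent. -/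
noncomputable def wres (h h1 h2 : ℝ → ℝ) (A : H →L[ℂ] H) (t : ℝ) : H →L[ℂ] H :=
  tng h h2 t • res h h1 A t

lemma wres_pos (S : SuppData h h1 h2) {A : H →L[ℂ] H} {t : ℝ}
    (hA : ∀ v : H, (exp (-(t * I)) * inner ℂ v (A v)).re ≤ h t * ‖v‖ ^ 2)
    (hu : IsUnit (algebraMap ℂ (H →L[ℂ] H) (bd h h1 t) - A)) (v : H) :
    0 ≤ (inner ℂ v (wres h h1 h2 A t v)).re := by
  set w := res h h1 A t v with hw
  have hv : v = (algebraMap ℂ (H →L[ℂ] H) (bd h h1 t) - A) w := by
    have : (algebraMap ℂ (H →L[ℂ] H) (bd h h1 t) - A) * res h h1 A t = 1 :=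
      Ring.mul_inverse_cancel _ hu
    rw [hw, ← _root_.mul_apply_eq_comp, this]
    rfl
  have h1' : inner ℂ v (wres h h1 h2 A t v) = tng h h2 t * inner ℂ v w := by
    rw [wres, _root_.smul_apply, inner_smul_right]
  have h2' := inner_twist (h := h) (h1 := h1) A 1 t w
  rw [one_smul] at h2'
  rw [h1', tng, mul_assoc, Complex.re_ofReal_mul]
  apply mul_nonneg (S.rho_pos t).le
  have h3 : (exp (t * I) * inner ℂ v w).re
      = (inner ℂ w ((exp (-(t * I)) • (algebraMap ℂ (H →L[ℂ] H) (bd h h1 t) - A)) w)).re := by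
    rw [_root_.smul_apply, ← hv, inner_smul_right]
    have : exp (t * I) * inner ℂ v w = conj (exp (-(t * I)) * inner ℂ w v) := by
      rw [map_mul, inner_conj_symm, ← Complex.exp_conj]
      simp
    rw [this, Complex.conj_re]
  rw [h3, h2']
  have := hA w
  linarith

/-- The positive semidefinite kernel attached to `A`. -/
noncomputable def kern (h h1 h2 : ℝ → ℝ) (A : H →L[ℂ] H) (t : ℝ) (y x : H) : ℂ :=
  inner ℂ y (wres h h1 h2 A t x) + inner ℂ (wres h h1 h2 A t y) x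

lemma kern_conj (A : H →L[ℂ] H) (t : ℝ) (y x : H) :
    conj (kern h h1 h2 A t y x) = kern h h1 h2 A t x y := by
  unfold kern
  rw [map_add, inner_conj_symm, inner_conj_symm, add_comm]

lemma kern_self_re (A : H →L[ℂ] H) (t : ℝ) (x : H) :
    (kern h h1 h2 A t x x).re = 2 * (inner ℂ x (wres h h1 h2 A t x)).re := by
  unfold kern
  rw [Complex.add_re, ← inner_conj_symm (wres h h1 h2 A t x) x, Complex.conj_re]
  ring

lemma kern_self_im (A : H →L[ℂ] H) (t : ℝ) (x : H) :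
    (kern h h1 h2 A t x x).im = 0 := by
  have := congrArg Complex.im (kern_conj (h := h) (h1 := h1) (h2 := h2) A t x x)
  rw [Complex.conj_im] at this
  linarith

lemma kern_pos (S : SuppData h h1 h2) {A : H →L[ℂ] H} {t : ℝ}
    (hA : ∀ v : H, (exp (-(t * I)) * inner ℂ v (A v)).re ≤ h t * ‖v‖ ^ 2)
    (hu : IsUnit (algebraMap ℂ (H →L[ℂ] H) (bd h h1 t) - A)) (v : H) :
    0 ≤ (kern h h1 h2 A t v v).re := by
  rw [kern_self_re]
  have := wres_pos S hA hu v
  linarith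

lemma kern_quadratic (A : H →L[ℂ] H) (t : ℝ) (a b : ℂ) (x y : H) :
    (kern h h1 h2 A t (a • x + b • y) (a • x + b • y)).re
      = ‖a‖ ^ 2 * (kern h h1 h2 A t x x).re + ‖b‖ ^ 2 * (kern h h1 h2 A t y y).re
        + 2 * (conj b * a * kern h h1 h2 A t y x).re := by
  have e : kern h h1 h2 A t (a • x + b • y) (a • x + b • y)
      = conj a * a * kern h h1 h2 A t x x + conj b * b * kern h h1 h2 A t y y
        + conj b * a * kern h h1 h2 A t y x + conj (conj b * a * kern h h1 h2 A t y x) := by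
    rw [map_mul, kern_conj]
    unfold kern
    simp only [map_add, map_smul, inner_add_left, inner_add_right, inner_smul_left,
      inner_smul_right, map_mul, Complex.conj_conj]
    ring
  rw [e]
  simp only [Complex.add_re, Complex.conj_re]
  have h3 : (conj a * a * kern h h1 h2 A t x x).re = ‖a‖ ^ 2 * (kern h h1 h2 A t x x).re := by
    rw [← Complex.normSq_eq_conj_mul_self, Complex.re_ofReal_mul, Complex.normSq_eq_norm_sq]
  have h4 : (conj b * b * kern h h1 h2 A t y y).re = ‖b‖ ^ 2 * (kern h h1 h2 A t y y).re := by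
    rw [← Complex.normSq_eq_conj_mul_self, Complex.re_ofReal_mul, Complex.normSq_eq_norm_sq]
  rw [h3, h4]
  ring

/-- Pointwise positivity of the kernel against positive semidefinite `2 × 2` functions. -/
lemma kern_two_pos (S : SuppData h h1 h2) {A : H →L[ℂ] H} {t : ℝ}
    (hA : ∀ v : H, (exp (-(t * I)) * inner ℂ v (A v)).re ≤ h t * ‖v‖ ^ 2)
    (hu : IsUnit (algebraMap ℂ (H →L[ℂ] H) (bd h h1 t) - A)) {p q : ℝ} {c : ℂ}
    (hp : 0 ≤ p) (hq : 0 ≤ q) (hc : ‖c‖ ^ 2 ≤ p * q) (x y : H) :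
    2 * (c * kern h h1 h2 A t y x).re
      ≤ p * (kern h h1 h2 A t x x).re + q * (kern h h1 h2 A t y y).re := by
  have hx := kern_pos S hA hu x
  have hy := kern_pos S hA hu y
  rcases eq_or_lt_of_le hp with hp0 | hp0
  · have hc0 : c = 0 := by
      rw [← hp0, zero_mul] at hc
      have : ‖c‖ ^ 2 = 0 := le_antisymm hc (sq_nonneg _)
      simpa using this
    rw [hc0, zero_mul, Complex.zero_re, mul_zero]
    positivity
  · -- use the vector `√p x - (c / √p)ᶜ y`
    have hs : Real.sqrt p ≠ 0 := (Real.sqrt_pos.2 hp0).ne'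
    have h3 := kern_pos S hA hu ((Real.sqrt p : ℂ) • x + (-(conj c) / (Real.sqrt p : ℂ)) • y)
    rw [kern_quadratic] at h3
    have e1 : ‖(Real.sqrt p : ℂ)‖ ^ 2 = p := by
      rw [Complex.norm_real, Real.norm_eq_abs, sq_abs, Real.sq_sqrt hp]
    have e2 : ‖-(conj c) / (Real.sqrt p : ℂ)‖ ^ 2 ≤ q := by
      rw [norm_div, div_pow, e1, norm_neg, RCLike.norm_conj, div_le_iff₀ hp0]
      linarith
    have e3 : conj (-(conj c) / (Real.sqrt p : ℂ)) * (Real.sqrt p : ℂ) = -c := by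
      rw [map_div₀, map_neg, Complex.conj_conj, Complex.conj_ofReal]
      have : (Real.sqrt p : ℂ) ≠ 0 := by exact_mod_cast hs
      field_simp
    rw [e1, e3, neg_mul, Complex.neg_re] at h3
    have h4 := mul_le_mul_of_nonneg_right e2 hy
    linarith

end Vale.Agent.P123
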