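import Vale.Agent.P123.Approx2

/-!
# P123: the package (FIN) and (SYS) for operators with numerical range in a smooth convex body
-/

open Complex MeasureTheory Set Filter Topology
open scoped Real ComplexConjugate Polynomial

namespace Vale.Agent.P123

set_option linter.unusedSectionVars false

variable {H : Type*} [NormedAddCommGroup H] [InnerProductSpace ℂ H] [CompleteSpace H]
variable {h h1 h2 : ℝ → ℝ}

/-- Frontier points of the body lie on the boundary curve. -/
lemma SuppData.frontier_subset (S : SuppData h h1 h2) {z : ℂ} (hzf : z ∈ frontier (body h)) :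
    ∃ t, z = bd h h1 t := by
  have hzb : z ∈ body h := (isClosed_body h).frontier_subset hzf
  have T := S.translate z
  obtain ⟨θ, hθ⟩ := exists_min_of_periodic T.c0 T.per
  have h0 : 0 ≤ hz h z θ := by
    have := hzb θ
    simp only [Vale.Agent.P123.hz]; linarith
  rcases eq_or_lt_of_le h0 with h0 | h0
  · refine ⟨θ, ?_⟩
    have h10 : hz1 h1 z θ = 0 := by
      apply IsLocalMin.hasDerivAt_eq_zero _ (T.d1 θ)
      exact Eventually.of_forall hθ
    have h3 := bd_translate h h1 z θ
    rw [bd_eq, h10, ← h0] at h3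
    simp only [Complex.ofReal_zero, zero_mul, add_zero] at h3
    exact (sub_eq_zero.1 h3.symm).symm
  · exfalso
    apply hzf.2
    rw [mem_interior_iff_mem_nhds, Metric.mem_nhds_iff]
    refine ⟨hz h z θ, h0, fun w hw t => ?_⟩
    rw [Metric.mem_ball, dist_eq_norm] at hw
    have h3 : (exp (-(t * I)) * w).re = (exp (-(t * I)) * z).re + (exp (-(t * I)) * (w - z)).re := by
      rw [← Complex.add_re]; congr 1; ring
    have h4 : (exp (-(t * I)) * (w - z)).re ≤ ‖w - z‖ := by
      refine (Complex.re_le_norm _).trans ?_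
      rw [norm_mul, norm_exp_neg, one_mul]
    have h5 := hθ t
    have h6 : Vale.Agent.P123.hz h z t = h t - (exp (-(t * I)) * z).re := rfl
    rw [h6] at h5
    linarith

/-- The maximum principle for real parts of polynomials. -/
lemma SuppData.max_principle (S : SuppData h h1 h2) (Q : ℂ[X]) {C : ℝ}
    (hQ : ∀ t, (Q.eval (bd h h1 t)).re ≤ C) : ∀ z ∈ body h, (Q.eval z).re ≤ C := by
  intro z hz
  have hd : DiffContOnCl ℂ (fun z => exp (Q.eval z)) (body h) :=
    (Q.differentiable.cexp).diffContOnCl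
  have h3 := Complex.norm_le_of_forall_mem_frontier_norm_le S.isCompact_body.isBounded hd
    (C := Real.exp C) (fun w hw => by
      obtain ⟨t, rfl⟩ := S.frontier_subset hw
      rw [Complex.norm_exp]
      exact Real.exp_le_exp.2 (hQ t)) (subset_closure hz)
  rw [Complex.norm_exp, Real.exp_le_exp] at h3
  exact h3

lemma gap_zero {m : ℝ} (hmh : ∀ t, m ≤ h t) : Gap h m (0 : ℂ →L[ℂ] ℂ) := by
  intro t v
  simp only [_root_.zero_apply, inner_zero_right, mul_zero, Complex.zero_re]
  have := hmh t
  apply mul_nonneg _ (sq_nonneg _)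
  linarith

/-- Positivity of `α` in the interior. -/
theorem SuppData.interior_pos (S : SuppData h h1 h2) {m : ℝ} (hm : 0 < m) (hmh : ∀ t, m ≤ h t)
    (F : ℂ[X]) {C : ℝ} (hF : ∀ z ∈ body h, (F.eval z).re ≤ C) {w : ℂ} (hw : w ∈ intr h) :
    (cas h h1 h2 (cbd h h1 F) w).re ≤ C := by
  have hp : ∀ t, 0 < h t := fun t => hm.trans_le (hmh t)
  obtain ⟨tM, htM⟩ := exists_max_of_periodic S.c0 S.per
  set M := h tM with hM
  have hM0 : 0 < M := hp tM
  -- bound for `F` on the curve
  obtain ⟨B, hB⟩ : ∃ B, ∀ z ∈ body h, ‖F.eval z‖ ≤ B :=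
    S.isCompact_body.exists_bound_of_continuousOn F.continuous.continuousOn
  have hB0 : 0 ≤ B := (norm_nonneg _).trans (hB _ (S.bd_mem_body 0))
  -- depth of `w`
  have T := S.translate w
  obtain ⟨θ, hθ⟩ := exists_min_of_periodic T.c0 T.per
  set c := hz h w θ with hc
  have hc0 : 0 < c := by have := hw θ; simp only [hc, hz]; linarith
  apply le_of_forall_pos_le_add
  intro ε hε
  obtain ⟨δ, hδ, hnear⟩ := S.near_boundary hp F hF (show 0 < ε / 3 by positivity)
  -- choice of `r`
  obtain ⟨r, hr0, hr1, hrc, hrδ⟩ : ∃ r : ℝ, 0 < r ∧ r < 1 ∧ (1 - r) * M ≤ c ∧ (1 - r) * M < δ := by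
    refine ⟨1 - min (1 / 2) (min c (δ / 2) / M), ?_, ?_, ?_, ?_⟩
    · have : min (1 / 2) (min c (δ / 2) / M) ≤ 1 / 2 := min_le_left _ _
      linarith
    · have : 0 < min (1 / 2) (min c (δ / 2) / M) := by positivity
      linarith
    · rw [sub_sub_cancel]
      calc min (1 / 2) (min c (δ / 2) / M) * M ≤ min c (δ / 2) / M * M :=
            mul_le_mul_of_nonneg_right (min_le_right _ _) hM0.le
        _ = min c (δ / 2) := by field_simp
        _ ≤ c := min_le_left _ _
    · rw [sub_sub_cancel]
      calc min (1 / 2) (min c (δ / 2) / M) * M ≤ min c (δ / 2) / M * M :=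
            mul_le_mul_of_nonneg_right (min_le_right _ _) hM0.le
        _ = min c (δ / 2) := by field_simp
        _ ≤ δ / 2 := min_le_right _ _
        _ < δ := by linarith
  have hrne : (r : ℂ) ≠ 0 := by exact_mod_cast hr0.ne'
  -- approximation
  obtain ⟨L, N, _, happ⟩ := S.approx_all hm hmh hm (gap_zero hmh) hr0 hr1
    (show 0 < ε / (3 * (B + 1)) by positivity)
  have hgB : ∀ t, ‖cbd h h1 F t‖ ≤ B := fun t => by
    rw [cbd, RCLike.norm_conj]; exact hB _ (S.bd_mem_body t)
  have h3 := (happ (cbd h h1 F) (S.cont_cbd F) B hgB).1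
  have hεB : ε / (3 * (B + 1)) * B ≤ ε / 3 := by
    rw [div_mul_eq_mul_div, div_le_div_iff₀ (by positivity) (by norm_num)]
    nlinarith
  set Q := apx h h1 h2 r L N (cbd h h1 F) with hQ
  have hQbd : ∀ s, (Q.eval (bd h h1 s)).re ≤ C + 2 * ε / 3 := by
    intro s
    have h4 := h3 _ (S.bd_mem_body s)
    have h5 : (Q.eval (bd h h1 s)).re
        ≤ (cas h h1 h2 (cbd h h1 F) ((r : ℂ) * bd h h1 s)).re + ε / 3 := by
      have := (Complex.re_le_norm _).trans (h4.trans hεB)
      rw [Complex.sub_re] at this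
      linarith
    have h6 : (cas h h1 h2 (cbd h h1 F) ((r : ℂ) * bd h h1 s)).re ≤ C + ε / 3 := by
      refine hnear _ (mem_intr_smul hp (S.bd_mem_body s) hr0.le hr1) s ?_
      have : hz h ((r : ℂ) * bd h h1 s) s = (1 - r) * h s := by
        simp only [hz]
        rw [mul_left_comm, Complex.re_ofReal_mul, re_exp_mul_bd_self]
        ring
      rw [this]
      refine lt_of_le_of_lt ?_ hrδ
      exact mul_le_mul_of_nonneg_left (htM s) (by linarith)
    linarith
  have hQb := S.max_principle Q hQbd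
  -- evaluate at `w / r`
  have hwr : w / r ∈ body h := by
    intro t
    have h4 : exp (-(t * I)) * (w / r) = ((1 / r : ℝ) : ℂ) * (exp (-(t * I)) * w) := by
      push_cast; field_simp
    rw [h4, Complex.re_ofReal_mul, one_div, inv_mul_le_iff₀ hr0]
    have h5 := hθ t
    simp only [hz] at h5
    have h6 : (1 - r) * h t ≤ (1 - r) * M := mul_le_mul_of_nonneg_left (htM t) (by linarith)
    have h7 : c ≤ h t - (exp (-(t * I)) * w).re := h5
    linarith
  have h4 := h3 _ hwr
  rw [mul_div_cancel₀ _ hrne] at h4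
  have h5 := hQb _ hwr
  rw [norm_sub_rev] at h4
  have h6 := (Complex.re_le_norm _).trans (h4.trans hεB)
  rw [Complex.sub_re] at h6
  linarith

end Vale.Agent.P123
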