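import Vale.Agent.P123.BridgeThree

/-!
# P123: the constant two cannot be improved
-/

open Polynomial ComplexConjugate
open scoped InnerProductSpace

namespace Vale.Agent.P123

universe u

/-- The rank one operator `x ↦ ⟪v, x⟫ u`. -/
noncomputable def rankOne {H : Type u} [NormedAddCommGroup H] [InnerProductSpace ℂ H]
    (u v : H) : H →L[ℂ] H := (innerSL ℂ v).smulRight u

lemma rankOne_apply {H : Type u} [NormedAddCommGroup H] [InnerProductSpace ℂ H]
    (u v x : H) : rankOne u v x = ⟪v, x⟫_ℂ • u := rfl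

/-- Sharpness in any space with two orthonormal vectors. -/
theorem two_le_of_orthonormal {H : Type u} [NormedAddCommGroup H] [InnerProductSpace ℂ H]
    {u v : H} (hu : ‖u‖ = 1) (hv : ‖v‖ = 1) (huv : ⟪u, v⟫_ℂ = 0) {C : ℝ}
    (hC : ∀ (A : H →L[ℂ] H) (p : ℂ[X]) (M : ℝ),
      (∀ x : H, ‖x‖ = 1 → ‖p.eval ⟪x, A x⟫_ℂ‖ ≤ M) → ‖aeval A p‖ ≤ C * M) : 2 ≤ C := by
  have h1 : ∀ x : H, ‖x‖ = 1 → ‖(X : ℂ[X]).eval ⟪x, rankOne u v x⟫_ℂ‖ ≤ 1 / 2 := by
    intro x hx
    rw [eval_X, rankOne_apply, inner_smul_right, norm_mul]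
    have hon : Orthonormal ℂ ![u, v] := by
      rw [orthonormal_iff_ite]
      intro i j
      have hvu : ⟪v, u⟫_ℂ = 0 := by rw [← inner_conj_symm, huv, map_zero]
      fin_cases i <;> fin_cases j <;> simp [huv, hvu, hu, hv, inner_self_eq_norm_sq_to_K]
    have hb := hon.sum_inner_products_le (s := Finset.univ) x
    rw [Fin.sum_univ_two, hx] at hb
    simp only [Matrix.cons_val_zero, Matrix.cons_val_one] at hb
    have h2 : ‖⟪x, u⟫_ℂ‖ = ‖⟪u, x⟫_ℂ‖ := norm_inner_symm x u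
    rw [h2]
    nlinarith [sq_nonneg (‖⟪v, x⟫_ℂ‖ - ‖⟪u, x⟫_ℂ‖)]
  have h3 := hC (rankOne u v) X (1 / 2) h1
  rw [aeval_X] at h3
  have h4 : (1 : ℝ) ≤ ‖rankOne u v‖ := by
    have h5 := (rankOne u v).le_opNorm v
    rw [rankOne_apply, inner_self_eq_norm_sq_to_K, hv, norm_smul, hu] at h5
    simpa using h5
  linarith

end Vale.Agent.P123
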