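import Vale.Agent.P123.TH

/-!
# P123: smooth convex domains close to a bounded convex set
-/

open Complex Set MeasureTheory intervalIntegral
open scoped Real ComplexConjugate

namespace Vale.Agent.P123

/-- support function of a plane set -/
noncomputable def supp (K : Set ℂ) (t : ℝ) : ℝ := sSup ((fun z => (exp (-(t * I)) * z).re) '' K)

section supp

variable {K : Set ℂ} {R : ℝ}

lemma norm_exp_neg (t : ℝ) : ‖exp (-(t * I))‖ = 1 := by
  have : -((t : ℂ) * I) = ((-t : ℝ) : ℂ) * I := by push_cast; ring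
  rw [this, Complex.norm_exp_ofReal_mul_I]

lemma re_exp_mul_le (hR : ∀ z ∈ K, ‖z‖ ≤ R) (t : ℝ) {z : ℂ} (hz : z ∈ K) :
    (exp (-(t * I)) * z).re ≤ R := by
  refine (Complex.re_le_norm _).trans ?_
  rw [norm_mul, norm_exp_neg, one_mul]
  exact hR z hz

lemma bddAbove_supp (hR : ∀ z ∈ K, ‖z‖ ≤ R) (t : ℝ) :
    BddAbove ((fun z => (exp (-(t * I)) * z).re) '' K) := by
  refine ⟨R, ?_⟩
  rintro _ ⟨z, hz, rfl⟩
  exact re_exp_mul_le hR t hz

lemma le_supp (hR : ∀ z ∈ K, ‖z‖ ≤ R) (t : ℝ) {z : ℂ} (hz : z ∈ K) :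
    (exp (-(t * I)) * z).re ≤ supp K t :=
  le_csSup (bddAbove_supp hR t) ⟨z, hz, rfl⟩

lemma supp_le (hne : K.Nonempty) {t c : ℝ} (h : ∀ z ∈ K, (exp (-(t * I)) * z).re ≤ c) :
    supp K t ≤ c := by
  apply csSup_le (hne.image _)
  rintro _ ⟨z, hz, rfl⟩
  exact h z hz

lemma supp_nonneg (hR : ∀ z ∈ K, ‖z‖ ≤ R) (h0 : (0 : ℂ) ∈ K) (t : ℝ) : 0 ≤ supp K t := by
  have := le_supp hR t h0
  simpa using this

lemma supp_le_bound (hR : ∀ z ∈ K, ‖z‖ ≤ R) (hne : K.Nonempty) (t : ℝ) : supp K t ≤ R :=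
  supp_le hne fun _ hz => re_exp_mul_le hR t hz

lemma supp_periodic (K : Set ℂ) : Function.Periodic (supp K) (2 * π) := by
  intro t
  unfold supp
  simp_rw [exp_neg_per]

lemma norm_exp_sub_le (s t : ℝ) : ‖exp (-(s * I)) - exp (-(t * I))‖ ≤ |s - t| := by
  have key : ∀ a b : ℝ, a ≤ b → ‖exp (-(b * I)) - exp (-(a * I))‖ ≤ b - a := by
    intro a b hab
    have := norm_image_sub_le_of_norm_deriv_le_segment' (f := fun u : ℝ => exp (-(u * I)))
      (f' := fun u : ℝ => -I * exp (-(u * I))) (C := 1) (a := a) (b := b)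
      (fun x _ => (hasDerivAt_exp_neg x).hasDerivWithinAt)
      (fun x _ => by rw [norm_mul, norm_exp_neg]; simp) b ⟨hab, le_refl _⟩
    simpa only [one_mul] using this
  rcases le_total s t with hst | hst
  · rw [norm_sub_rev, abs_sub_comm, abs_of_nonneg (by linarith)]
    exact key s t hst
  · rw [abs_of_nonneg (by linarith)]
    exact key t s hst

lemma supp_sub_le (hR : ∀ z ∈ K, ‖z‖ ≤ R) (hR0 : 0 ≤ R) (hne : K.Nonempty) (s t : ℝ) :
    supp K s - supp K t ≤ R * |s - t| := by
  rw [sub_le_iff_le_add]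
  apply supp_le hne
  intro z hz
  have h1 := le_supp hR t hz
  have h2 : (exp (-(s * I)) * z).re - (exp (-(t * I)) * z).re ≤ R * |s - t| := by
    rw [← Complex.sub_re, ← sub_mul]
    refine (Complex.re_le_norm _).trans ?_
    rw [norm_mul, mul_comm]
    exact mul_le_mul (hR z hz) (norm_exp_sub_le s t) (norm_nonneg _) hR0
  linarith

lemma abs_supp_sub_le (hR : ∀ z ∈ K, ‖z‖ ≤ R) (hR0 : 0 ≤ R) (hne : K.Nonempty) (s t : ℝ) :
    |supp K s - supp K t| ≤ R * |s - t| := by
  rw [abs_sub_le_iff]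
  refine ⟨supp_sub_le hR hR0 hne s t, ?_⟩
  rw [abs_sub_comm s t]
  exact supp_sub_le hR hR0 hne t s

lemma continuous_supp (hR : ∀ z ∈ K, ‖z‖ ≤ R) (hR0 : 0 ≤ R) (hne : K.Nonempty) :
    Continuous (supp K) := by
  have : LipschitzWith ⟨R, hR0⟩ (supp K) := by
    apply LipschitzWith.of_dist_le_mul
    intro s t
    rw [Real.dist_eq, Real.dist_eq]
    exact abs_supp_sub_le hR hR0 hne s t
  exact this.continuous

/-- the basic inequality of support functions -/
lemma supp_add_supp (hR : ∀ z ∈ K, ‖z‖ ≤ R) (hne : K.Nonempty) (t : ℝ) {θ : ℝ}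
    (hθ : 0 ≤ Real.cos θ) :
    2 * Real.cos θ * supp K t ≤ supp K (t + θ) + supp K (t - θ) := by
  have key : ∀ z ∈ K, 2 * Real.cos θ * (exp (-(t * I)) * z).re
      ≤ supp K (t + θ) + supp K (t - θ) := by
    intro z hz
    have h1 := le_supp hR (t + θ) hz
    have h2 := le_supp hR (t - θ) hz
    have h3 : exp (-(((t + θ : ℝ) : ℂ) * I)) * z + exp (-(((t - θ : ℝ) : ℂ) * I)) * z
        = ((2 * Real.cos θ : ℝ) : ℂ) * (exp (-(t * I)) * z) := by
      have e1 : -(((t + θ : ℝ) : ℂ) * I) = -(t * I) + -(θ * I) := by push_cast; ring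
      have e2 : -(((t - θ : ℝ) : ℂ) * I) = -(t * I) + (θ * I) := by push_cast; ring
      rw [e1, e2, Complex.exp_add, Complex.exp_add]
      have e3 : exp (-(θ * I)) + exp (θ * I) = ((2 * Real.cos θ : ℝ) : ℂ) := by
        push_cast
        rw [Complex.cos]
        have : -(θ : ℂ) * I = -(θ * I) := by ring
        rw [this]
        ring
      rw [← e3]
      ring
    have h4 := congrArg Complex.re h3
    rw [Complex.add_re, Complex.re_ofReal_mul] at h4
    linarith
  rcases hθ.eq_or_lt with h0 | hpos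
  · obtain ⟨z, hz⟩ := hne
    have := key z hz
    rw [← h0] at this ⊢
    simpa using this
  · have h5 : supp K t ≤ (supp K (t + θ) + supp K (t - θ)) / (2 * Real.cos θ) := by
      apply supp_le hne
      intro z hz
      rw [le_div_iff₀ (by positivity)]
      have := key z hz
      linarith
    rw [le_div_iff₀ (by positivity)] at h5
    linarith

end supp

/-! ### double averaging -/

section avg

variable {f : ℝ → ℝ}

/-- first primitive -/
noncomputable def P1 (f : ℝ → ℝ) (t : ℝ) : ℝ := ∫ s in (0 : ℝ)..t, f s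

/-- second primitive -/
noncomputable def P2 (f : ℝ → ℝ) (t : ℝ) : ℝ := ∫ s in (0 : ℝ)..t, P1 f s

lemma hasDerivAt_P1 (hf : Continuous f) (t : ℝ) : HasDerivAt (P1 f) (f t) t :=
  intervalIntegral.integral_hasDerivAt_right (hf.intervalIntegrable _ _)
    (hf.stronglyMeasurableAtFilter _ _) hf.continuousAt

lemma continuous_P1 (hf : Continuous f) : Continuous (P1 f) :=
  continuous_iff_continuousAt.2 fun t => (hasDerivAt_P1 hf t).continuousAt

lemma hasDerivAt_P2 (hf : Continuous f) (t : ℝ) : HasDerivAt (P2 f) (P1 f t) t :=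
  hasDerivAt_P1 (continuous_P1 hf) t

/-- second difference -/
noncomputable def D2 (e : ℝ) (F : ℝ → ℝ) (t : ℝ) : ℝ := (F (t + 2 * e) - 2 * F (t + e) + F t) / e ^ 2

lemma hasDerivAt_D2 (e : ℝ) {F F' : ℝ → ℝ} (hF : ∀ t, HasDerivAt F (F' t) t) (t : ℝ) :
    HasDerivAt (D2 e F) (D2 e F' t) t := by
  have h1 : HasDerivAt (fun s => F (s + 2 * e)) (F' (t + 2 * e)) t := by
    simpa using (hF (t + 2 * e)).comp_add_const t (2 * e)
  have h2 : HasDerivAt (fun s => F (s + e)) (F' (t + e)) t := by
    simpa using (hF (t + e)).comp_add_const t e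
  exact ((h1.sub (h2.const_mul 2)).add (hF t)).div_const _

lemma P1_period (hf : Continuous f) (hper : Function.Periodic f (2 * π)) (t : ℝ) :
    P1 f (t + 2 * π) - P1 f t = P1 f (2 * π) := by
  unfold P1
  rw [intervalIntegral.integral_interval_sub_left (hf.intervalIntegrable _ _)
    (hf.intervalIntegrable _ _)]
  have := hper.intervalIntegral_add_eq t 0
  rwa [zero_add] at this

lemma P2_period (hf : Continuous f) (hper : Function.Periodic f (2 * π)) (t : ℝ) :
    P2 f (t + 2 * π) - P2 f t = P2 f (2 * π) + P1 f (2 * π) * t := by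
  set φ : ℝ → ℝ := fun t => P2 f (t + 2 * π) - P2 f t - P1 f (2 * π) * t with hφ
  have hd : ∀ t, HasDerivAt φ 0 t := by
    intro t
    have h1 : HasDerivAt (fun s => P2 f (s + 2 * π)) (P1 f (t + 2 * π)) t := by
      simpa using (hasDerivAt_P2 hf (t + 2 * π)).comp_add_const t (2 * π)
    have h2 := (h1.sub (hasDerivAt_P2 hf t)).sub ((hasDerivAt_id t).const_mul (P1 f (2 * π)))
    refine h2.congr_deriv ?_
    have := P1_period hf hper t
    linarith
  have hc : φ t = φ 0 := is_const_of_deriv_eq_zero (fun s => (hd s).differentiableAt)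
    (fun s => (hd s).deriv) t 0
  have h0 : P2 f 0 = 0 := by simp [P2]
  simp only [hφ, zero_add, mul_zero, sub_zero, h0] at hc
  linarith

lemma D2_P1_periodic (e : ℝ) (hf : Continuous f) (hper : Function.Periodic f (2 * π)) :
    Function.Periodic (D2 e (P1 f)) (2 * π) := by
  intro t
  unfold D2
  have h1 := P1_period hf hper t
  have h2 := P1_period hf hper (t + e)
  have h3 := P1_period hf hper (t + 2 * e)
  have e2 : t + 2 * π + e = t + e + 2 * π := by ring
  have e3 : t + 2 * π + 2 * e = t + 2 * e + 2 * π := by ring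
  rw [e2, e3]
  congr 1
  linarith

lemma D2_P2_periodic (e : ℝ) (hf : Continuous f) (hper : Function.Periodic f (2 * π)) :
    Function.Periodic (D2 e (P2 f)) (2 * π) := by
  intro t
  unfold D2
  have h1 := P2_period hf hper t
  have h2 := P2_period hf hper (t + e)
  have h3 := P2_period hf hper (t + 2 * e)
  have e2 : t + 2 * π + e = t + e + 2 * π := by ring
  have e3 : t + 2 * π + 2 * e = t + 2 * e + 2 * π := by ring
  rw [e2, e3]
  congr 1
  linear_combination h3 - 2 * h2 + h1

lemma D2_periodic (e : ℝ) (hper : Function.Periodic f (2 * π)) :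
    Function.Periodic (D2 e f) (2 * π) := by
  intro t
  unfold D2
  have e2 : t + 2 * π + e = t + e + 2 * π := by ring
  have e3 : t + 2 * π + 2 * e = t + 2 * e + 2 * π := by ring
  rw [e2, e3, hper, hper, hper]

lemma abs_D2_P2_sub_le (hf : Continuous f) {L : ℝ} (hL0 : 0 ≤ L)
    (hL : ∀ s t, |f s - f t| ≤ L * |s - t|) {e : ℝ} (he : 0 < e) (t : ℝ) :
    |D2 e (P2 f) t - f (t + e)| ≤ 2 * L * e := by
  set u := t + e with hu
  set χ : ℝ → ℝ := fun x => P2 f (u + x) + P2 f (u - x) - 2 * P2 f u - x ^ 2 * f u with hχ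
  have hd : ∀ x, HasDerivAt χ (P1 f (u + x) - P1 f (u - x) - 2 * x * f u) x := by
    intro x
    have h1 : HasDerivAt (fun x => P2 f (u + x)) (P1 f (u + x)) x := by
      simpa using (hasDerivAt_P2 hf (u + x)).comp_const_add u x
    have h2 : HasDerivAt (fun x => P2 f (u - x)) (-(P1 f (u - x))) x := by
      simpa using (hasDerivAt_P2 hf (u - x)).comp_const_sub u x
    have h3 : HasDerivAt (fun x : ℝ => x ^ 2 * f u) (2 * x * f u) x := by
      simpa using (hasDerivAt_pow 2 x).mul_const (f u)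
    exact (((h1.add h2).sub_const _).sub h3).congr_deriv (by ring)
  have hb : ∀ x ∈ Ico (0 : ℝ) e,
      ‖P1 f (u + x) - P1 f (u - x) - 2 * x * f u‖ ≤ 2 * L * e ^ 2 := by
    intro x hx
    have h1 : P1 f (u + x) - P1 f (u - x) - 2 * x * f u = ∫ s in (u - x)..(u + x), (f s - f u) := by
      unfold P1
      rw [intervalIntegral.integral_interval_sub_left (hf.intervalIntegrable _ _)
        (hf.intervalIntegrable _ _), intervalIntegral.integral_sub (hf.intervalIntegrable _ _)
        (continuous_const.intervalIntegrable _ _), intervalIntegral.integral_const]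
      simp only [smul_eq_mul]
      ring
    rw [h1]
    have h2 : ‖∫ s in (u - x)..(u + x), (f s - f u)‖ ≤ (L * e) * |u + x - (u - x)| := by
      apply intervalIntegral.norm_integral_le_of_norm_le_const
      intro s hs
      rw [Set.uIoc_of_le (by linarith [hx.1])] at hs
      rw [Real.norm_eq_abs]
      refine (hL s u).trans (mul_le_mul_of_nonneg_left ?_ hL0)
      rw [abs_le]
      constructor <;> linarith [hs.1, hs.2, hx.1, hx.2]
    refine h2.trans ?_
    have h3 : |u + x - (u - x)| = 2 * x := by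
      rw [show u + x - (u - x) = 2 * x by ring, abs_of_nonneg (by linarith [hx.1])]
    rw [h3]
    have h4 : x ≤ e := hx.2.le
    have h5 : 0 ≤ L * e := by positivity
    nlinarith
  have h := norm_image_sub_le_of_norm_deriv_le_segment' (f := χ)
    (f' := fun x => P1 f (u + x) - P1 f (u - x) - 2 * x * f u) (C := 2 * L * e ^ 2)
    (a := 0) (b := e) (fun x _ => (hd x).hasDerivWithinAt) hb e ⟨he.le, le_refl _⟩
  have h0 : χ 0 = 0 := by simp [hχ]; ring
  have h1 : χ e = e ^ 2 * (D2 e (P2 f) t - f (t + e)) := by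
    have e1 : u + e = t + 2 * e := by rw [hu]; ring
    have e2 : u - e = t := by rw [hu]; ring
    simp only [hχ, e1, e2, D2, ← hu]
    field_simp
    ring
  rw [h0, sub_zero, h1, sub_zero, norm_mul, Real.norm_eq_abs, Real.norm_eq_abs,
    abs_of_pos (by positivity : (0:ℝ) < e ^ 2)] at h
  have h2 : e ^ 2 * |D2 e (P2 f) t - f (t + e)| ≤ e ^ 2 * (2 * L * e) := by
    refine h.trans (le_of_eq ?_)
    ring
  exact le_of_mul_le_mul_left h2 (by positivity)

end avg

/-- existence of a smooth convex domain close to a bounded set. -/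
theorem exists_suppData {K : Set ℂ} {R : ℝ} (hR : ∀ z ∈ K, ‖z‖ ≤ R) (hR0 : 0 ≤ R)
    (h0 : (0 : ℂ) ∈ K) {δ : ℝ} (hδ : 0 < δ) :
    ∃ h h1 h2 : ℝ → ℝ, SuppData h h1 h2 ∧ (∀ t, supp K t + δ / 4 ≤ h t) ∧
      (∀ t, h t ≤ supp K t + 3 * δ / 4) := by
  have hne : K.Nonempty := ⟨0, h0⟩
  set f := supp K with hf
  have hc : Continuous f := continuous_supp hR hR0 hne
  have hper : Function.Periodic f (2 * π) := supp_periodic K
  have hL : ∀ s t, |f s - f t| ≤ R * |s - t| := abs_supp_sub_le hR hR0 hne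
  have hfn : ∀ t, 0 ≤ f t := supp_nonneg hR h0
  obtain ⟨e, he0, he1, heδ⟩ : ∃ e : ℝ, 0 < e ∧ e ≤ 1 ∧ 3 * R * e ≤ δ / 4 := by
    refine ⟨min 1 (δ / (12 * (R + 1))), by positivity, min_le_left _ _, ?_⟩
    calc 3 * R * min 1 (δ / (12 * (R + 1))) ≤ 3 * R * (δ / (12 * (R + 1))) :=
          mul_le_mul_of_nonneg_left (min_le_right _ _) (by positivity)
      _ ≤ δ / 4 := by
          rw [mul_div_assoc', div_le_div_iff₀ (by positivity) (by norm_num)]
          nlinarith
  have hcl : ∀ t, |D2 e (P2 f) t - f (t + e)| ≤ 2 * R * e :=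
    fun t => abs_D2_P2_sub_le hc hR0 hL he0 t
  have hcl2 : ∀ t, |f (t + e) - f t| ≤ R * e := by
    intro t
    refine (hL (t + e) t).trans (le_of_eq ?_)
    rw [add_sub_cancel_left, abs_of_pos he0]
  refine ⟨fun t => D2 e (P2 f) t + δ / 2, D2 e (P1 f), D2 e f, ?_, ?_, ?_⟩
  · refine ⟨fun t => ?_, fun t => ?_, ?_, ?_, ?_, ?_, ?_⟩
    · exact (hasDerivAt_D2 e (hasDerivAt_P2 hc) t).add_const _
    · exact hasDerivAt_D2 e (hasDerivAt_P1 hc) t
    · unfold D2
      fun_prop
    · intro t
      show D2 e (P2 f) (t + 2 * π) + δ / 2 = D2 e (P2 f) t + δ / 2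
      rw [D2_P2_periodic e hc hper t]
    · exact D2_P1_periodic e hc hper
    · exact D2_periodic e hper
    · intro t
      have h1 := abs_le.1 (hcl t)
      have hcos : 0 ≤ Real.cos e := by
        apply Real.cos_nonneg_of_neg_pi_div_two_le_of_le
        · linarith [Real.pi_pos]
        · linarith [Real.pi_gt_three]
      have h2 := supp_add_supp hR hne (t + e) hcos
      have e1 : t + e + e = t + 2 * e := by ring
      have e2 : t + e - e = t := by ring
      rw [e1, e2, ← hf] at h2
      have h3 : 1 - e ^ 2 / 2 ≤ Real.cos e := Real.one_sub_sq_div_two_le_cos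
      have h4 : -f (t + e) ≤ D2 e f t := by
        unfold D2
        rw [le_div_iff₀ (by positivity)]
        have h5 := hfn (t + e)
        have h6 : (1 - e ^ 2 / 2) * f (t + e) ≤ Real.cos e * f (t + e) :=
          mul_le_mul_of_nonneg_right h3 h5
        linarith
      have h7 : 2 * R * e ≤ δ / 4 := by
        have : 0 ≤ R * e := by positivity
        linarith
      show 0 < D2 e (P2 f) t + δ / 2 + D2 e f t
      linarith [h1.1]
  · intro t
    have h1 := abs_le.1 (hcl t)
    have h2 := abs_le.1 (hcl2 t)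
    simp only
    linarith [h1.1, h2.1]
  · intro t
    have h1 := abs_le.1 (hcl t)
    have h2 := abs_le.1 (hcl2 t)
    simp only
    linarith [h1.2, h2.2]

/-- A point satisfying the support inequalities up to `3δ/4` is `δ`-close to the convex set. -/
theorem exists_near {K : Set ℂ} (hK : Convex ℝ K)
    (hne : K.Nonempty) {δ : ℝ} (hδ : 0 < δ) {z : ℂ}
    (hz : ∀ t : ℝ, (exp (-(t * I)) * z).re ≤ supp K t + 3 * δ / 4) : ∃ w ∈ K, dist z w < δ := by
  obtain ⟨p, hp, hpz⟩ := exists_norm_eq_iInf_of_complete_convex (K := closure K) hne.closure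
    isClosed_closure.isComplete hK.closure z
  have hpr := (norm_eq_iInf_iff_real_inner_le_zero hK.closure hp).1 hpz
  have hdist : ‖z - p‖ ≤ 3 * δ / 4 := by
    by_cases hzp : z - p = 0
    · rw [hzp, norm_zero]; positivity
    set t := Complex.arg (z - p) with ht
    have hpolar : (‖z - p‖ : ℂ) * exp (t * I) = z - p := Complex.norm_mul_exp_arg_mul_I (z - p)
    have hr : 0 < ‖z - p‖ := norm_pos_iff.2 hzp
    have h1 : exp (-(t * I)) * (z - p) = (‖z - p‖ : ℂ) := by
      rw [← hpolar, mul_left_comm, ← Complex.exp_add]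
      simp
    have h2 : supp K t ≤ (exp (-(t * I)) * p).re := by
      apply supp_le hne
      intro w hw
      have h3 := hpr w (subset_closure hw)
      have h4 : inner ℝ (z - p) (w - p) = ‖z - p‖ * ((exp (-(t * I)) * (w - p)).re) := by
        rw [Complex.inner]
        have h5 : conj (z - p) = (‖z - p‖ : ℂ) * exp (-(t * I)) := by
          conv_lhs => rw [← hpolar]
          rw [map_mul, Complex.conj_ofReal, ← Complex.exp_conj]
          congr 2
          simp
        rw [h5, mul_comm, mul_assoc, Complex.re_ofReal_mul]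
      rw [h4] at h3
      have h6 : (exp (-(t * I)) * (w - p)).re ≤ 0 := by
        by_contra hcon
        push Not at hcon
        have := mul_pos hr hcon
        linarith
      rw [mul_sub, Complex.sub_re] at h6
      linarith
    have h3 := hz t
    have h4 : (exp (-(t * I)) * z).re = (exp (-(t * I)) * p).re + ‖z - p‖ := by
      have : (exp (-(t * I)) * (z - p)).re = ‖z - p‖ := by rw [h1]; simp
      rw [mul_sub, Complex.sub_re] at this
      linarith
    linarith
  obtain ⟨w, hw, hpw⟩ := Metric.mem_closure_iff.1 hp (δ / 4) (by positivity)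
  refine ⟨w, hw, ?_⟩
  calc dist z w ≤ dist z p + dist p w := dist_triangle _ _ _
    _ < 3 * δ / 4 + δ / 4 := by
        rw [dist_eq_norm z p]
        exact add_lt_add_of_le_of_lt hdist hpw
    _ = δ := by ring

end Vale.Agent.P123
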