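import Vale.Agent.P123.Operator

/-!
# P123: the Toeplitz-Hausdorff theorem
-/

open Complex Set
open scoped Real ComplexConjugate

namespace Vale.Agent.P123

variable {H : Type*} [NormedAddCommGroup H] [InnerProductSpace ℂ H]

/-- The numerical range. -/
def numRange (A : H →L[ℂ] H) : Set ℂ := {z | ∃ v : H, ‖v‖ = 1 ∧ inner ℂ v (A v) = z}

lemma exists_phase_im (β γ : ℂ) :
    ∃ l : ℂ, ‖l‖ = 1 ∧ (conj l * β + l * γ).im = 0 := by
  by_cases hδ : β - conj γ = 0
  · refine ⟨1, by simp, ?_⟩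
    have : β = conj γ := sub_eq_zero.1 hδ
    simp [this]
  · set δ := β - conj γ with hδd
    have hn : (‖δ‖ : ℂ) ≠ 0 := by
      simpa using hδ
    refine ⟨δ / ‖δ‖, by simp [norm_ne_zero_iff.2 hδ], ?_⟩
    have h1 : conj (conj (δ / ‖δ‖) * β + (δ / ‖δ‖) * γ) = conj (δ / ‖δ‖) * β + (δ / ‖δ‖) * γ := by
      have h2 : conj δ * δ = (‖δ‖ : ℂ) ^ 2 := Complex.conj_mul' δ
      simp only [map_add, map_mul, map_div₀, Complex.conj_conj, Complex.conj_ofReal]
      have h3 : δ * (conj β - γ) = conj δ * (β - conj γ) := by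
        have h4 : conj δ = conj β - γ := by simp [hδd]
        rw [← h4, ← hδd, mul_comm]
      have h5 : (δ * conj β + conj δ * conj γ) = conj δ * β + δ * γ := by linear_combination h3
      calc δ / ‖δ‖ * conj β + conj δ / ‖δ‖ * conj γ = (δ * conj β + conj δ * conj γ) / ‖δ‖ := by ring
        _ = (conj δ * β + δ * γ) / ‖δ‖ := by rw [h5]
        _ = conj δ / ‖δ‖ * β + δ / ‖δ‖ * γ := by ring
    exact Complex.conj_eq_iff_im.1 h1

/-- The **Toeplitz-Hausdorff theorem**. -/
theorem convex_numRange (A : H →L[ℂ] H) : Convex ℝ (numRange A) := by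
  rintro z1 ⟨x, hx, hx1⟩ z2 ⟨y, hy, hy1⟩ a b ha hb hab
  by_cases hd : z1 = z2
  · refine ⟨x, hx, ?_⟩
    rw [hx1, ← hd, ← add_smul, hab, one_smul]
  have hd' : z1 - z2 ≠ 0 := sub_ne_zero.2 hd
  set d := z1 - z2 with hdd
  -- the normalised form
  let B : H → H → ℂ := fun u v => (inner ℂ u (A v) - z2 * inner ℂ u v) / d
  have hBxx : B x x = 1 := by
    simp only [B, hx1, inner_self_eq_norm_sq_to_K, hx]
    simp only [Complex.coe_algebraMap, Complex.ofReal_one, one_pow, mul_one]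
    exact div_self hd'
  have hByy : B y y = 0 := by
    simp only [B, hy1, inner_self_eq_norm_sq_to_K, hy]
    simp
  obtain ⟨l, hl, hlim⟩ := exists_phase_im (B x y) (B y x)
  have hll : conj l * l = 1 := by
    rw [Complex.conj_mul', hl]; simp
  set ρ : ℝ := (conj l * B x y + l * B y x).re with hρ
  have hρc : conj l * B x y + l * B y x = (ρ : ℂ) := by
    apply Complex.ext
    · simp [hρ]
    · rw [hlim]; simp
  let z : ℝ → H := fun s => ((s : ℂ) * l) • x + ((1 - s : ℝ) : ℂ) • y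
  have hzc : Continuous z := by fun_prop
  have hBz : ∀ s, B (z s) (z s) = ((s ^ 2 + s * (1 - s) * ρ : ℝ) : ℂ) := by
    intro s
    have e1 : B (z s) (z s) = (s : ℂ) ^ 2 * (conj l * l) * B x x
        + (s : ℂ) * (1 - s) * (conj l * B x y + l * B y x) + (1 - s : ℂ) ^ 2 * B y y := by
      simp only [B, z, map_add, map_smul, inner_add_left, inner_add_right, inner_smul_left,
        inner_smul_right, map_mul, Complex.conj_ofReal]
      push_cast
      ring
    rw [e1, hll, hBxx, hByy, hρc]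
    push_cast
    ring
  have hz0 : ∀ s ∈ Icc (0 : ℝ) 1, z s ≠ 0 := by
    intro s hs h0
    have h1 : ((s : ℂ) * l) • x = -(((1 - s : ℝ) : ℂ) • y) := eq_neg_of_add_eq_zero_left h0
    have h2 : ‖((s : ℂ) * l) • x‖ = ‖(((1 - s : ℝ) : ℂ) • y)‖ := by rw [h1, norm_neg]
    rw [norm_smul, norm_smul, norm_mul, hl, hx, hy, Complex.norm_real, Complex.norm_real,
      mul_one, mul_one, mul_one, Real.norm_eq_abs, Real.norm_eq_abs, abs_of_nonneg hs.1,
      abs_of_nonneg (by linarith [hs.2])] at h2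
    have h3 : s = 1 / 2 := by linarith
    have h4 := hBz s
    rw [h0] at h4
    have h5 : B 0 0 = 0 := by simp [B]
    rw [h5] at h4
    -- y = - l x
    have h6 : y = -(l • x) := by
      rw [h3] at h1
      have h7 : ((2 : ℂ)) • ((((1 / 2 : ℝ) : ℂ) * l) • x) = (2 : ℂ) • (-(((1 - 1 / 2 : ℝ) : ℂ) • y)) := by
        rw [h1]
      rw [smul_smul, smul_neg, smul_smul] at h7
      have h8 : (2 : ℂ) * (((1 / 2 : ℝ) : ℂ) * l) = l := by push_cast; ring
      have h9 : (2 : ℂ) * ((1 - 1 / 2 : ℝ) : ℂ) = 1 := by push_cast; ring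
      rw [h8, h9, one_smul] at h7
      rw [h7, neg_neg]
    have h7 : B y y = (conj l * l) * B x x := by
      rw [h6]
      simp only [B, map_neg, map_smul, inner_neg_left, inner_neg_right, inner_smul_left,
        inner_smul_right]
      ring
    rw [hByy, hll, hBxx] at h7
    norm_num at h7
  let r : ℝ → ℝ := fun s => (s ^ 2 + s * (1 - s) * ρ) / ‖z s‖ ^ 2
  have hrc : ContinuousOn r (Icc 0 1) := by
    apply ContinuousOn.div (by fun_prop) (by fun_prop)
    intro s hs
    exact pow_ne_zero 2 (norm_ne_zero_iff.2 (hz0 s hs))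
  have hr0 : r 0 = 0 := by simp [r]
  have hr1 : r 1 = 1 := by
    have : ‖z 1‖ = 1 := by
      simp [z, norm_smul, hl, hx]
    simp [r, this]
  have hivt := intermediate_value_Icc (zero_le_one (α := ℝ)) hrc
  rw [hr0, hr1] at hivt
  obtain ⟨s, hs, hsa⟩ := hivt ⟨ha, by linarith⟩
  have hzs := hz0 s hs
  have hzn : ‖z s‖ ≠ 0 := norm_ne_zero_iff.2 hzs
  refine ⟨((‖z s‖⁻¹ : ℝ) : ℂ) • z s, ?_, ?_⟩
  · rw [norm_smul, Complex.norm_real, norm_inv, norm_norm, inv_mul_cancel₀ hzn]
  · rw [map_smul, inner_smul_left, inner_smul_right, Complex.conj_ofReal]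
    have h1 := hBz s
    have h2 : inner ℂ (z s) (A (z s)) = d * ((s ^ 2 + s * (1 - s) * ρ : ℝ) : ℂ)
        + z2 * (‖z s‖ : ℂ) ^ 2 := by
      rw [← h1]
      simp only [B, inner_self_eq_norm_sq_to_K]
      rw [mul_div_cancel₀ _ hd']
      simp
    have h3 : (s ^ 2 + s * (1 - s) * ρ : ℝ) = a * ‖z s‖ ^ 2 := by
      have := hsa
      simp only [r] at this
      rwa [div_eq_iff (pow_ne_zero 2 hzn)] at this
    rw [h2, h3]
    have h4 : (‖z s‖ : ℂ) ≠ 0 := by exact_mod_cast hzn
    have h5 : b = 1 - a := by linarith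
    rw [h5, hdd]
    simp only [Complex.real_smul]
    push_cast
    field_simp
    ring

end Vale.Agent.P123
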