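import Vale.Agent.P123.Abstract

/-!
# P123: certificates from inequalities on the unit circle
-/

open Polynomial ComplexConjugate

namespace Vale.Agent.P123

/-- Maximum principle for the real part on the unit disc. -/
lemma re_le_of_circle {f : ℂ → ℂ} (hf : Differentiable ℂ f) {M : ℝ}
    (h : ∀ z, ‖z‖ = 1 → (f z).re ≤ M) {z : ℂ} (hz : ‖z‖ ≤ 1) : (f z).re ≤ M := by
  have hd : DiffContOnCl ℂ (fun z => Complex.exp (f z)) (Metric.ball 0 1) :=
    (hf.cexp).diffContOnCl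
  have h3 := Complex.norm_le_of_forall_mem_frontier_norm_le Metric.isBounded_ball hd
    (C := Real.exp M) (z := z) (fun w hw => by
      rw [frontier_ball (0 : ℂ) one_ne_zero, mem_sphere_zero_iff_norm] at hw
      rw [Complex.norm_exp]
      exact Real.exp_le_exp.2 (h w hw)) (by
      rw [closure_ball (0 : ℂ) one_ne_zero, mem_closedBall_zero_iff]
      exact hz)
  rw [Complex.norm_exp, Real.exp_le_exp] at h3
  exact h3

/-- Maximum principle for the real part on the bidisc. -/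
lemma re_le_of_torus {G : ℂ → ℂ → ℂ} (h1 : ∀ γ, Differentiable ℂ (fun ξ => G ξ γ))
    (h2 : ∀ ξ, Differentiable ℂ (fun γ => G ξ γ)) {M : ℝ}
    (h : ∀ ξ γ, ‖ξ‖ = 1 → ‖γ‖ = 1 → (G ξ γ).re ≤ M) {ξ γ : ℂ} (hξ : ‖ξ‖ ≤ 1) (hγ : ‖γ‖ ≤ 1) :
    (G ξ γ).re ≤ M := by
  refine re_le_of_circle (h2 ξ) (fun γ' hγ' => ?_) hγ
  exact re_le_of_circle (h1 γ') (fun ξ' hξ' => h ξ' γ' hξ' hγ') hξ

lemma exists_unit_mul_eq_norm (z : ℂ) : ∃ u : ℂ, ‖u‖ = 1 ∧ (u * z).re = ‖z‖ := by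
  obtain ⟨e, he, hz⟩ := exists_phase z
  refine ⟨conj e, by rw [RCLike.norm_conj, he], ?_⟩
  have h1 : conj e * e = 1 := by
    rw [← Complex.normSq_eq_conj_mul_self, Complex.normSq_eq_norm_sq, he]; simp
  have h2 : conj e * z = (‖z‖ : ℂ) := by
    calc conj e * z = conj e * ((‖z‖ : ℂ) * e) := by rw [← hz]
      _ = (‖z‖ : ℂ) * (conj e * e) := by ring
      _ = ‖z‖ := by rw [h1, mul_one]
  rw [h2, Complex.ofReal_re]

lemma re_mul_conj_swap (u v : ℂ) : (u * conj v).re = (conj u * v).re := by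
  simp only [Complex.mul_re, Complex.conj_re, Complex.conj_im]
  ring

lemma conj_mul_self_of_norm {ξ : ℂ} (h : ‖ξ‖ = 1) : ξ * conj ξ = 1 := by
  rw [Complex.mul_conj, Complex.normSq_eq_norm_sq, h]; simp

/-- A certificate from inequalities on the unit circle. -/
theorem cert_of_circle {K : ℝ} (hK : 0 < K) {P Q F : ℂ[X]} {lam C1 c0 : ℝ}
    (hM : ∀ w : ℂ, ‖w‖ = 1 → ‖P.eval w + conj (w * Q.eval w)‖ ≤ (F.eval w).re)
    (hA : ∀ w : ℂ, ‖w‖ = 1 → (F.eval w).re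
      + ‖(K : ℂ)⁻¹ * P.eval w + K * conj (w * Q.eval w) - lam‖ ≤ C1)
    (hB : ∀ w : ℂ, ‖w‖ = 1 → (F.eval w - K * P.eval w - (K : ℂ)⁻¹ * (w * Q.eval w) - lam * w).re
      ≤ - C1 - c0) : Cert K P Q F c0 |lam| := by
  have hKi : ((K : ℂ)⁻¹) = ((K⁻¹ : ℝ) : ℂ) := by push_cast; rfl
  have key : ∀ ξ γ : ℂ, ‖ξ‖ = 1 → conj (γ * Q.eval (ξ * γ))
      = ξ * conj ((ξ * γ) * Q.eval (ξ * γ)) := by
    intro ξ γ hξ
    have := conj_mul_self_of_norm hξ
    rw [map_mul, map_mul, map_mul]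
    linear_combination (-(conj γ * conj (Q.eval (ξ * γ)))) * this
  constructor
  · intro ξ γ hξ hγ
    obtain ⟨u, hu, hu2⟩ := exists_unit_mul_eq_norm (ξ * P.eval (ξ * γ) + conj (γ * Q.eval (ξ * γ)))
    rw [← hu2]
    have hgoal : (u * (ξ * P.eval (ξ * γ)) + conj u * (γ * Q.eval (ξ * γ)) - F.eval (ξ * γ)).re
        ≤ 0 := by
      refine re_le_of_torus (G := fun ξ γ => u * (ξ * P.eval (ξ * γ))
        + conj u * (γ * Q.eval (ξ * γ)) - F.eval (ξ * γ)) ?_ ?_ ?_ hξ hγ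
      · intro γ
        have e1 := P.differentiable (𝕜 := ℂ)
        have e2 := Q.differentiable (𝕜 := ℂ)
        have e3 := F.differentiable (𝕜 := ℂ)
        have e4 : Differentiable ℂ (fun ξ : ℂ => ξ * γ) := by fun_prop
        exact (((differentiable_id.mul (e1.comp e4)).const_mul u).add
          (((e2.comp e4).const_mul γ).const_mul (conj u))).sub (e3.comp e4)
      · intro ξ
        have e1 := P.differentiable (𝕜 := ℂ)
        have e2 := Q.differentiable (𝕜 := ℂ)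
        have e3 := F.differentiable (𝕜 := ℂ)
        have e4 : Differentiable ℂ (fun γ : ℂ => ξ * γ) := by fun_prop
        exact ((((e1.comp e4).const_mul ξ).const_mul u).add
          ((differentiable_id.mul (e2.comp e4)).const_mul (conj u))).sub (e3.comp e4)
      · intro ξ γ hξ hγ
        have hw : ‖ξ * γ‖ = 1 := by rw [norm_mul, hξ, hγ, one_mul]
        have h1 := hM (ξ * γ) hw
        have h2 : (u * (ξ * P.eval (ξ * γ)) + conj u * (γ * Q.eval (ξ * γ))).re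
            = (u * (ξ * (P.eval (ξ * γ) + conj ((ξ * γ) * Q.eval (ξ * γ))))).re := by
          rw [mul_add, mul_add, ← key ξ γ hξ, Complex.add_re, Complex.add_re,
            re_mul_conj_swap u]
        have h3 : (u * (ξ * (P.eval (ξ * γ) + conj ((ξ * γ) * Q.eval (ξ * γ))))).re
            ≤ ‖P.eval (ξ * γ) + conj ((ξ * γ) * Q.eval (ξ * γ))‖ := by
          refine (Complex.re_le_norm _).trans ?_
          rw [norm_mul, norm_mul, hu, hξ, one_mul, one_mul]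
        rw [Complex.sub_re, h2]
        linarith
    rw [Complex.sub_re, Complex.add_re] at hgoal
    rw [mul_add, Complex.add_re, re_mul_conj_swap u]
    linarith
  · intro w₀ hw₀
    refine ⟨((-lam : ℝ) : ℂ), by rw [Complex.norm_real, Real.norm_eq_abs, abs_neg], ?_⟩
    intro ξ γ hξ hγ
    have hpart1 : (F.eval (ξ * γ) - (K : ℂ)⁻¹ * (ξ * P.eval (ξ * γ))
        - K * (γ * Q.eval (ξ * γ)) - ((-lam : ℝ) : ℂ) * ξ).re ≤ C1 := by
      refine re_le_of_torus (G := fun ξ γ => F.eval (ξ * γ) - (K : ℂ)⁻¹ * (ξ * P.eval (ξ * γ))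
        - K * (γ * Q.eval (ξ * γ)) - ((-lam : ℝ) : ℂ) * ξ) ?_ ?_ ?_ hξ hγ
      · intro γ
        have e1 := P.differentiable (𝕜 := ℂ)
        have e2 := Q.differentiable (𝕜 := ℂ)
        have e3 := F.differentiable (𝕜 := ℂ)
        have e4 : Differentiable ℂ (fun ξ : ℂ => ξ * γ) := by fun_prop
        exact (((e3.comp e4).sub ((differentiable_id.mul (e1.comp e4)).const_mul _)).sub
          (((e2.comp e4).const_mul γ).const_mul _)).sub (differentiable_id.const_mul _)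
      · intro ξ
        have e1 := P.differentiable (𝕜 := ℂ)
        have e2 := Q.differentiable (𝕜 := ℂ)
        have e3 := F.differentiable (𝕜 := ℂ)
        have e4 : Differentiable ℂ (fun γ : ℂ => ξ * γ) := by fun_prop
        exact (((e3.comp e4).sub (((e1.comp e4).const_mul ξ).const_mul _)).sub
          ((differentiable_id.mul (e2.comp e4)).const_mul _)).sub (differentiable_const _)
      · intro ξ γ hξ hγ
        have hw : ‖ξ * γ‖ = 1 := by rw [norm_mul, hξ, hγ, one_mul]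
        have h1 := hA (ξ * γ) hw
        have h2 : (F.eval (ξ * γ) - (K : ℂ)⁻¹ * (ξ * P.eval (ξ * γ))
            - K * (γ * Q.eval (ξ * γ)) - ((-lam : ℝ) : ℂ) * ξ).re
            = (F.eval (ξ * γ)).re - (ξ * ((K : ℂ)⁻¹ * P.eval (ξ * γ)
              + K * conj ((ξ * γ) * Q.eval (ξ * γ)) - lam)).re := by
          have e1 : (γ * Q.eval (ξ * γ)).re = (ξ * conj ((ξ * γ) * Q.eval (ξ * γ))).re := by
            rw [← key ξ γ hξ, Complex.conj_re]
          have e2 : ((K : ℂ) * (γ * Q.eval (ξ * γ))).re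
              = K * (γ * Q.eval (ξ * γ)).re := Complex.re_ofReal_mul _ _
          have e3 : (ξ * ((K : ℂ)⁻¹ * P.eval (ξ * γ)
              + K * conj ((ξ * γ) * Q.eval (ξ * γ)) - lam))
              = (K : ℂ)⁻¹ * (ξ * P.eval (ξ * γ))
                + (K : ℂ) * (ξ * conj ((ξ * γ) * Q.eval (ξ * γ))) - (lam : ℂ) * ξ := by ring
          rw [Complex.sub_re, Complex.sub_re, Complex.sub_re, e3, Complex.sub_re, Complex.add_re,
            e2, e1, Complex.re_ofReal_mul K, Complex.ofReal_neg, neg_mul, Complex.neg_re]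
          ring
        have h3 : -(ξ * ((K : ℂ)⁻¹ * P.eval (ξ * γ)
              + K * conj ((ξ * γ) * Q.eval (ξ * γ)) - lam)).re
            ≤ ‖(K : ℂ)⁻¹ * P.eval (ξ * γ) + K * conj ((ξ * γ) * Q.eval (ξ * γ)) - lam‖ := by
          have := (neg_le_abs _).trans (Complex.abs_re_le_norm (ξ * ((K : ℂ)⁻¹ * P.eval (ξ * γ)
              + K * conj ((ξ * γ) * Q.eval (ξ * γ)) - lam)))
          rwa [norm_mul, hξ, one_mul] at this
        rw [h2]
        linarith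
    have hpart2 : (F.eval w₀ - K * P.eval w₀ - (K : ℂ)⁻¹ * (w₀ * Q.eval w₀) - lam * w₀).re
        ≤ - C1 - c0 := by
      refine re_le_of_circle (f := fun w₀ => F.eval w₀ - K * P.eval w₀
        - (K : ℂ)⁻¹ * (w₀ * Q.eval w₀) - lam * w₀) ?_ hB hw₀
      have e1 := P.differentiable (𝕜 := ℂ)
      have e2 := Q.differentiable (𝕜 := ℂ)
      have e3 := F.differentiable (𝕜 := ℂ)
      exact ((e3.sub (e1.const_mul _)).sub ((differentiable_id.mul e2).const_mul _)).sub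
        (differentiable_id.const_mul _)
    have h4 : (conj (((-lam : ℝ) : ℂ)) * w₀).re = - (lam * w₀).re := by
      rw [Complex.conj_ofReal, Complex.ofReal_neg, neg_mul, Complex.neg_re]
    rw [h4]
    rw [Complex.sub_re] at hpart2
    linarith

/-- Monotonicity of the certificate in `K`. -/
theorem cert_mono {K0 K : ℝ} (hK0 : 0 < K0) (hK : K0 ≤ K) {P Q F : ℂ[X]}
    {lam C1 c0 p0 p1 q κ : ℝ}
    (hp0 : ∀ w : ℂ, ‖w‖ = 1 → p0 ≤ (P.eval w).re) (hp1 : ∀ w : ℂ, ‖w‖ = 1 → ‖P.eval w‖ ≤ p1)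
    (hq : ∀ w : ℂ, ‖w‖ = 1 → ‖w * Q.eval w‖ ≤ q)
    (h1 : p1 / K0 ^ 2 + q ≤ κ) (h2 : κ ≤ p0 - q / K0 ^ 2)
    (hM : ∀ w : ℂ, ‖w‖ = 1 → ‖P.eval w + conj (w * Q.eval w)‖ ≤ (F.eval w).re)
    (hA : ∀ w : ℂ, ‖w‖ = 1 → (F.eval w).re
      + ‖(K0 : ℂ)⁻¹ * P.eval w + K0 * conj (w * Q.eval w) - lam‖ ≤ C1)
    (hB : ∀ w : ℂ, ‖w‖ = 1 → (F.eval w - K0 * P.eval w - (K0 : ℂ)⁻¹ * (w * Q.eval w) - lam * w).re
      ≤ - C1 - c0) : Cert K P Q F c0 |lam| := by
  have hKp : 0 < K := hK0.trans_le hK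
  have hd0 : 0 ≤ K - K0 := by linarith
  have hinv : K0⁻¹ - K⁻¹ = (K - K0) / (K * K0) := by field_simp
  have hinv0 : 0 ≤ K0⁻¹ - K⁻¹ := by rw [hinv]; positivity
  have hinv1 : K0⁻¹ - K⁻¹ ≤ (K - K0) / K0 ^ 2 := by
    rw [hinv]
    apply div_le_div_of_nonneg_left hd0 (by positivity)
    nlinarith
  have hKi : ((K : ℂ)⁻¹) = ((K⁻¹ : ℝ) : ℂ) := by push_cast; rfl
  have hK0i : ((K0 : ℂ)⁻¹) = ((K0⁻¹ : ℝ) : ℂ) := by push_cast; rfl
  have hq0 : 0 ≤ q := (norm_nonneg _).trans (hq 1 (by simp))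
  have hp10 : 0 ≤ p1 := (norm_nonneg _).trans (hp1 1 (by simp))
  refine cert_of_circle hKp hM (C1 := C1 + κ * (K - K0)) ?_ ?_
  · intro w hw
    have e1 : (K : ℂ)⁻¹ * P.eval w + K * conj (w * Q.eval w) - lam
        = ((K0 : ℂ)⁻¹ * P.eval w + K0 * conj (w * Q.eval w) - lam)
          + (-(((K0⁻¹ - K⁻¹ : ℝ) : ℂ) * P.eval w)
            + ((K - K0 : ℝ) : ℂ) * conj (w * Q.eval w)) := by
      rw [hKi, hK0i]; push_cast; ring
    have e2 : ‖-(((K0⁻¹ - K⁻¹ : ℝ) : ℂ) * P.eval w)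
            + ((K - K0 : ℝ) : ℂ) * conj (w * Q.eval w)‖ ≤ κ * (K - K0) := by
      refine (norm_add_le _ _).trans ?_
      rw [norm_neg, norm_mul, norm_mul, Complex.norm_real, Complex.norm_real, RCLike.norm_conj,
        Real.norm_of_nonneg hinv0, Real.norm_of_nonneg hd0]
      have f1 : (K0⁻¹ - K⁻¹) * ‖P.eval w‖ ≤ (K - K0) / K0 ^ 2 * p1 :=
        mul_le_mul hinv1 (hp1 w hw) (norm_nonneg _) (by positivity)
      have f2 : (K - K0) * ‖w * Q.eval w‖ ≤ (K - K0) * q :=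
        mul_le_mul_of_nonneg_left (hq w hw) hd0
      have f3 : (p1 / K0 ^ 2 + q) * (K - K0) ≤ κ * (K - K0) := mul_le_mul_of_nonneg_right h1 hd0
      have f4 : (K - K0) / K0 ^ 2 * p1 = p1 / K0 ^ 2 * (K - K0) := by ring
      linarith
    rw [e1]
    have e3 := norm_add_le ((K0 : ℂ)⁻¹ * P.eval w + K0 * conj (w * Q.eval w) - lam)
      (-(((K0⁻¹ - K⁻¹ : ℝ) : ℂ) * P.eval w) + ((K - K0 : ℝ) : ℂ) * conj (w * Q.eval w))
    have e4 := hA w hw
    linarith
  · intro w hw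
    have e1 : F.eval w - K * P.eval w - (K : ℂ)⁻¹ * (w * Q.eval w) - lam * w
        = (F.eval w - K0 * P.eval w - (K0 : ℂ)⁻¹ * (w * Q.eval w) - lam * w)
          - ((K - K0 : ℝ) : ℂ) * P.eval w + ((K0⁻¹ - K⁻¹ : ℝ) : ℂ) * (w * Q.eval w) := by
      rw [hKi, hK0i]; push_cast; ring
    rw [e1, Complex.add_re, Complex.sub_re, Complex.re_ofReal_mul, Complex.re_ofReal_mul]
    have e2 := hB w hw
    have f1 : (K - K0) * p0 ≤ (K - K0) * (P.eval w).re := mul_le_mul_of_nonneg_left (hp0 w hw) hd0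
    have f2 : (K0⁻¹ - K⁻¹) * (w * Q.eval w).re ≤ (K - K0) / K0 ^ 2 * q := by
      have g1 : (w * Q.eval w).re ≤ q := (Complex.re_le_norm _).trans (hq w hw)
      calc (K0⁻¹ - K⁻¹) * (w * Q.eval w).re ≤ (K0⁻¹ - K⁻¹) * q :=
            mul_le_mul_of_nonneg_left g1 hinv0
        _ ≤ (K - K0) / K0 ^ 2 * q := mul_le_mul_of_nonneg_right hinv1 hq0
    have f3 : (K - K0) * κ ≤ (K - K0) * (p0 - q / K0 ^ 2) := mul_le_mul_of_nonneg_left h2 hd0
    have f4 : (K - K0) * (p0 - q / K0 ^ 2) = (K - K0) * p0 - (K - K0) / K0 ^ 2 * q := by ring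
    linarith

end Vale.Agent.P123
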